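import Mathlib

/-!
Row 299: shared definitions and API.

* `cls r x` : the class of `x` for a setoid on a finite type;
* `cE r f`  : conditional expectation (average over classes);
* `rel p q U` : the two-row relation on `S → Bool` (rows `p`, `q : κ → S`, columns `U`);
* `Osep`, `sw` : the states in which columns `c`, `d` are separated, and the corresponding switch;
* `en` : the energy of a switch; `avO` : average over the separated part of a class;
* `grel a b` : the two-row relation of the vertices `a`, `b` in a graph (`Sym2 V → Bool`).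
-/

set_option autoImplicit false
open Finset

namespace Crest.Agent.R299

section cexp

variable {α : Type*} [Fintype α]

open Classical in
/-- the class of `x` -/
noncomputable def cls (r : Setoid α) (x : α) : Finset α := univ.filter fun y => r x y

/-- conditional expectation: average of `f` over the class of `x` -/
noncomputable def cE (r : Setoid α) (f : α → ℝ) (x : α) : ℝ :=
  (∑ y ∈ cls r x, f y) / ((cls r x).card : ℝ)

@[simp] theorem mem_cls {r : Setoid α} {x y : α} : y ∈ cls r x ↔ r x y := by
  classical simp [cls]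

theorem self_mem_cls (r : Setoid α) (x : α) : x ∈ cls r x := mem_cls.mpr (r.refl' x)

theorem cls_eq {r : Setoid α} {x y : α} (h : r x y) : cls r x = cls r y := by
  ext z
  simp only [mem_cls]
  exact ⟨fun hz => r.trans' (r.symm' h) hz, fun hz => r.trans' h hz⟩

theorem card_cls_pos (r : Setoid α) (x : α) : 0 < (cls r x).card :=
  card_pos.mpr ⟨x, self_mem_cls r x⟩

theorem card_cls_ne (r : Setoid α) (x : α) : ((cls r x).card : ℝ) ≠ 0 := by
  exact_mod_cast (card_cls_pos r x).ne'

theorem cE_congr {r : Setoid α} {f : α → ℝ} {x y : α} (h : r x y) : cE r f x = cE r f y := by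
  unfold cE; rw [cls_eq h]

theorem cE_add (r : Setoid α) (f g : α → ℝ) (x : α) :
    cE r (fun y => f y + g y) x = cE r f x + cE r g x := by
  unfold cE; rw [sum_add_distrib, add_div]

theorem cE_sub (r : Setoid α) (f g : α → ℝ) (x : α) :
    cE r (fun y => f y - g y) x = cE r f x - cE r g x := by
  unfold cE; rw [sum_sub_distrib, sub_div]

theorem cE_mul_const (r : Setoid α) (c : ℝ) (f : α → ℝ) (x : α) :
    cE r (fun y => c * f y) x = c * cE r f x := by
  unfold cE; rw [← mul_sum, mul_div_assoc]

theorem cE_const (r : Setoid α) (c : ℝ) (x : α) : cE r (fun _ => c) x = c := by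
  unfold cE
  rw [sum_const, nsmul_eq_mul, mul_comm, mul_div_assoc, div_self (card_cls_ne r x), mul_one]

theorem card_mul_cE (r : Setoid α) (f : α → ℝ) (x : α) :
    ((cls r x).card : ℝ) * cE r f x = ∑ y ∈ cls r x, f y := by
  unfold cE; rw [mul_div_cancel₀]; exact card_cls_ne r x

/-- a function equal on the class has the same conditional expectation -/
theorem cE_eq_of_eqOn {r : Setoid α} {f g : α → ℝ} {x : α} (h : ∀ y, r x y → f y = g y) :
    cE r f x = cE r g x := by
  unfold cE
  rw [sum_congr rfl (fun y hy => h y (mem_cls.mp hy))]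

/-- an invariant function is fixed -/
theorem cE_of_inv {r : Setoid α} {f : α → ℝ} {x : α} (h : ∀ y, r x y → f y = f x) :
    cE r f x = f x := by
  rw [cE_eq_of_eqOn (g := fun _ => f x) h, cE_const]

theorem cE_idem (r : Setoid α) (f : α → ℝ) : cE r (cE r f) = cE r f := by
  funext x
  exact cE_of_inv fun y hy => cE_congr (r.symm' hy)

/-- pull out an invariant factor -/
theorem cE_mul_inv {r : Setoid α} {f g : α → ℝ} {x : α} (h : ∀ y, r x y → g y = g x) :
    cE r (fun y => g y * f y) x = g x * cE r f x := by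
  rw [← cE_mul_const]
  exact cE_eq_of_eqOn fun y hy => by rw [h y hy]

/-- the double counting identity behind symmetry -/
theorem sum_cE (r : Setoid α) (f : α → ℝ) : ∑ x, cE r f x = ∑ x, f x := by
  classical
  have h1 : ∀ x, cE r f x = ∑ y, if r x y then f y / ((cls r y).card : ℝ) else 0 := by
    intro x
    unfold cE
    rw [sum_div, ← sum_filter]
    apply sum_congr
    · ext y; simp
    · intro y hy
      rw [cls_eq (mem_cls.mp hy)]
  rw [sum_congr rfl fun x _ => h1 x, sum_comm]
  apply sum_congr rfl
  intro y _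
  rw [← sum_filter, sum_const, nsmul_eq_mul]
  have : (univ.filter fun x => r x y) = cls r y := by
    ext x; simp only [mem_filter, mem_univ, true_and, mem_cls]; exact r.comm'
  rw [this, mul_div_cancel₀]
  exact card_cls_ne r y

theorem sum_mul_cE (r : Setoid α) (f g : α → ℝ) :
    ∑ x, g x * cE r f x = ∑ x, cE r g x * cE r f x := by
  have : ∀ x, cE r g x * cE r f x = cE r (fun y => cE r f y * g y) x := by
    intro x
    rw [cE_mul_inv (f := g) (g := cE r f) (fun y hy => cE_congr (r.symm' hy)), mul_comm]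
  rw [sum_congr rfl fun x _ => this x, sum_cE]
  exact sum_congr rfl fun x _ => mul_comm _ _

/-- symmetry -/
theorem cE_symm (r : Setoid α) (f g : α → ℝ) :
    ∑ x, g x * cE r f x = ∑ x, cE r g x * f x := by
  rw [sum_mul_cE]
  have := sum_mul_cE r g f
  calc ∑ x, cE r g x * cE r f x = ∑ x, cE r f x * cE r g x :=
        sum_congr rfl fun x _ => mul_comm _ _
    _ = ∑ x, f x * cE r g x := this.symm
    _ = _ := sum_congr rfl fun x _ => mul_comm _ _

/-- `f - E f` is orthogonal to invariant functions -/
theorem sum_inv_mul_sub (r : Setoid α) (f g : α → ℝ) (hg : ∀ x y, r x y → g x = g y) :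
    ∑ x, g x * (f x - cE r f x) = 0 := by
  simp only [mul_sub, sum_sub_distrib]
  rw [cE_symm, sub_eq_zero]
  apply sum_congr rfl
  intro x _
  rw [cE_of_inv (f := g) fun y hy => (hg x y hy).symm]

/-- Pythagoras -/
theorem sum_sq_sub_cE (r : Setoid α) (f : α → ℝ) :
    ∑ x, (f x - cE r f x) ^ 2 = ∑ x, f x ^ 2 - ∑ x, cE r f x ^ 2 := by
  have h := sum_mul_cE r f f
  have : ∀ x, (f x - cE r f x) ^ 2 = f x ^ 2 - 2 * (f x * cE r f x) + cE r f x ^ 2 := by
    intro x; ring
  rw [sum_congr rfl fun x _ => this x, sum_add_distrib, sum_sub_distrib, ← mul_sum, h]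
  have h2 : ∑ x, cE r f x * cE r f x = ∑ x, cE r f x ^ 2 :=
    sum_congr rfl fun x _ => (sq _).symm
  rw [h2]; ring

/-- `⟨f, f - E f⟩ = ‖f - E f‖²` -/
theorem sum_mul_sub_cE (r : Setoid α) (f : α → ℝ) :
    ∑ x, f x * (f x - cE r f x) = ∑ x, (f x - cE r f x) ^ 2 := by
  have h := sum_inv_mul_sub r f (cE r f) (fun x y hxy => cE_congr hxy)
  have : ∀ x, f x * (f x - cE r f x) = (f x - cE r f x) ^ 2 + cE r f x * (f x - cE r f x) := by
    intro x; ring
  rw [sum_congr rfl fun x _ => this x, sum_add_distrib, h, add_zero]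

/-- pointwise Jensen -/
theorem cE_sq_le (r : Setoid α) (f : α → ℝ) (x : α) :
    cE r f x ^ 2 ≤ cE r (fun y => f y ^ 2) x := by
  unfold cE
  have hc := card_cls_pos r x
  have hc' : (0 : ℝ) < (cls r x).card := by exact_mod_cast hc
  rw [div_pow, div_le_div_iff₀ (by positivity) hc']
  have := sq_sum_le_card_mul_sum_sq (s := cls r x) (f := f)
  nlinarith

/-- contraction -/
theorem sum_cE_sq_le (r : Setoid α) (f : α → ℝ) : ∑ x, cE r f x ^ 2 ≤ ∑ x, f x ^ 2 := by
  rw [← sum_cE r (fun y => f y ^ 2)]
  exact sum_le_sum fun x _ => cE_sq_le r f x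

/-- monotonicity / tower property -/
theorem cE_cE_of_le {r s : Setoid α} (h : r ≤ s) (f : α → ℝ) : cE r (cE s f) = cE s f := by
  funext x
  exact cE_of_inv fun y hy => cE_congr (s.symm' (h hy))

theorem cE_cE_of_ge {r s : Setoid α} (h : r ≤ s) (f : α → ℝ) : cE s (cE r f) = cE s f := by
  -- both sides are `s`-invariant and have the same integrals against `s`-invariant functions
  classical
  funext x
  set g : α → ℝ := fun y => if s x y then 1 else 0 with hg
  have hginv : ∀ u v, s u v → g u = g v := by
    intro u v huv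
    simp only [hg]
    have : s x u ↔ s x v := ⟨fun h' => s.trans' h' huv, fun h' => s.trans' h' (s.symm' huv)⟩
    simp only [this]
  have hginv' : ∀ u v, r u v → g u = g v := fun u v huv => hginv u v (h huv)
  have e1 : ∑ y, g y * cE r f y = ∑ y, g y * f y := by
    have := sum_inv_mul_sub r f g hginv'
    simp only [mul_sub, sum_sub_distrib] at this
    linarith
  have e2 : ∀ F : α → ℝ, ∑ y, g y * F y = ∑ y ∈ cls s x, F y := by
    intro F
    simp only [hg, ite_mul, one_mul, zero_mul, ← sum_filter]
    apply sum_congr _ fun _ _ => rfl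
    ext y; simp
  rw [e2, e2] at e1
  unfold cE at *
  rw [e1]

/-- a permutation moving points inside their classes does not change the expectation -/
theorem cE_comp_of_rel {r : Setoid α} (v : Equiv.Perm α) (hv : ∀ x, r x (v x)) (f : α → ℝ) (x : α) :
    cE r (fun y => f (v y)) x = cE r f x := by
  unfold cE
  congr 1
  apply sum_bij (fun y _ => v y)
  · intro y hy
    exact mem_cls.mpr (r.trans' (mem_cls.mp hy) (hv y))
  · intro a _ b _ hab; exact v.injective hab
  · intro y hy
    refine ⟨v.symm y, mem_cls.mpr ?_, by simp⟩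
    have := hv (v.symm y)
    rw [Equiv.apply_symm_apply] at this
    exact r.trans' (mem_cls.mp hy) (r.symm' this)
  · intro y _; rfl

/-- a permutation preserving the relation commutes with the expectation -/
theorem cE_comp_of_preserve {r : Setoid α} (v : Equiv.Perm α) (hv : ∀ x y, r x y ↔ r (v x) (v y))
    (f : α → ℝ) (x : α) : cE r (fun y => f (v y)) x = cE r f (v x) := by
  unfold cE
  have hcard : (cls r x).card = (cls r (v x)).card := by
    apply card_bij (fun y _ => v y)
    · intro y hy; exact mem_cls.mpr ((hv x y).mp (mem_cls.mp hy))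
    · intro a _ b _ hab; exact v.injective hab
    · intro y hy
      refine ⟨v.symm y, mem_cls.mpr ?_, by simp⟩
      rw [hv]; simpa using mem_cls.mp hy
  rw [hcard]
  congr 1
  apply sum_bij (fun y _ => v y)
  · intro y hy; exact mem_cls.mpr ((hv x y).mp (mem_cls.mp hy))
  · intro a _ b _ hab; exact v.injective hab
  · intro y hy
    refine ⟨v.symm y, mem_cls.mpr ?_, by simp⟩
    rw [hv]; simpa using mem_cls.mp hy
  · intro y _; rfl

/-- **Commutation criterion.** On an invariant set `P`: `m y w` mixes `y ∈ [x]_r` and `w ∈ [x]_s` to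
the fourth corner of the rectangle. -/
theorem cE_comm_on {r s : Setoid α} (P : α → Prop) (hPr : ∀ x y, P x → r x y → P y)
    (hPs : ∀ x y, P x → s x y → P y) (m : α → α → α)
    (h1 : ∀ x y w, P x → r x y → s x w → r w (m y w) ∧ s y (m y w))
    (h2 : ∀ x y w, P x → r x y → s x w → m x (m y w) = w)
    (h3 : ∀ x y w, P x → r x y → s x w → m (m y w) x = y)
    (f : α → ℝ) (x : α) (hx : P x) :
    cE r (cE s f) x = cE s (cE r f) x := by
  have e1 : ∀ y, r x y → cE s f y = (∑ w ∈ cls s x, f (m y w)) / ((cls s x).card : ℝ) := by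
    intro y hy
    unfold cE
    have hb : ∀ w ∈ cls s x, m y w ∈ cls s y := fun w hw =>
      mem_cls.mpr (h1 x y w hx hy (mem_cls.mp hw)).2
    have hinj : ∀ a ∈ cls s x, ∀ b ∈ cls s x, m y a = m y b → a = b := by
      intro a ha b hb' hab
      rw [← h2 x y a hx hy (mem_cls.mp ha), hab, h2 x y b hx hy (mem_cls.mp hb')]
    have hsurj : ∀ u ∈ cls s y, ∃ w, ∃ _ : w ∈ cls s x, m y w = u := by
      intro u hu
      refine ⟨m x u, mem_cls.mpr ?_, ?_⟩
      · exact (h1 y x u (hPr x y hx hy) (r.symm' hy) (mem_cls.mp hu)).2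
      · exact h2 y x u (hPr x y hx hy) (r.symm' hy) (mem_cls.mp hu)
    have hcard : (cls s x).card = (cls s y).card :=
      card_bij (fun w _ => m y w) hb (fun a ha b hb' hab => hinj a ha b hb' hab) hsurj
    rw [hcard]
    congr 1
    symm
    exact sum_bij (fun w _ => m y w) hb (fun a ha b hb' hab => hinj a ha b hb' hab) hsurj
      (fun _ _ => rfl)
  have e2 : ∀ w, s x w → cE r f w = (∑ y ∈ cls r x, f (m y w)) / ((cls r x).card : ℝ) := by
    intro w hw
    unfold cE
    have hb : ∀ y ∈ cls r x, m y w ∈ cls r w := fun y hy =>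
      mem_cls.mpr (h1 x y w hx (mem_cls.mp hy) hw).1
    have hinj : ∀ a ∈ cls r x, ∀ b ∈ cls r x, m a w = m b w → a = b := by
      intro a ha b hb' hab
      rw [← h3 x a w hx (mem_cls.mp ha) hw, hab, h3 x b w hx (mem_cls.mp hb') hw]
    have hsurj : ∀ u ∈ cls r w, ∃ y, ∃ _ : y ∈ cls r x, m y w = u := by
      intro u hu
      refine ⟨m u x, mem_cls.mpr ?_, ?_⟩
      · exact (h1 w u x (hPs x w hx hw) (mem_cls.mp hu) (s.symm' hw)).1
      · exact h3 w u x (hPs x w hx hw) (mem_cls.mp hu) (s.symm' hw)
    have hcard : (cls r x).card = (cls r w).card :=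
      card_bij (fun y _ => m y w) hb (fun a ha b hb' hab => hinj a ha b hb' hab) hsurj
    rw [hcard]
    congr 1
    symm
    exact sum_bij (fun y _ => m y w) hb (fun a ha b hb' hab => hinj a ha b hb' hab) hsurj
      (fun _ _ => rfl)
  have l : cE r (cE s f) x
      = (∑ y ∈ cls r x, (∑ w ∈ cls s x, f (m y w)) / ((cls s x).card : ℝ)) / ((cls r x).card : ℝ) := by
    conv_lhs => unfold cE
    rw [sum_congr rfl fun y hy => ?_]
    exact e1 y (mem_cls.mp hy)
  have l' : cE s (cE r f) x
      = (∑ w ∈ cls s x, (∑ y ∈ cls r x, f (m y w)) / ((cls r x).card : ℝ)) / ((cls s x).card : ℝ) := by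
    conv_lhs => unfold cE
    rw [sum_congr rfl fun w hw => ?_]
    exact e2 w (mem_cls.mp hw)
  rw [l, l', ← sum_div, ← sum_div, sum_comm, div_div, div_div, mul_comm ((cls r x).card : ℝ)]


end cexp

/-! ### two-row relations on `S → Bool` -/

section rows

variable {κ S : Type*} [DecidableEq κ] [DecidableEq S]

/-- Two-row relation: `x` and `y` agree off the slots `p z, q z` (`z ∈ U`), have the same column sums
`x (p z) + x (q z)` for `z ∈ U`, and the same row sum `∑ z ∈ U, x (p z)`. -/
def rel (p q : κ → S) (U : Finset κ) : Setoid (S → Bool) where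
  r x y := (∀ e, (∀ z ∈ U, e ≠ p z ∧ e ≠ q z) → x e = y e) ∧
    (∀ z ∈ U, (x (p z)).toNat + (x (q z)).toNat = (y (p z)).toNat + (y (q z)).toNat) ∧
    ∑ z ∈ U, (x (p z)).toNat = ∑ z ∈ U, (y (p z)).toNat
  iseqv :=
    ⟨fun _ => ⟨fun _ _ => rfl, fun _ _ => rfl, rfl⟩,
     fun h => ⟨fun e he => (h.1 e he).symm, fun z hz => (h.2.1 z hz).symm, h.2.2.symm⟩,
     fun h h' => ⟨fun e he => (h.1 e he).trans (h'.1 e he),
       fun z hz => (h.2.1 z hz).trans (h'.2.1 z hz), h.2.2.trans h'.2.2⟩⟩

theorem rel_iff {p q : κ → S} {U : Finset κ} {x y : S → Bool} :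
    rel p q U x y ↔ (∀ e, (∀ z ∈ U, e ≠ p z ∧ e ≠ q z) → x e = y e) ∧
    (∀ z ∈ U, (x (p z)).toNat + (x (q z)).toNat = (y (p z)).toNat + (y (q z)).toNat) ∧
    ∑ z ∈ U, (x (p z)).toNat = ∑ z ∈ U, (y (p z)).toNat := Iff.rfl

/-- Columns `c`, `d` of the rows `p`, `q` form a permutation matrix in the state `x`. -/
def Osep (p q : κ → S) (c d : κ) (x : S → Bool) : Prop :=
  x (p c) = x (q d) ∧ x (p d) = x (q c) ∧ x (p c) ≠ x (p d)

instance (p q : κ → S) (c d : κ) (x : S → Bool) : Decidable (Osep p q c d x) := by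
  unfold Osep; infer_instance

/-- The switch on rows `p`, `q` and columns `c`, `d`: flips the four slots if they form a permutation
matrix, does nothing otherwise. -/
def sw (p q : κ → S) (c d : κ) (x : S → Bool) : S → Bool := fun e =>
  if Osep p q c d x ∧ (e = p c ∨ e = p d ∨ e = q c ∨ e = q d) then !(x e) else x e

/-- The energy of the switches on rows `p`, `q` and columns `c`, `d` (every unordered pair of states
counted twice). -/
def en [Fintype S] (p q : κ → S) (c d : κ) (f : (S → Bool) → ℝ) : ℝ :=
  ∑ x, (f x - f (sw p q c d x)) ^ 2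

open Classical in
/-- Average of `f` over the part of the class of `x` where the columns `c`, `d` are separated. -/
noncomputable def avO [Fintype S] (r : Setoid (S → Bool)) (p q : κ → S) (c d : κ)
    (f : (S → Bool) → ℝ) (x : S → Bool) : ℝ :=
  (∑ y ∈ (cls r x).filter (fun y => Osep p q c d y), f y) /
    (((cls r x).filter (fun y => Osep p q c d y)).card : ℝ)

end rows

/-! ### graphs -/

section graph

variable {V : Type*} [Fintype V] [DecidableEq V]

/-- The columns of the vertex pair `a`, `b`. -/
def cols (a b : V) : Finset V := (univ.erase a).erase b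

/-- The two-row relation (trade relation) of the vertices `a`, `b`. -/
def grel (a b : V) : Setoid (Sym2 V → Bool) :=
  rel (fun z => s(a, z)) (fun z => s(b, z)) (cols a b)

/-- fluctuation of `f` under the trade of `a`, `b` -/
noncomputable def hh (a b : V) (f : (Sym2 V → Bool) → ℝ) (x : Sym2 V → Bool) : ℝ :=
  f x - cE (grel a b) f x

end graph

end Crest.Agent.R299
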