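import Mathlib
import Crest.Agent.R299.Defs
import Crest.Agent.R299.ClassParam
import Crest.Agent.R299.Spectral

-- ▼ part R299/LocalComm
section

/-!
Row 299, T5: averages over two-row relations with disjoint slots commute.
-/

set_option autoImplicit false
open Finset

namespace Crest.Agent.R299

open Classical in
theorem cE_comm_rel {κ S : Type*} [Fintype S] [DecidableEq κ] [DecidableEq S]
    (p q p' q' : κ → S) (U U' : Finset κ)
    (hd : ∀ z ∈ U, ∀ w ∈ U', p z ≠ p' w ∧ p z ≠ q' w ∧ q z ≠ p' w ∧ q z ≠ q' w)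
    (f : (S → Bool) → ℝ) :
    cE (rel p q U) (cE (rel p' q' U') f) = cE (rel p' q' U') (cE (rel p q U) f) := by
  funext x
  set m : (S → Bool) → (S → Bool) → (S → Bool) :=
    fun y w e => if (∃ z ∈ U, e = p z ∨ e = q z) then y e else w e with hm
  -- `m y w` on slots of `(p, q, U)`
  have mp : ∀ y w : S → Bool, ∀ z ∈ U, m y w (p z) = y (p z) := by
    intro y w z hz
    exact if_pos ⟨z, hz, Or.inl rfl⟩
  have mq : ∀ y w : S → Bool, ∀ z ∈ U, m y w (q z) = y (q z) := by
    intro y w z hz
    exact if_pos ⟨z, hz, Or.inr rfl⟩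
  -- slots of `(p', q', U')` are not slots of `(p, q, U)`
  have np' : ∀ w ∈ U', ¬ ∃ z ∈ U, p' w = p z ∨ p' w = q z := by
    rintro w hw ⟨z, hz, h | h⟩
    · exact (hd z hz w hw).1 h.symm
    · exact (hd z hz w hw).2.2.1 h.symm
  have nq' : ∀ w ∈ U', ¬ ∃ z ∈ U, q' w = p z ∨ q' w = q z := by
    rintro w hw ⟨z, hz, h | h⟩
    · exact (hd z hz w hw).2.1 h.symm
    · exact (hd z hz w hw).2.2.2 h.symm
  have mp' : ∀ y w : S → Bool, ∀ v ∈ U', m y w (p' v) = w (p' v) := by
    intro y w v hv
    exact if_neg (np' v hv)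
  have mq' : ∀ y w : S → Bool, ∀ v ∈ U', m y w (q' v) = w (q' v) := by
    intro y w v hv
    exact if_neg (nq' v hv)
  -- agreement
  have ap : ∀ x w : S → Bool, rel p' q' U' x w → ∀ z ∈ U, x (p z) = w (p z) := by
    intro x w h z hz
    exact h.1 _ fun v hv => ⟨(hd z hz v hv).1, (hd z hz v hv).2.1⟩
  have aq : ∀ x w : S → Bool, rel p' q' U' x w → ∀ z ∈ U, x (q z) = w (q z) := by
    intro x w h z hz
    exact h.1 _ fun v hv => ⟨(hd z hz v hv).2.2.1, (hd z hz v hv).2.2.2⟩
  have ap' : ∀ x y : S → Bool, rel p q U x y → ∀ v ∈ U', x (p' v) = y (p' v) := by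
    intro x y h v hv
    exact h.1 _ fun z hz => ⟨fun e => (hd z hz v hv).1 e.symm, fun e => (hd z hz v hv).2.2.1 e.symm⟩
  have aq' : ∀ x y : S → Bool, rel p q U x y → ∀ v ∈ U', x (q' v) = y (q' v) := by
    intro x y h v hv
    exact h.1 _ fun z hz => ⟨fun e => (hd z hz v hv).2.1 e.symm, fun e => (hd z hz v hv).2.2.2 e.symm⟩
  refine cE_comm_on (r := rel p q U) (s := rel p' q' U') (fun _ => True) (fun _ _ _ _ => trivial)
    (fun _ _ _ _ => trivial) m ?_ ?_ ?_ f x trivial
  · intro x y w _ hy hw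
    refine ⟨⟨?_, ?_, ?_⟩, ⟨?_, ?_, ?_⟩⟩
    · intro e he
      symm
      apply if_neg
      rintro ⟨z, hz, h | h⟩
      · exact (he z hz).1 h
      · exact (he z hz).2 h
    · intro z hz
      rw [mp y w z hz, mq y w z hz, ← ap x w hw z hz, ← aq x w hw z hz]
      exact hy.2.1 z hz
    · calc ∑ z ∈ U, (w (p z)).toNat = ∑ z ∈ U, (x (p z)).toNat :=
            sum_congr rfl fun z hz => by rw [ap x w hw z hz]
        _ = ∑ z ∈ U, (y (p z)).toNat := hy.2.2
        _ = _ := sum_congr rfl fun z hz => by rw [mp y w z hz]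
    · intro e he
      by_cases h : ∃ z ∈ U, e = p z ∨ e = q z
      · exact (if_pos h).symm
      · have h1 : x e = y e := hy.1 e fun z hz =>
          ⟨fun h' => h ⟨z, hz, Or.inl h'⟩, fun h' => h ⟨z, hz, Or.inr h'⟩⟩
        have h2 : x e = w e := hw.1 e he
        rw [← h1, h2]
        exact (if_neg h).symm
    · intro v hv
      rw [mp' y w v hv, mq' y w v hv, ← ap' x y hy v hv, ← aq' x y hy v hv]
      exact hw.2.1 v hv
    · calc ∑ v ∈ U', (y (p' v)).toNat = ∑ v ∈ U', (x (p' v)).toNat :=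
            sum_congr rfl fun v hv => by rw [ap' x y hy v hv]
        _ = ∑ v ∈ U', (w (p' v)).toNat := hw.2.2
        _ = _ := sum_congr rfl fun v hv => by rw [mp' y w v hv]
  · intro x y w _ hy hw
    funext e
    by_cases h : ∃ z ∈ U, e = p z ∨ e = q z
    · have e1 : m x (m y w) e = x e := if_pos h
      rw [e1]
      obtain ⟨z, hz, rfl | rfl⟩ := h
      · exact ap x w hw z hz
      · exact aq x w hw z hz
    · have e1 : m x (m y w) e = m y w e := if_neg h
      rw [e1]
      exact if_neg h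
  · intro x y w _ hy hw
    funext e
    by_cases h : ∃ z ∈ U, e = p z ∨ e = q z
    · have e1 : m (m y w) x e = m y w e := if_pos h
      rw [e1]
      exact if_pos h
    · have e1 : m (m y w) x e = x e := if_neg h
      rw [e1]
      exact hy.1 e fun z hz =>
        ⟨fun h' => h ⟨z, hz, Or.inl h'⟩, fun h' => h ⟨z, hz, Or.inr h'⟩⟩

end Crest.Agent.R299
end

-- ▼ part R299/OddBlock
section

/-!
Row 299, T6: the averages `cE (grel a b)` and `cE (grel c d)` commute on the states whose block
`{a,b} × {c,d}` has exactly one or exactly three edges.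
-/

set_option autoImplicit false
open Finset

namespace Crest.Agent.R299

section graph

variable {V : Type*} [Fintype V] [DecidableEq V]

/-- number of edges in the block `{a,b} × {c,d}` -/
def blk (a b c d : V) (x : Sym2 V → Bool) : ℕ :=
  (x s(a, c)).toNat + (x s(a, d)).toNat + (x s(b, c)).toNat + (x s(b, d)).toNat

namespace Odd

theorem mem_cols {a b z : V} : z ∈ cols a b ↔ z ≠ a ∧ z ≠ b := by
  unfold cols
  simp only [mem_erase, mem_univ, and_true, ne_eq]
  tauto

theorem grel_iff {a b : V} {x y : Sym2 V → Bool} : grel a b x y ↔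
    (∀ e, (∀ z ∈ cols a b, e ≠ s(a, z) ∧ e ≠ s(b, z)) → x e = y e) ∧
    (∀ z ∈ cols a b, (x s(a, z)).toNat + (x s(b, z)).toNat
      = (y s(a, z)).toNat + (y s(b, z)).toNat) ∧
    ∑ z ∈ cols a b, (x s(a, z)).toNat = ∑ z ∈ cols a b, (y s(a, z)).toNat := Iff.rfl

omit [Fintype V] [DecidableEq V] in
theorem blk_swap (a b c d : V) (x : Sym2 V → Bool) : blk c d a b x = blk a b c d x := by
  unfold blk
  rw [Sym2.eq_swap (a := c) (b := a), Sym2.eq_swap (a := c) (b := b),
    Sym2.eq_swap (a := d) (b := a), Sym2.eq_swap (a := d) (b := b)]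
  ring

theorem blk_inv' (a b c d : V) (hab : a ≠ b) (hac : a ≠ c) (had : a ≠ d) (hbc : b ≠ c)
    (hbd : b ≠ d) (hcd : c ≠ d) (x y : Sym2 V → Bool) (h : grel a b x y) :
    blk a b c d x = blk a b c d y ∧ blk c d a b x = blk c d a b y := by
  have h' := grel_iff.mp h
  have hc := h'.2.1 c (mem_cols.mpr ⟨hac.symm, hbc.symm⟩)
  have hd := h'.2.1 d (mem_cols.mpr ⟨had.symm, hbd.symm⟩)
  have h1 : blk a b c d x = blk a b c d y := by
    unfold blk; omega
  exact ⟨h1, by rw [blk_swap a b c d x, blk_swap a b c d y, h1]⟩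

/-- block entry rule -/
def bE (t p q r s : Bool) : Bool := if t then (p || q) && (r || s) else (p && q) || (r && s)

/-- mixing of two states -/
def mx (t : Bool) (a b c d : V) (y w : Sym2 V → Bool) : Sym2 V → Bool := fun e =>
  if e = s(a, c) then bE t (y s(a, c)) (y s(a, d)) (w s(a, c)) (w s(b, c))
  else if e = s(a, d) then bE t (y s(a, c)) (y s(a, d)) (w s(a, d)) (w s(b, d))
  else if e = s(b, c) then bE t (y s(b, c)) (y s(b, d)) (w s(a, c)) (w s(b, c))
  else if e = s(b, d) then bE t (y s(b, c)) (y s(b, d)) (w s(a, d)) (w s(b, d))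
  else if (∃ z ∈ cols a b, e = s(a, z) ∨ e = s(b, z)) then y e
  else w e

/-- the number of edges of the block for the rule `t` -/
def tn (t : Bool) : ℕ := if t then 1 else 3

theorem bool1 : ∀ (t p q r s p' q' r' s' : Bool),
    p.toNat + q.toNat + r.toNat + s.toNat = tn t →
    p'.toNat + q'.toNat + r'.toNat + s'.toNat = tn t →
    (bE t p q p' r').toNat + (bE t r s p' r').toNat = p'.toNat + r'.toNat := by
  decide

theorem bool1' : ∀ (t p q r s p' q' r' s' : Bool),
    p.toNat + q.toNat + r.toNat + s.toNat = tn t →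
    p'.toNat + q'.toNat + r'.toNat + s'.toNat = tn t →
    (bE t p q q' s').toNat + (bE t r s q' s').toNat = q'.toNat + s'.toNat := by
  decide

theorem bool2 : ∀ (t p q r s p' q' r' s' : Bool),
    p.toNat + q.toNat + r.toNat + s.toNat = tn t →
    p'.toNat + q'.toNat + r'.toNat + s'.toNat = tn t →
    (bE t p q p' r').toNat + (bE t p q q' s').toNat = p.toNat + q.toNat := by
  decide

theorem bool3 : ∀ (t p q p' r' p'' q'' r'' s'' : Bool),
    p.toNat + q.toNat = p''.toNat + q''.toNat →
    p'.toNat + r'.toNat = p''.toNat + r''.toNat →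
    p''.toNat + q''.toNat + r''.toNat + s''.toNat = tn t →
    bE t p q p' r' = p'' := by
  decide

theorem bool3' : ∀ (t p q p' r' p'' q'' r'' s'' : Bool),
    p.toNat + q.toNat = r''.toNat + s''.toNat →
    p'.toNat + r'.toNat = p''.toNat + r''.toNat →
    p''.toNat + q''.toNat + r''.toNat + s''.toNat = tn t →
    bE t p q p' r' = r'' := by
  decide

theorem bool3'' : ∀ (t p q p' r' p'' q'' r'' s'' : Bool),
    p.toNat + q.toNat = p''.toNat + q''.toNat →
    p'.toNat + r'.toNat = q''.toNat + s''.toNat →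
    p''.toNat + q''.toNat + r''.toNat + s''.toNat = tn t →
    bE t p q p' r' = q'' := by
  decide

theorem bool3''' : ∀ (t p q p' r' p'' q'' r'' s'' : Bool),
    p.toNat + q.toNat = r''.toNat + s''.toNat →
    p'.toNat + r'.toNat = q''.toNat + s''.toNat →
    p''.toNat + q''.toNat + r''.toNat + s''.toNat = tn t →
    bE t p q p' r' = s'' := by
  decide

section mixing

variable {a b c d : V}

theorem mx_ac {t : Bool} {y w : Sym2 V → Bool} : mx t a b c d y w s(a, c)
    = bE t (y s(a, c)) (y s(a, d)) (w s(a, c)) (w s(b, c)) := by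
  simp [mx]

theorem mx_ad (hcd : c ≠ d) {t : Bool} {y w : Sym2 V → Bool} : mx t a b c d y w s(a, d)
    = bE t (y s(a, c)) (y s(a, d)) (w s(a, d)) (w s(b, d)) := by
  have h1 : s(a, d) ≠ s(a, c) := by
    simp only [ne_eq, Sym2.eq_iff]; grind
  simp [mx, h1]

theorem mx_bc (hab : a ≠ b) (hac : a ≠ c) {t : Bool} {y w : Sym2 V → Bool} :
    mx t a b c d y w s(b, c)
    = bE t (y s(b, c)) (y s(b, d)) (w s(a, c)) (w s(b, c)) := by
  have h1 : s(b, c) ≠ s(a, c) := by
    simp only [ne_eq, Sym2.eq_iff]; grind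
  have h2 : s(b, c) ≠ s(a, d) := by
    simp only [ne_eq, Sym2.eq_iff]; grind
  simp only [mx, if_neg h1, if_neg h2, if_true]

theorem mx_bd (hab : a ≠ b) (had : a ≠ d) (hcd : c ≠ d) (hbc : b ≠ c)
    {t : Bool} {y w : Sym2 V → Bool} :
    mx t a b c d y w s(b, d)
    = bE t (y s(b, c)) (y s(b, d)) (w s(a, d)) (w s(b, d)) := by
  have h1 : s(b, d) ≠ s(a, c) := by
    simp only [ne_eq, Sym2.eq_iff]; grind
  have h2 : s(b, d) ≠ s(a, d) := by
    simp only [ne_eq, Sym2.eq_iff]; grind
  have h3 : s(b, d) ≠ s(b, c) := by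
    simp only [ne_eq, Sym2.eq_iff]; grind
  simp only [mx, if_neg h1, if_neg h2, if_neg h3, if_true]

/-- outside the block -/
theorem mx_az (hac : a ≠ c) (had : a ≠ d) {t : Bool} {y w : Sym2 V → Bool} {z : V}
    (hza : z ≠ a) (hzb : z ≠ b) (hzc : z ≠ c) (hzd : z ≠ d) :
    mx t a b c d y w s(a, z) = y s(a, z) := by
  have h1 : s(a, z) ≠ s(a, c) := by simp only [ne_eq, Sym2.eq_iff]; grind
  have h2 : s(a, z) ≠ s(a, d) := by simp only [ne_eq, Sym2.eq_iff]; grind
  have h3 : s(a, z) ≠ s(b, c) := by simp only [ne_eq, Sym2.eq_iff]; grind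
  have h4 : s(a, z) ≠ s(b, d) := by simp only [ne_eq, Sym2.eq_iff]; grind
  have h5 : ∃ z' ∈ cols a b, s(a, z) = s(a, z') ∨ s(a, z) = s(b, z') :=
    ⟨z, mem_cols.mpr ⟨hza, hzb⟩, Or.inl rfl⟩
  simp only [mx, if_neg h1, if_neg h2, if_neg h3, if_neg h4, if_pos h5]

theorem mx_bz (hbc : b ≠ c) (hbd : b ≠ d) {t : Bool} {y w : Sym2 V → Bool} {z : V}
    (hza : z ≠ a) (hzb : z ≠ b) (hzc : z ≠ c) (hzd : z ≠ d) :
    mx t a b c d y w s(b, z) = y s(b, z) := by
  have h1 : s(b, z) ≠ s(a, c) := by simp only [ne_eq, Sym2.eq_iff]; grind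
  have h2 : s(b, z) ≠ s(a, d) := by simp only [ne_eq, Sym2.eq_iff]; grind
  have h3 : s(b, z) ≠ s(b, c) := by simp only [ne_eq, Sym2.eq_iff]; grind
  have h4 : s(b, z) ≠ s(b, d) := by simp only [ne_eq, Sym2.eq_iff]; grind
  have h5 : ∃ z' ∈ cols a b, s(b, z) = s(a, z') ∨ s(b, z) = s(b, z') :=
    ⟨z, mem_cols.mpr ⟨hza, hzb⟩, Or.inr rfl⟩
  simp only [mx, if_neg h1, if_neg h2, if_neg h3, if_neg h4, if_pos h5]

/-- off the slots of `a, b` -/
theorem mx_off (hac : a ≠ c) (had : a ≠ d) (hbc : b ≠ c) (hbd : b ≠ d)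
    {t : Bool} {y w : Sym2 V → Bool} {e : Sym2 V}
    (he : ∀ z ∈ cols a b, e ≠ s(a, z) ∧ e ≠ s(b, z)) :
    mx t a b c d y w e = w e := by
  have hc := he c (mem_cols.mpr ⟨hac.symm, hbc.symm⟩)
  have hd := he d (mem_cols.mpr ⟨had.symm, hbd.symm⟩)
  have h5 : ¬ ∃ z' ∈ cols a b, e = s(a, z') ∨ e = s(b, z') := by
    rintro ⟨z, hz, h | h⟩
    · exact (he z hz).1 h
    · exact (he z hz).2 h
  simp only [mx, if_neg hc.1, if_neg hd.1, if_neg hc.2, if_neg hd.2, if_neg h5]

theorem sum_cols (hac : a ≠ c) (had : a ≠ d) (hbc : b ≠ c) (hbd : b ≠ d) (hcd : c ≠ d)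
    (F : V → ℕ) : ∑ z ∈ cols a b, F z
      = F c + F d + ∑ z ∈ ((cols a b).erase c).erase d, F z := by
  have hc : c ∈ cols a b := mem_cols.mpr ⟨hac.symm, hbc.symm⟩
  have hd : d ∈ (cols a b).erase c := mem_erase.mpr ⟨hcd.symm, mem_cols.mpr ⟨had.symm, hbd.symm⟩⟩
  rw [← add_sum_erase _ _ hc, ← add_sum_erase _ _ hd, add_assoc]

/-- off the slots of the pair, related states agree -/
theorem grel_off {x w : Sym2 V → Bool} (h : grel c d x w) {u z : V} (huc : u ≠ c) (hud : u ≠ d)
    (hzc : z ≠ c) (hzd : z ≠ d) : x s(u, z) = w s(u, z) := by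
  apply (grel_iff.mp h).1
  intro z' hz'
  simp only [ne_eq, Sym2.eq_iff]
  grind

/-- row sums of the block are preserved by the trades of the other pair -/
theorem grel_row {x w : Sym2 V → Bool} (h : grel c d x w) {u : V} (huc : u ≠ c) (hud : u ≠ d) :
    (x s(u, c)).toNat + (x s(u, d)).toNat = (w s(u, c)).toNat + (w s(u, d)).toNat := by
  have := (grel_iff.mp h).2.1 u (mem_cols.mpr ⟨huc, hud⟩)
  rwa [Sym2.eq_swap (a := c) (b := u), Sym2.eq_swap (a := d) (b := u)] at this

theorem mx_rel (hab : a ≠ b) (hac : a ≠ c) (had : a ≠ d) (hbc : b ≠ c)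
    (hbd : b ≠ d) (hcd : c ≠ d) {t : Bool} {x y w : Sym2 V → Bool}
    (hx : blk a b c d x = tn t) (hy : grel a b x y) (hw : grel c d x w) :
    grel a b w (mx t a b c d y w) := by
  have hyb : blk a b c d y = tn t :=
    ((blk_inv' a b c d hab hac had hbc hbd hcd x y hy).1).symm.trans hx
  have hwb : blk a b c d w = tn t := by
    have := (blk_inv' c d a b hcd hac.symm hbc.symm had.symm hbd.symm hab x w hw).2
    exact this.symm.trans hx
  have hy' := grel_iff.mp hy
  unfold blk at hyb hwb
  refine grel_iff.mpr ⟨?_, ?_, ?_⟩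
  · intro e he
    exact (mx_off hac had hbc hbd he).symm
  · intro z hz
    obtain ⟨hza, hzb⟩ := mem_cols.mp hz
    by_cases hzc : z = c
    · subst hzc
      rw [mx_ac, mx_bc hab hac]
      exact (bool1 t _ _ _ _ _ _ _ _ hyb hwb).symm
    by_cases hzd : z = d
    · subst hzd
      rw [mx_ad hcd, mx_bd hab had hcd hbc]
      exact (bool1' t _ _ _ _ _ _ _ _ hyb hwb).symm
    rw [mx_az hac had hza hzb hzc hzd, mx_bz hbc hbd hza hzb hzc hzd,
      ← grel_off hw hac had hzc hzd, ← grel_off hw hbc hbd hzc hzd]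
    exact hy'.2.1 z hz
  · have h1 := hy'.2.2
    rw [sum_cols hac had hbc hbd hcd, sum_cols hac had hbc hbd hcd] at h1 ⊢
    rw [mx_ac, mx_ad hcd]
    have h2 : ∑ z ∈ ((cols a b).erase c).erase d, (w s(a, z)).toNat
        = ∑ z ∈ ((cols a b).erase c).erase d, (x s(a, z)).toNat := by
      apply sum_congr rfl
      intro z hz
      simp only [mem_erase] at hz
      rw [grel_off hw hac had hz.2.1 hz.1]
    have h3 : ∑ z ∈ ((cols a b).erase c).erase d, (mx t a b c d y w s(a, z)).toNat
        = ∑ z ∈ ((cols a b).erase c).erase d, (y s(a, z)).toNat := by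
      apply sum_congr rfl
      intro z hz
      simp only [mem_erase, mem_cols] at hz
      rw [mx_az hac had hz.2.2.1 hz.2.2.2 hz.2.1 hz.1]
    have h4 := bool2 t _ _ _ _ _ _ _ _ hyb hwb
    have h5 := grel_row hw hac had
    rw [h2, h3]
    omega

theorem bE_comm : ∀ (t p q r s : Bool), bE t p q r s = bE t r s p q := by decide

theorem mx_symm (hab : a ≠ b) (hac : a ≠ c) (had : a ≠ d) (hbc : b ≠ c)
    (hbd : b ≠ d) (hcd : c ≠ d) {t : Bool} {x y w : Sym2 V → Bool}
    (hy : grel a b x y) (hw : grel c d x w) :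
    mx t a b c d y w = mx t c d a b w y := by
  have hy' := grel_iff.mp hy
  have hw' := grel_iff.mp hw
  funext e
  by_cases h1 : ∀ z ∈ cols a b, e ≠ s(a, z) ∧ e ≠ s(b, z)
  · rw [mx_off hac had hbc hbd h1]
    by_cases h2 : ∀ z ∈ cols c d, e ≠ s(c, z) ∧ e ≠ s(d, z)
    · rw [mx_off hac.symm hbc.symm had.symm hbd.symm h2, ← hy'.1 e h1, ← hw'.1 e h2]
    · push Not at h2
      obtain ⟨z, hz, h2⟩ := h2
      obtain ⟨hzc, hzd⟩ := mem_cols.mp hz
      have hza : z ≠ a := by
        rintro rfl
        by_cases h3 : e = s(c, z)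
        · exact (h1 c (mem_cols.mpr ⟨hac.symm, hbc.symm⟩)).1 (h3.trans Sym2.eq_swap)
        · exact (h1 d (mem_cols.mpr ⟨had.symm, hbd.symm⟩)).1 ((h2 h3).trans Sym2.eq_swap)
      have hzb : z ≠ b := by
        rintro rfl
        by_cases h3 : e = s(c, z)
        · exact (h1 c (mem_cols.mpr ⟨hac.symm, hbc.symm⟩)).2 (h3.trans Sym2.eq_swap)
        · exact (h1 d (mem_cols.mpr ⟨had.symm, hbd.symm⟩)).2 ((h2 h3).trans Sym2.eq_swap)
      by_cases h3 : e = s(c, z)
      · rw [h3, mx_az hac.symm hbc.symm hzc hzd hza hzb]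
      · rw [h2 h3, mx_bz had.symm hbd.symm hzc hzd hza hzb]
  · push Not at h1
    obtain ⟨z, hz, h1⟩ := h1
    obtain ⟨hza, hzb⟩ := mem_cols.mp hz
    by_cases hzc : z = c
    · subst hzc
      by_cases h3 : e = s(a, z)
      · rw [h3, mx_ac, Sym2.eq_swap (a := a) (b := z), mx_ac, bE_comm,
          Sym2.eq_swap (a := b) (b := z), Sym2.eq_swap (a := a) (b := d)]
      · rw [h1 h3, mx_bc hab hac, Sym2.eq_swap (a := b) (b := z), mx_ad hab, bE_comm,
          Sym2.eq_swap (a := a) (b := z), Sym2.eq_swap (a := b) (b := d)]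
    by_cases hzd : z = d
    · subst hzd
      by_cases h3 : e = s(a, z)
      · rw [h3, mx_ad hcd, Sym2.eq_swap (a := a) (b := z), mx_bc hcd hac.symm, bE_comm,
          Sym2.eq_swap (a := b) (b := z), Sym2.eq_swap (a := a) (b := c)]
      · rw [h1 h3, mx_bd hab had hcd hbc, Sym2.eq_swap (a := b) (b := z),
          mx_bd hcd hbc.symm hab had.symm, bE_comm,
          Sym2.eq_swap (a := a) (b := z), Sym2.eq_swap (a := b) (b := c)]
    have hoff : ∀ z' ∈ cols c d, e ≠ s(c, z') ∧ e ≠ s(d, z') := by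
      intro z' hz'
      by_cases h3 : e = s(a, z)
      · rw [h3]; simp only [ne_eq, Sym2.eq_iff]; grind
      · rw [h1 h3]; simp only [ne_eq, Sym2.eq_iff]; grind
    rw [mx_off hac.symm hbc.symm had.symm hbd.symm hoff]
    by_cases h3 : e = s(a, z)
    · rw [h3, mx_az hac had hza hzb hzc hzd]
    · rw [h1 h3, mx_bz hbc hbd hza hzb hzc hzd]

theorem mx_mx (hab : a ≠ b) (hac : a ≠ c) (had : a ≠ d) (hbc : b ≠ c)
    (hbd : b ≠ d) (hcd : c ≠ d) {t : Bool} {x y w : Sym2 V → Bool}
    (hx : blk a b c d x = tn t) (hy : grel a b x y) (hw : grel c d x w) :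
    mx t a b c d x (mx t a b c d y w) = w := by
  have hm := grel_iff.mp (mx_rel hab hac had hbc hbd hcd hx hy hw)
  have hwb : blk a b c d w = tn t := by
    have := (blk_inv' c d a b hcd hac.symm hbc.symm had.symm hbd.symm hab x w hw).2
    exact this.symm.trans hx
  unfold blk at hwb
  have hra := grel_row hw hac had
  have hrb := grel_row hw hbc hbd
  have hcc := hm.2.1 c (mem_cols.mpr ⟨hac.symm, hbc.symm⟩)
  have hcd' := hm.2.1 d (mem_cols.mpr ⟨had.symm, hbd.symm⟩)
  funext e
  by_cases h1 : ∀ z ∈ cols a b, e ≠ s(a, z) ∧ e ≠ s(b, z)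
  · rw [mx_off hac had hbc hbd h1, mx_off hac had hbc hbd h1]
  · push Not at h1
    obtain ⟨z, hz, h1⟩ := h1
    obtain ⟨hza, hzb⟩ := mem_cols.mp hz
    by_cases hzc : z = c
    · subst hzc
      by_cases h3 : e = s(a, z)
      · rw [h3, mx_ac]
        exact bool3 t _ _ _ _ _ _ _ _ hra hcc.symm hwb
      · rw [h1 h3, mx_bc hab hac]
        rw [bool3' t _ _ _ _ _ _ _ _ hrb hcc.symm hwb]
    by_cases hzd : z = d
    · subst hzd
      by_cases h3 : e = s(a, z)
      · rw [h3, mx_ad hcd]
        rw [bool3'' t _ _ _ _ _ _ _ _ hra hcd'.symm hwb]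
      · rw [h1 h3, mx_bd hab had hcd hbc]
        rw [bool3''' t _ _ _ _ _ _ _ _ hrb hcd'.symm hwb]
    by_cases h3 : e = s(a, z)
    · rw [h3, mx_az hac had hza hzb hzc hzd, grel_off hw hac had hzc hzd]
    · rw [h1 h3, mx_bz hbc hbd hza hzb hzc hzd, grel_off hw hbc hbd hzc hzd]

end mixing

theorem cE_comm_blk (a b c d : V) (hab : a ≠ b) (hac : a ≠ c) (had : a ≠ d) (hbc : b ≠ c)
    (hbd : b ≠ d) (hcd : c ≠ d) (f : (Sym2 V → Bool) → ℝ) (x : Sym2 V → Bool) (t : Bool)
    (hx : blk a b c d x = tn t) :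
    cE (grel a b) (cE (grel c d) f) x = cE (grel c d) (cE (grel a b) f) x := by
  apply cE_comm_on (fun x => blk a b c d x = tn t) ?_ ?_ (mx t a b c d) ?_ ?_ ?_ f x hx
  · intro x y hx hy
    exact ((blk_inv' a b c d hab hac had hbc hbd hcd x y hy).1).symm.trans hx
  · intro x y hx hy
    have := (blk_inv' c d a b hcd hac.symm hbc.symm had.symm hbd.symm hab x y hy).2
    exact this.symm.trans hx
  · intro x y w hx hy hw
    refine ⟨mx_rel hab hac had hbc hbd hcd hx hy hw, ?_⟩
    rw [mx_symm hab hac had hbc hbd hcd hy hw]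
    exact mx_rel hcd hac.symm hbc.symm had.symm hbd.symm hab ((blk_swap a b c d x).trans hx) hw hy
  · intro x y w hx hy hw
    exact mx_mx hab hac had hbc hbd hcd hx hy hw
  · intro x y w hx hy hw
    have hm := mx_rel hab hac had hbc hbd hcd hx hy hw
    rw [mx_symm hab hac had hbc hbd hcd hm ((grel c d).symm' hw),
      mx_symm hab hac had hbc hbd hcd hy hw]
    exact mx_mx hcd hac.symm hbc.symm had.symm hbd.symm hab ((blk_swap a b c d x).trans hx) hw hy

end Odd

theorem blk_inv (a b c d : V) (hab : a ≠ b) (hac : a ≠ c) (had : a ≠ d) (hbc : b ≠ c)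
    (hbd : b ≠ d) (hcd : c ≠ d) (x y : Sym2 V → Bool) (h : grel a b x y) :
    blk a b c d x = blk a b c d y ∧ blk c d a b x = blk c d a b y :=
  Odd.blk_inv' a b c d hab hac had hbc hbd hcd x y h

theorem cE_comm_odd (a b c d : V) (hab : a ≠ b) (hac : a ≠ c) (had : a ≠ d) (hbc : b ≠ c)
    (hbd : b ≠ d) (hcd : c ≠ d) (f : (Sym2 V → Bool) → ℝ) (x : Sym2 V → Bool)
    (hx : blk a b c d x = 1 ∨ blk a b c d x = 3) :
    cE (grel a b) (cE (grel c d) f) x = cE (grel c d) (cE (grel a b) f) x := by
  rcases hx with hx | hx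
  · exact Odd.cE_comm_blk a b c d hab hac had hbc hbd hcd f x true hx
  · exact Odd.cE_comm_blk a b c d hab hac had hbc hbd hcd f x false hx

end graph

end Crest.Agent.R299
end

-- ▼ part R299/Disjoint
section

/-!
Row 299, T7: the disjoint pair inequality.
-/

set_option autoImplicit false
set_option linter.unusedSectionVars false
open Finset

namespace Crest.Agent.R299

namespace Disj

/-! ### projections -/

section proj

variable {α : Type*} [Fintype α]

/-- If the two expectations commute on `f`, the fluctuations of `f` have nonnegative inner product. -/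
theorem inner_nonneg_of_comm' {r s : Setoid α} (f : α → ℝ)
    (hc : cE r (cE s f) = cE s (cE r f)) :
    0 ≤ ∑ x, (f x - cE r f x) * (f x - cE s f x) := by
  set g : α → ℝ := fun x => f x - cE s f x with hg
  have hRg : ∀ x, cE r g x = cE r f x - cE s (cE r f) x := by
    intro x; rw [hg, cE_sub, ← hc]
  have h1 : ∑ x, (f x - cE r f x) * g x = ∑ x, (f x - cE r f x) * (g x - cE r g x) := by
    have := sum_inv_mul_sub r f (cE r g) (fun x y hxy => cE_congr hxy)
    have e : ∀ x, (f x - cE r f x) * (g x - cE r g x)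
        = (f x - cE r f x) * g x - cE r g x * (f x - cE r f x) := by intro x; ring
    rw [sum_congr rfl fun x _ => e x, sum_sub_distrib, this, sub_zero]
  have h2 : ∑ x, (f x - cE r f x) * (g x - cE r g x)
      = ∑ x, (g x - cE r g x) ^ 2 := by
    have hk : ∀ x, g x - cE r g x = (f x - cE r f x) - cE s (fun y => f y - cE r f y) x := by
      intro x
      rw [hRg, cE_sub, hg]; ring
    have hz := sum_inv_mul_sub s (fun y => f y - cE r f y) (cE s (fun y => f y - cE r f y))
      (fun x y hxy => cE_congr hxy)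
    have e : ∀ x, (f x - cE r f x) * (g x - cE r g x)
        = (g x - cE r g x) ^ 2 + cE s (fun y => f y - cE r f y) x *
          ((f x - cE r f x) - cE s (fun y => f y - cE r f y) x) := by
      intro x; rw [hk]; ring
    rw [sum_congr rfl fun x _ => e x, sum_add_distrib, hz, add_zero]
  rw [h1, h2]
  exact sum_nonneg fun x _ => sq_nonneg _

/-- Two commuting orthogonal projections. -/
theorem proj_inner_nonneg (P Q : (α → ℝ) → (α → ℝ))
    (hPs : ∀ f g : α → ℝ, ∑ x, P f x * g x = ∑ x, f x * P g x) (hPP : ∀ f, P (P f) = P f)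
    (hQs : ∀ f g : α → ℝ, ∑ x, Q f x * g x = ∑ x, f x * Q g x) (hQQ : ∀ f, Q (Q f) = Q f)
    (hc : ∀ f, P (Q f) = Q (P f)) (g : α → ℝ) : 0 ≤ ∑ x, P g x * Q g x := by
  have h1 : ∑ x, P g x * Q g x = ∑ x, Q (P g) x * Q (P g) x := by
    calc ∑ x, P g x * Q g x = ∑ x, P (P g) x * Q g x := by rw [hPP]
      _ = ∑ x, P g x * P (Q g) x := hPs _ _
      _ = ∑ x, P g x * Q (P g) x := by rw [hc]
      _ = ∑ x, P g x * Q (Q (P g)) x := by rw [hQQ]
      _ = ∑ x, Q (P g) x * Q (P g) x := (hQs _ _).symm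
  rw [h1]
  exact sum_nonneg fun x _ => mul_self_nonneg _

theorem symm_sub_cE (r : Setoid α) (f g : α → ℝ) :
    ∑ x, (f x - cE r f x) * g x = ∑ x, f x * (g x - cE r g x) := by
  simp only [sub_mul, mul_sub, sum_sub_distrib]
  rw [cE_symm]

theorem symm_cE_sub_cE (r s : Setoid α) (f g : α → ℝ) :
    ∑ x, (cE r f x - cE s f x) * g x = ∑ x, f x * (cE r g x - cE s g x) := by
  simp only [sub_mul, mul_sub, sum_sub_distrib]
  rw [cE_symm, cE_symm]

theorem cE_sub' (r : Setoid α) (f g : α → ℝ) :
    cE r (fun y => f y - g y) = fun x => cE r f x - cE r g x := by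
  funext x; exact cE_sub r f g x

theorem idem_sub_cE (r : Setoid α) (f : α → ℝ) :
    (fun x => (fun x => f x - cE r f x) x - cE r (fun x => f x - cE r f x) x)
      = fun x => f x - cE r f x := by
  funext x
  rw [cE_sub', cE_idem]
  ring

theorem idem_cE_sub_cE {r s : Setoid α} (h : r ≤ s) (f : α → ℝ) :
    (fun x => cE r (fun x => cE r f x - cE s f x) x - cE s (fun x => cE r f x - cE s f x) x)
      = fun x => cE r f x - cE s f x := by
  funext x
  rw [cE_sub', cE_sub', cE_idem, cE_idem, cE_cE_of_le h, cE_cE_of_ge h]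
  ring

/-- The basic decomposition: with finer relations `r0 ≤ r`, `s0 ≤ s` and commutations. -/
theorem inner_decomp {r s r0 s0 : Setoid α} (hr : r0 ≤ r) (hs : s0 ≤ s)
    (c1 : ∀ f : α → ℝ, cE r0 (cE s f) = cE s (cE r0 f))
    (c2 : ∀ f : α → ℝ, cE s0 (cE r f) = cE r (cE s0 f))
    (c3 : ∀ f : α → ℝ, cE r0 (cE s0 f) = cE s0 (cE r0 f)) (g : α → ℝ) :
    ∑ x, (cE r0 (cE s0 g) x - cE r (cE r0 (cE s0 g)) x) *
        (cE r0 (cE s0 g) x - cE s (cE r0 (cE s0 g)) x)
      ≤ ∑ x, (g x - cE r g x) * (g x - cE s g x) := by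
  -- the four terms
  have t1 : 0 ≤ ∑ x, (g x - cE r0 g x) * (g x - cE s0 g x) :=
    inner_nonneg_of_comm' g (c3 g)
  have t2 : 0 ≤ ∑ x, (g x - cE r0 g x) * (cE s0 g x - cE s g x) := by
    apply proj_inner_nonneg (fun f x => f x - cE r0 f x) (fun f x => cE s0 f x - cE s f x)
    · exact symm_sub_cE r0
    · exact idem_sub_cE r0
    · exact symm_cE_sub_cE s0 s
    · exact idem_cE_sub_cE hs
    · intro f
      funext x
      simp only [cE_sub', c1, c3]
      ring
  have t3 : 0 ≤ ∑ x, (cE r0 g x - cE r g x) * (g x - cE s0 g x) := by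
    have : 0 ≤ ∑ x, (g x - cE s0 g x) * (cE r0 g x - cE r g x) := by
      apply proj_inner_nonneg (fun f x => f x - cE s0 f x) (fun f x => cE r0 f x - cE r f x)
      · exact symm_sub_cE s0
      · exact idem_sub_cE s0
      · exact symm_cE_sub_cE r0 r
      · exact idem_cE_sub_cE hr
      · intro f
        funext x
        simp only [cE_sub', c2, c3]
        ring
    rw [sum_congr rfl fun x _ => mul_comm _ _]
    exact this
  have t4 : ∑ x, (cE r0 g x - cE r g x) * (cE s0 g x - cE s g x)
      = ∑ x, (cE r0 (cE s0 g) x - cE r (cE r0 (cE s0 g)) x) *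
        (cE r0 (cE s0 g) x - cE s (cE r0 (cE s0 g)) x) := by
    -- insert `s0` then `r0`
    have e1 : ∀ u : α → ℝ, ∑ x, u x * (cE s0 g x - cE s g x)
        = ∑ x, cE s0 u x * (cE s0 g x - cE s g x) := by
      intro u
      have := cE_symm s0 (fun x => cE s0 g x - cE s g x) u
      rw [cE_sub', cE_idem, cE_cE_of_le hs] at this
      exact this
    have e2 : ∀ u : α → ℝ, ∑ x, (cE r0 u x - cE r u x) * (cE s0 g x - cE s g x)
        = ∑ x, (cE r0 u x - cE r u x) * cE r0 (fun x => cE s0 g x - cE s g x) x := by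
      intro u
      have := cE_symm r0 (fun x => cE s0 g x - cE s g x) (fun x => cE r0 u x - cE r u x)
      rw [this]
      rw [cE_sub', cE_idem, cE_cE_of_le hr]
    rw [e1]
    have e3 : cE s0 (fun x => cE r0 g x - cE r g x)
        = fun x => cE r0 (cE s0 g) x - cE r (cE s0 g) x := by
      rw [cE_sub', c2, c3]
    rw [e3, e2]
    apply sum_congr rfl
    intro x _
    rw [cE_sub', c1, cE_cE_of_ge hr]
    have e4 : cE s (cE r0 (cE s0 g)) = cE s (cE r0 g) := by
      rw [c3, cE_cE_of_ge hs]
    rw [e4]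
  have expand : ∀ x, (g x - cE r g x) * (g x - cE s g x)
      = (g x - cE r0 g x) * (g x - cE s0 g x) + (g x - cE r0 g x) * (cE s0 g x - cE s g x)
        + (cE r0 g x - cE r g x) * (g x - cE s0 g x)
        + (cE r0 g x - cE r g x) * (cE s0 g x - cE s g x) := by
    intro x; ring
  rw [sum_congr rfl fun x _ => expand x, sum_add_distrib, sum_add_distrib, sum_add_distrib, t4]
  linarith

/-- Restriction of the nonnegativity of the inner product to an invariant set on which the two
expectations commute. -/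
theorem inner_nonneg_on {r s : Setoid α} (P : α → Prop) [DecidablePred P]
    (hPr : ∀ x y, P x → r x y → P y) (hPs : ∀ x y, P x → s x y → P y) (f : α → ℝ)
    (hc : ∀ (g : α → ℝ) x, P x → cE r (cE s g) x = cE s (cE r g) x) :
    0 ≤ ∑ x, if P x then (f x - cE r f x) * (f x - cE s f x) else 0 := by
  set F : α → ℝ := fun x => if P x then f x else 0 with hF
  have key : ∀ (t : Setoid α), (∀ x y, P x → t x y → P y) → ∀ (h : α → ℝ) (x : α),
      cE t (fun x => if P x then h x else 0) x = if P x then cE t h x else 0 := by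
    intro t ht h x
    have e : (fun x => if P x then h x else 0) = fun x => (if P x then (1 : ℝ) else 0) * h x := by
      funext x; split_ifs <;> simp
    rw [e, cE_mul_inv (g := fun x => if P x then (1 : ℝ) else 0)]
    · split_ifs <;> simp
    · intro y hy
      by_cases hx : P x
      · simp [hx, ht x y hx hy]
      · have : ¬ P y := fun h' => hx (ht y x h' (t.symm' hy))
        simp [hx, this]
  have hcomm : cE r (cE s F) = cE s (cE r F) := by
    funext x
    have e1 : cE s F = fun x => if P x then cE s f x else 0 := by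
      funext y; exact key s hPs f y
    have e2 : cE r F = fun x => if P x then cE r f x else 0 := by
      funext y; exact key r hPr f y
    rw [e1, e2, key r hPr, key s hPs]
    split_ifs with hx
    · exact hc f x hx
    · rfl
  have := inner_nonneg_of_comm' F hcomm
  refine this.trans (le_of_eq (sum_congr rfl fun x _ => ?_))
  rw [hF, key r hPr, key s hPs]
  by_cases hx : P x <;> simp [hx]

end proj

/-! ### slots -/

section slots

variable {κ S : Type*} [DecidableEq κ] [DecidableEq S]


/-- a finer relation: fewer columns -/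
theorem rel_mono {p q : κ → S} {U0 U : Finset κ} (h : U0 ⊆ U) (hp : Set.InjOn p U)
    (hq : Set.InjOn q U) (hpq : ∀ z ∈ U, ∀ w ∈ U, p z ≠ q w) : rel p q U0 ≤ rel p q U := by
  intro x y hxy
  rw [rel_iff] at hxy ⊢
  obtain ⟨h1, h2, h3⟩ := hxy
  have hout : ∀ z ∈ U, z ∉ U0 → x (p z) = y (p z) ∧ x (q z) = y (q z) := by
    intro z hz hz0
    constructor
    · apply h1
      intro w hw
      refine ⟨fun h' => hz0 ?_, fun h' => ?_⟩
      · rw [hp hz (h hw) h']; exact hw
      · exact hpq z hz w (h hw) h'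
    · apply h1
      intro w hw
      refine ⟨fun h' => ?_, fun h' => hz0 ?_⟩
      · exact hpq w (h hw) z hz h'.symm
      · rw [hq hz (h hw) h']; exact hw
  refine ⟨fun e he => h1 e fun z hz => he z (h hz), ?_, ?_⟩
  · intro z hz
    by_cases hz0 : z ∈ U0
    · exact h2 z hz0
    · rw [(hout z hz hz0).1, (hout z hz hz0).2]
  · rw [← sum_sdiff h, ← sum_sdiff h (f := fun z => (y (p z)).toNat), h3]
    congr 1
    apply sum_congr rfl
    intro z hz
    rw [mem_sdiff] at hz
    rw [(hout z hz.1 hz.2).1]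

/-- restriction of the relation to fewer columns when the states agree on the other columns -/
theorem rel_restrict {p q : κ → S} {U0 U : Finset κ} (h : U0 ⊆ U) {x y : S → Bool}
    (hxy : rel p q U x y) (hout : ∀ z ∈ U, z ∉ U0 → x (p z) = y (p z) ∧ x (q z) = y (q z)) :
    rel p q U0 x y := by
  rw [rel_iff] at hxy ⊢
  obtain ⟨h1, h2, h3⟩ := hxy
  refine ⟨?_, fun z hz => h2 z (h hz), ?_⟩
  · intro e he
    by_cases hU : ∀ z ∈ U, e ≠ p z ∧ e ≠ q z
    · exact h1 e hU
    · push Not at hU
      obtain ⟨z, hz, hez⟩ := hU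
      have hz0 : z ∉ U0 := fun hz0 => by
        obtain ⟨h4, h5⟩ := he z hz0
        exact h5 (hez h4)
      by_cases hep : e = p z
      · rw [hep]; exact (hout z hz hz0).1
      · rw [hez hep]; exact (hout z hz hz0).2
  · rw [← sum_sdiff h, ← sum_sdiff h (f := fun z => (y (p z)).toNat)] at h3
    have : ∑ z ∈ U \ U0, (x (p z)).toNat = ∑ z ∈ U \ U0, (y (p z)).toNat := by
      apply sum_congr rfl
      intro z hz
      rw [mem_sdiff] at hz
      rw [(hout z hz.1 hz.2).1]
    omega

omit [DecidableEq κ] in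
theorem sw_apply_of_not {p q : κ → S} {c d : κ} {x : S → Bool} (h : ¬ Osep p q c d x) :
    sw p q c d x = x := by
  funext e; unfold sw; rw [if_neg]; tauto

omit [DecidableEq κ] in
theorem Osep_sw {p q : κ → S} {c d : κ} {x : S → Bool} :
    Osep p q c d (sw p q c d x) ↔ Osep p q c d x := by
  by_cases h : Osep p q c d x
  · have h' := h
    unfold Osep at h ⊢
    have e1 : sw p q c d x (p c) = !(x (p c)) := by unfold sw; rw [if_pos ⟨h', by tauto⟩]
    have e2 : sw p q c d x (p d) = !(x (p d)) := by unfold sw; rw [if_pos ⟨h', by tauto⟩]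
    have e3 : sw p q c d x (q c) = !(x (q c)) := by unfold sw; rw [if_pos ⟨h', by tauto⟩]
    have e4 : sw p q c d x (q d) = !(x (q d)) := by unfold sw; rw [if_pos ⟨h', by tauto⟩]
    rw [e1, e2, e3, e4]
    obtain ⟨h1, h2, h3⟩ := h
    constructor
    · intro _
      exact ⟨h1, h2, h3⟩
    · intro _
      refine ⟨by rw [h1], by rw [h2], ?_⟩
      intro h4
      exact h3 (by simpa using h4)
  · rw [sw_apply_of_not h]

theorem sw_sw (p q : κ → S) (c d : κ) (x : S → Bool) : sw p q c d (sw p q c d x) = x := by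
  by_cases h : Osep p q c d x
  · have h' : Osep p q c d (sw p q c d x) := Osep_sw.mpr h
    funext e
    unfold sw at h' ⊢
    by_cases he : e = p c ∨ e = p d ∨ e = q c ∨ e = q d
    · rw [if_pos ⟨h', he⟩, if_pos ⟨h, he⟩, Bool.not_not]
    · rw [if_neg (by tauto), if_neg (by tauto)]
  · rw [sw_apply_of_not h, sw_apply_of_not h]

/-- the switch as a permutation -/
def swP (p q : κ → S) (c d : κ) : Equiv.Perm (S → Bool) where
  toFun := sw p q c d
  invFun := sw p q c d
  left_inv := sw_sw p q c d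
  right_inv := sw_sw p q c d

@[simp] theorem swP_apply (p q : κ → S) (c d : κ) (x : S → Bool) :
    swP p q c d x = sw p q c d x := rfl

theorem rel_sw {p q : κ → S} {U : Finset κ} (hp : Set.InjOn p U) (hq : Set.InjOn q U)
    (hpq : ∀ z ∈ U, ∀ w ∈ U, p z ≠ q w) {c d : κ} (hc : c ∈ U) (hd : d ∈ U) (x : S → Bool) :
    rel p q U x (sw p q c d x) := by
  by_cases h : Osep p q c d x
  · have h' := h
    obtain ⟨h1, h2, h3⟩ := h
    have hcd : c ≠ d := by rintro rfl; exact h3 rfl
    have e1 : sw p q c d x (p c) = !(x (p c)) := by unfold sw; rw [if_pos ⟨h', by tauto⟩]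
    have e2 : sw p q c d x (p d) = !(x (p d)) := by unfold sw; rw [if_pos ⟨h', by tauto⟩]
    have e3 : sw p q c d x (q c) = !(x (q c)) := by unfold sw; rw [if_pos ⟨h', by tauto⟩]
    have e4 : sw p q c d x (q d) = !(x (q d)) := by unfold sw; rw [if_pos ⟨h', by tauto⟩]
    have e5 : ∀ z ∈ U, z ≠ c → z ≠ d → sw p q c d x (p z) = x (p z) := by
      intro z hz hzc hzd
      unfold sw
      rw [if_neg]
      rintro ⟨_, h | h | h | h⟩
      · exact hzc (hp hz hc h)
      · exact hzd (hp hz hd h)
      · exact hpq z hz c hc h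
      · exact hpq z hz d hd h
    have e6 : ∀ z ∈ U, z ≠ c → z ≠ d → sw p q c d x (q z) = x (q z) := by
      intro z hz hzc hzd
      unfold sw
      rw [if_neg]
      rintro ⟨_, h | h | h | h⟩
      · exact hpq c hc z hz h.symm
      · exact hpq d hd z hz h.symm
      · exact hzc (hq hz hc h)
      · exact hzd (hq hz hd h)
    rw [rel_iff]
    refine ⟨?_, ?_, ?_⟩
    · intro e he
      unfold sw
      rw [if_neg]
      rintro ⟨_, h | h | h | h⟩
      · exact (he c hc).1 h
      · exact (he d hd).1 h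
      · exact (he c hc).2 h
      · exact (he d hd).2 h
    · intro z hz
      by_cases hzc : z = c
      · subst hzc
        rw [e1, e3, ← h2]
        revert h3
        cases x (p z) <;> cases x (p d) <;> simp
      · by_cases hzd : z = d
        · subst hzd
          rw [e2, e4, ← h1]
          revert h3
          cases x (p c) <;> cases x (p z) <;> simp
        · rw [e5 z hz hzc hzd, e6 z hz hzc hzd]
    · have hd' : d ∈ U.erase c := mem_erase.mpr ⟨hcd.symm, hd⟩
      rw [← add_sum_erase U _ hc, ← add_sum_erase (U.erase c) _ hd',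
        ← add_sum_erase U (fun z => (sw p q c d x (p z)).toNat) hc,
        ← add_sum_erase (U.erase c) (fun z => (sw p q c d x (p z)).toNat) hd']
      have : ∑ z ∈ (U.erase c).erase d, (sw p q c d x (p z)).toNat
          = ∑ z ∈ (U.erase c).erase d, (x (p z)).toNat := by
        apply sum_congr rfl
        intro z hz
        simp only [mem_erase] at hz
        rw [e5 z hz.2.2 hz.2.1 hz.1]
      simp only [this, e1, e2]
      revert h3
      cases x (p c) <;> cases x (p d) <;> simp
  · rw [sw_apply_of_not h]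

end slots

/-! ### graphs -/

section graph

variable {V : Type*} [Fintype V] [DecidableEq V]

/-- four distinct vertices -/
structure D4 (a b c d : V) : Prop where
  hab : a ≠ b
  hac : a ≠ c
  had : a ≠ d
  hbc : b ≠ c
  hbd : b ≠ d
  hcd : c ≠ d

omit [Fintype V] [DecidableEq V] in
theorem D4.swap {a b c d : V} (h : D4 a b c d) : D4 c d a b :=
  ⟨h.hcd, h.hac.symm, h.hbc.symm, h.had.symm, h.hbd.symm, h.hab⟩

/-- the columns outside of the block -/
def cols0 (a b c d : V) : Finset V := univ.filter fun z => z ≠ a ∧ z ≠ b ∧ z ≠ c ∧ z ≠ d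

/-- the trade relation of `a`, `b` on the columns outside of `{c, d}` -/
def grel0 (a b c d : V) : Setoid (Sym2 V → Bool) :=
  rel (fun z => s(a, z)) (fun z => s(b, z)) (cols0 a b c d)

theorem mem_cols0 {a b c d z : V} : z ∈ cols0 a b c d ↔ z ≠ a ∧ z ≠ b ∧ z ≠ c ∧ z ≠ d := by
  simp [cols0]

theorem mem_cols' {a b z : V} : z ∈ cols a b ↔ z ≠ a ∧ z ≠ b := by
  simp [cols, and_comm]

theorem cols0_sub (a b c d : V) : cols0 a b c d ⊆ cols a b := by
  intro z hz
  rw [mem_cols0] at hz
  rw [mem_cols']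
  exact ⟨hz.1, hz.2.1⟩

omit [Fintype V] [DecidableEq V] in
theorem injOn_slot (a : V) (U : Finset V) : Set.InjOn (fun z => s(a, z)) (U : Set V) := by
  intro z _ w _ h
  exact Sym2.congr_right.mp h

theorem slot_ne {a b : V} (hab : a ≠ b) :
    ∀ z ∈ cols a b, ∀ w ∈ cols a b, s(a, z) ≠ s(b, w) := by
  intro z hz w hw h
  rw [mem_cols'] at hz hw
  rw [Sym2.eq_iff] at h
  rcases h with h | h
  · exact hab h.1
  · exact hz.2 h.2

theorem grel0_le {a b c d : V} (h : D4 a b c d) : grel0 a b c d ≤ grel a b :=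
  rel_mono (cols0_sub a b c d) (injOn_slot a _) (injOn_slot b _) (slot_ne h.hab)

theorem comm1 {a b c d : V} (h : D4 a b c d) (f : (Sym2 V → Bool) → ℝ) :
    cE (grel0 a b c d) (cE (grel c d) f) = cE (grel c d) (cE (grel0 a b c d) f) := by
  apply cE_comm_rel
  intro z hz w hw
  rw [mem_cols0] at hz
  obtain ⟨_, _, h3, h4⟩ := hz
  obtain ⟨hab, hac, had, hbc, hbd, hcd⟩ := h
  simp only [ne_eq, Sym2.eq_iff, not_or, not_and]
  tauto

theorem comm3 {a b c d : V} (h : D4 a b c d) (f : (Sym2 V → Bool) → ℝ) :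
    cE (grel0 a b c d) (cE (grel0 c d a b) f) = cE (grel0 c d a b) (cE (grel0 a b c d) f) := by
  apply cE_comm_rel
  intro z hz w hw
  rw [mem_cols0] at hz
  obtain ⟨_, _, h3, h4⟩ := hz
  obtain ⟨hab, hac, had, hbc, hbd, hcd⟩ := h
  simp only [ne_eq, Sym2.eq_iff, not_or, not_and]
  tauto

/-- separated block -/
abbrev OO (a b c d : V) (x : Sym2 V → Bool) : Prop :=
  Osep (fun z => s(a, z)) (fun z => s(b, z)) c d x

/-- switch of the block -/
abbrev tt (a b c d : V) (x : Sym2 V → Bool) : Sym2 V → Bool :=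
  sw (fun z => s(a, z)) (fun z => s(b, z)) c d x

theorem OO_swap (a b c d : V) (x : Sym2 V → Bool) : OO a b c d x ↔ OO c d a b x := by
  unfold OO Osep
  beta_reduce
  rw [Sym2.eq_swap (a := c) (b := a), Sym2.eq_swap (a := d) (b := b),
    Sym2.eq_swap (a := c) (b := b), Sym2.eq_swap (a := d) (b := a)]
  cases x s(a, c) <;> cases x s(a, d) <;> cases x s(b, c) <;> cases x s(b, d) <;> simp

theorem tt_swap (a b c d : V) (x : Sym2 V → Bool) : tt a b c d x = tt c d a b x := by
  funext e
  unfold tt sw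
  have h1 := OO_swap a b c d x
  unfold OO at h1
  beta_reduce
  rw [Sym2.eq_swap (a := c) (b := a), Sym2.eq_swap (a := d) (b := b),
    Sym2.eq_swap (a := c) (b := b), Sym2.eq_swap (a := d) (b := a)]
  by_cases h : Osep (fun z => s(a, z)) (fun z => s(b, z)) c d x
  · have h' := h1.mp h
    simp only [h, h', true_and]
    congr 1
    apply propext
    tauto
  · have h' : ¬ Osep (fun z => s(c, z)) (fun z => s(d, z)) a b x := fun h2 => h (h1.mpr h2)
    simp only [h, h', false_and]

theorem grel_tt {a b c d : V} (h : D4 a b c d) (x : Sym2 V → Bool) :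
    grel a b x (tt a b c d x) := by
  apply rel_sw (injOn_slot a _) (injOn_slot b _) (slot_ne h.hab)
  · rw [mem_cols']; exact ⟨h.hac.symm, h.hbc.symm⟩
  · rw [mem_cols']; exact ⟨h.had.symm, h.hbd.symm⟩

/-- the even part -/
noncomputable def ev (a b c d : V) (f : (Sym2 V → Bool) → ℝ) (x : Sym2 V → Bool) : ℝ :=
  (f x + f (tt a b c d x)) / 2

theorem ev_swap (a b c d : V) (f : (Sym2 V → Bool) → ℝ) : ev a b c d f = ev c d a b f := by
  funext x
  unfold ev
  rw [tt_swap]

theorem cE_ev {a b c d : V} (h : D4 a b c d) (f : (Sym2 V → Bool) → ℝ) :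
    cE (grel a b) (ev a b c d f) = cE (grel a b) f := by
  funext x
  have h1 := cE_comp_of_rel (r := grel a b) (swP (fun z => s(a, z)) (fun z => s(b, z)) c d)
    (fun x => grel_tt h x) f x
  have h2 : ev a b c d f = fun x => (1 / 2) * (f x + f (tt a b c d x)) := by
    funext y; unfold ev; ring
  rw [h2, cE_mul_const, cE_add]
  have h3 : cE (grel a b) (fun y => f (tt a b c d y)) x = cE (grel a b) f x := h1
  rw [h3]
  ring

theorem inner_ev {a b c d : V} (h : D4 a b c d) (f : (Sym2 V → Bool) → ℝ) :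
    ∑ x, hh a b f x * hh c d f x =
      (1 / 4) * en (fun z => s(a, z)) (fun z => s(b, z)) c d f
      + ∑ x, (ev a b c d f x - cE (grel a b) (ev a b c d f) x) *
          (ev a b c d f x - cE (grel c d) (ev a b c d f) x) := by
  have e1 := cE_ev h f
  have e2 : cE (grel c d) (ev a b c d f) = cE (grel c d) f := by
    rw [ev_swap, cE_ev h.swap]
  rw [e1, e2]
  have iR : ∀ x, cE (grel a b) f (tt a b c d x) = cE (grel a b) f x :=
    fun x => (cE_congr (grel_tt h x)).symm
  have iS : ∀ x, cE (grel c d) f (tt a b c d x) = cE (grel c d) f x := by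
    intro x
    rw [tt_swap]
    exact (cE_congr (grel_tt h.swap x)).symm
  have hsum : ∀ F : (Sym2 V → Bool) → ℝ, ∑ x, F (tt a b c d x) = ∑ x, F x :=
    fun F => Equiv.sum_comp (swP (fun z => s(a, z)) (fun z => s(b, z)) c d) F
  have itt : ∀ x, tt a b c d (tt a b c d x) = x := fun x => sw_sw _ _ _ _ x
  set X : (Sym2 V → Bool) → ℝ := fun x => (f x - f (tt a b c d x)) / 2 *
    (f x + f (tt a b c d x) - cE (grel a b) f x - cE (grel c d) f x) with hX
  have hX0 : ∑ x, X x = 0 := by
    have h1 := hsum X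
    have h2 : ∀ x, X (tt a b c d x) = - X x := by
      intro x
      simp only [hX]
      rw [iR, iS, itt]
      ring
    rw [sum_congr rfl fun x _ => h2 x, sum_neg_distrib] at h1
    linarith
  have h3 : ∀ x, hh a b f x * hh c d f x = (1 / 4) * (f x - f (tt a b c d x)) ^ 2
      + (ev a b c d f x - cE (grel a b) f x) * (ev a b c d f x - cE (grel c d) f x) + X x := by
    intro x
    simp only [hh, ev, hX]
    ring
  rw [sum_congr rfl fun x _ => h3 x, sum_add_distrib, sum_add_distrib, hX0, ← mul_sum]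
  simp only [en]
  ring

theorem frozen {a b c d : V} {x y : Sym2 V → Bool} (hc : x s(a, c) = x s(b, c))
    (hd : x s(a, d) = x s(b, d)) (hxy : grel a b x y) : grel0 a b c d x y := by
  apply rel_restrict (cols0_sub a b c d) hxy
  intro z hz hz0
  have hzz : z = c ∨ z = d := by
    rw [mem_cols'] at hz
    rw [mem_cols0] at hz0
    tauto
  have h2 := (rel_iff.mp hxy).2.1 z hz
  beta_reduce at h2 ⊢
  rcases hzz with rfl | rfl
  · revert h2 hc
    cases x s(a, z) <;> cases x s(b, z) <;> cases y s(a, z) <;> cases y s(b, z) <;> simp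
  · revert h2 hd
    cases x s(a, z) <;> cases x s(b, z) <;> cases y s(a, z) <;> cases y s(b, z) <;> simp

theorem grel0_block {a b c d : V} (h : D4 a b c d) {x y : Sym2 V → Bool}
    (hxy : grel0 a b c d x y) :
    x s(a, c) = y s(a, c) ∧ x s(a, d) = y s(a, d) ∧ x s(b, c) = y s(b, c) ∧
      x s(b, d) = y s(b, d) := by
  have h1 := (rel_iff.mp hxy).1
  obtain ⟨hab, hac, had, hbc, hbd, hcd⟩ := h
  refine ⟨h1 _ ?_, h1 _ ?_, h1 _ ?_, h1 _ ?_⟩ <;>
  · intro z hz
    rw [mem_cols0] at hz
    obtain ⟨h1, h2, h3, h4⟩ := hz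
    simp only [ne_eq, Sym2.eq_iff, not_or, not_and]
    constructor <;> constructor <;> intro h5 h6 <;> simp_all

theorem OO_grel0 {a b c d : V} (h : D4 a b c d) {x y : Sym2 V → Bool}
    (hxy : grel0 a b c d x y) : OO a b c d x ↔ OO a b c d y := by
  obtain ⟨h1, h2, h3, h4⟩ := grel0_block h hxy
  unfold OO Osep
  beta_reduce
  rw [h1, h2, h3, h4]

theorem OO_grel0' {a b c d : V} (h : D4 a b c d) {x y : Sym2 V → Bool}
    (hxy : grel0 c d a b x y) : OO a b c d x ↔ OO a b c d y := by
  rw [OO_swap, OO_swap a b c d y]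
  exact OO_grel0 h.swap hxy

theorem tt_block {a b c d : V} {x : Sym2 V → Bool} (hx : OO a b c d x) :
    tt a b c d x s(a, c) = !(x s(a, c)) ∧ tt a b c d x s(a, d) = !(x s(a, d)) ∧
    tt a b c d x s(b, c) = !(x s(b, c)) ∧ tt a b c d x s(b, d) = !(x s(b, d)) := by
  unfold OO at hx
  refine ⟨?_, ?_, ?_, ?_⟩ <;>
  · unfold tt sw
    rw [if_pos ⟨hx, by tauto⟩]

/-- a related state with the same block -/
theorem grel0_of_block {a b c d : V} {x y : Sym2 V → Bool} (hxy : grel a b x y)
    (h1 : x s(a, c) = y s(a, c)) (h2 : x s(a, d) = y s(a, d)) (h3 : x s(b, c) = y s(b, c))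
    (h4 : x s(b, d) = y s(b, d)) : grel0 a b c d x y := by
  apply rel_restrict (cols0_sub a b c d) hxy
  intro z hz hz0
  have hzz : z = c ∨ z = d := by
    rw [mem_cols'] at hz
    rw [mem_cols0] at hz0
    tauto
  rcases hzz with rfl | rfl
  · exact ⟨h1, h3⟩
  · exact ⟨h2, h4⟩

open Classical in
theorem filter_OO {a b c d : V} (h : D4 a b c d) {x : Sym2 V → Bool} (hx : OO a b c d x) :
    (cls (grel a b) x).filter (fun y => OO a b c d y) =
      cls (grel0 a b c d) x ∪ (cls (grel0 a b c d) x).map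
        (swP (fun z => s(a, z)) (fun z => s(b, z)) c d).toEmbedding := by
  ext y
  simp only [mem_filter, mem_cls, mem_union, mem_map, Equiv.coe_toEmbedding, swP_apply]
  constructor
  · rintro ⟨hxy, hy⟩
    by_cases hb : x s(a, c) = y s(a, c)
    · left
      have hx' := hx
      unfold OO Osep at hx' hy
      beta_reduce at hx' hy
      apply grel0_of_block hxy hb
      · revert hx' hy hb
        cases x s(a, c) <;> cases x s(a, d) <;> cases x s(b, c) <;> cases x s(b, d) <;>
          cases y s(a, c) <;> cases y s(a, d) <;> cases y s(b, c) <;> cases y s(b, d) <;> simp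
      · revert hx' hy hb
        cases x s(a, c) <;> cases x s(a, d) <;> cases x s(b, c) <;> cases x s(b, d) <;>
          cases y s(a, c) <;> cases y s(a, d) <;> cases y s(b, c) <;> cases y s(b, d) <;> simp
      · revert hx' hy hb
        cases x s(a, c) <;> cases x s(a, d) <;> cases x s(b, c) <;> cases x s(b, d) <;>
          cases y s(a, c) <;> cases y s(a, d) <;> cases y s(b, c) <;> cases y s(b, d) <;> simp
    · right
      refine ⟨tt a b c d y, ?_, sw_sw _ _ _ _ y⟩
      have hxy' : grel a b x (tt a b c d y) := (grel a b).trans' hxy (grel_tt h y)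
      obtain ⟨b1, b2, b3, b4⟩ := tt_block hy
      have hx' := hx
      unfold OO Osep at hx' hy
      beta_reduce at hx' hy
      apply grel0_of_block hxy'
      · rw [b1]
        revert hx' hy hb
        cases x s(a, c) <;> cases x s(a, d) <;> cases x s(b, c) <;> cases x s(b, d) <;>
          cases y s(a, c) <;> cases y s(a, d) <;> cases y s(b, c) <;> cases y s(b, d) <;> simp
      · rw [b2]
        revert hx' hy hb
        cases x s(a, c) <;> cases x s(a, d) <;> cases x s(b, c) <;> cases x s(b, d) <;>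
          cases y s(a, c) <;> cases y s(a, d) <;> cases y s(b, c) <;> cases y s(b, d) <;> simp
      · rw [b3]
        revert hx' hy hb
        cases x s(a, c) <;> cases x s(a, d) <;> cases x s(b, c) <;> cases x s(b, d) <;>
          cases y s(a, c) <;> cases y s(a, d) <;> cases y s(b, c) <;> cases y s(b, d) <;> simp
      · rw [b4]
        revert hx' hy hb
        cases x s(a, c) <;> cases x s(a, d) <;> cases x s(b, c) <;> cases x s(b, d) <;>
          cases y s(a, c) <;> cases y s(a, d) <;> cases y s(b, c) <;> cases y s(b, d) <;> simp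
  · rintro (hxy | ⟨w, hw, rfl⟩)
    · exact ⟨grel0_le h hxy, (OO_grel0 h hxy).mp hx⟩
    · refine ⟨(grel a b).trans' (grel0_le h hw) (grel_tt h w), ?_⟩
      exact Osep_sw.mpr ((OO_grel0 h hw).mp hx)

open Classical in
theorem disj_OO {a b c d : V} (h : D4 a b c d) {x : Sym2 V → Bool} (hx : OO a b c d x) :
    Disjoint (cls (grel0 a b c d) x) ((cls (grel0 a b c d) x).map
        (swP (fun z => s(a, z)) (fun z => s(b, z)) c d).toEmbedding) := by
  rw [disjoint_left]
  intro y hy hy'
  simp only [mem_cls, mem_map, Equiv.coe_toEmbedding, swP_apply] at hy hy'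
  obtain ⟨w, hw, rfl⟩ := hy'
  have h1 := (grel0_block h hy).1
  have h2 := (grel0_block h hw).1
  have h3 := (tt_block ((OO_grel0 h hw).mp hx)).1
  rw [h1] at h2
  have h4 : tt a b c d w s(a, c) = w s(a, c) := h2
  rw [h4] at h3
  revert h3
  cases w s(a, c) <;> simp

/-- on the separated part, the fine average of the even part is the average over the separated part
of the class -/
theorem cE0_ev {a b c d : V} (h : D4 a b c d) (f : (Sym2 V → Bool) → ℝ) {x : Sym2 V → Bool}
    (hx : OO a b c d x) :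
    cE (grel0 a b c d) (ev a b c d f) x =
      avO (grel a b) (fun z => s(a, z)) (fun z => s(b, z)) c d f x := by
  classical
  have h1 := filter_OO h hx
  have h2 := disj_OO h hx
  have h3 : (cls (grel a b) x).filter
      (fun y => Osep (fun z => s(a, z)) (fun z => s(b, z)) c d y) =
      cls (grel0 a b c d) x ∪ (cls (grel0 a b c d) x).map
        (swP (fun z => s(a, z)) (fun z => s(b, z)) c d).toEmbedding := by
    rw [← h1]
  have hcard := card_cls_ne (grel0 a b c d) x
  unfold avO cE
  rw [filter_congr_decidable, h3, sum_union h2, card_union_of_disjoint h2, card_map, sum_map]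
  simp only [Equiv.coe_toEmbedding, swP_apply]
  rw [← sum_add_distrib]
  simp only [ev]
  rw [← sum_div]
  push_cast
  field_simp
  ring

/-- the smoothed even part -/
noncomputable def FF (a b c d : V) (f : (Sym2 V → Bool) → ℝ) : (Sym2 V → Bool) → ℝ :=
  cE (grel0 a b c d) (cE (grel0 c d a b) (ev a b c d f))

theorem FF_swap {a b c d : V} (h : D4 a b c d) (f : (Sym2 V → Bool) → ℝ) :
    FF a b c d f = FF c d a b f := by
  unfold FF
  rw [comm3 h, ev_swap]

/-- on the separated part, `F - R F` is a fine average of the mean discrepancy -/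
theorem FF_sub {a b c d : V} (h : D4 a b c d) (f : (Sym2 V → Bool) → ℝ) {x : Sym2 V → Bool}
    (hx : OO a b c d x) :
    FF a b c d f x - cE (grel a b) (FF a b c d f) x =
      cE (grel0 c d a b) (fun y => if OO a b c d y then
        avO (grel a b) (fun z => s(a, z)) (fun z => s(b, z)) c d f y - cE (grel a b) f y else 0)
        x := by
  have h1 : cE (grel a b) (FF a b c d f) = cE (grel0 c d a b) (cE (grel a b) f) := by
    unfold FF
    rw [cE_cE_of_ge (grel0_le h), ← comm1 h.swap, cE_ev h]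
  have h2 : FF a b c d f = cE (grel0 c d a b) (cE (grel0 a b c d) (ev a b c d f)) := by
    unfold FF
    rw [comm3 h]
  rw [h1, h2, ← cE_sub]
  apply cE_eq_of_eqOn
  intro y hy
  have hy' : OO a b c d y := (OO_grel0' h hy).mp hx
  rw [if_pos hy', cE0_ev h f hy']

theorem half_bound {a b c d : V} (h : D4 a b c d) (f : (Sym2 V → Bool) → ℝ) :
    ∑ x, (if OO a b c d x then (FF a b c d f x - cE (grel a b) (FF a b c d f) x) ^ 2 else 0)
      ≤ ∑ x, (if OO a b c d x then
        (avO (grel a b) (fun z => s(a, z)) (fun z => s(b, z)) c d f x - cE (grel a b) f x) ^ 2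
        else 0) := by
  have h1 := sum_cE_sq_le (grel0 c d a b) (fun y => if OO a b c d y then
        avO (grel a b) (fun z => s(a, z)) (fun z => s(b, z)) c d f y - cE (grel a b) f y else 0)
  have h2 : ∑ x, (if OO a b c d x then
        (avO (grel a b) (fun z => s(a, z)) (fun z => s(b, z)) c d f x - cE (grel a b) f x) ^ 2
        else 0) = ∑ x, (if OO a b c d x then
        avO (grel a b) (fun z => s(a, z)) (fun z => s(b, z)) c d f x - cE (grel a b) f x
        else 0) ^ 2 := by
    apply sum_congr rfl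
    intro x _
    split_ifs <;> simp
  rw [h2]
  refine le_trans (sum_le_sum fun x _ => ?_) h1
  split_ifs with hx
  · rw [FF_sub h f hx]
  · exact sq_nonneg _

/-- states with an odd number of edges in the block -/
def odd' (a b c d : V) (x : Sym2 V → Bool) : Prop :=
  blk a b c d x = 1 ∨ blk a b c d x = 3

instance (a b c d : V) (x : Sym2 V → Bool) : Decidable (odd' a b c d x) := by
  unfold odd'; infer_instance

theorem FF_inv (a b c d : V) (f : (Sym2 V → Bool) → ℝ) {x y : Sym2 V → Bool}
    (hxy : grel0 a b c d x y) : FF a b c d f x = FF a b c d f y := cE_congr hxy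

theorem FF_inv' {a b c d : V} (h : D4 a b c d) (f : (Sym2 V → Bool) → ℝ) {x y : Sym2 V → Bool}
    (hxy : grel0 c d a b x y) : FF a b c d f x = FF a b c d f y := by
  rw [FF_swap h]; exact cE_congr hxy

/-- the four cases of the block -/
theorem pointwise {a b c d : V} (h : D4 a b c d) (f : (Sym2 V → Bool) → ℝ)
    (x : Sym2 V → Bool) :
    (if odd' a b c d x then (FF a b c d f x - cE (grel a b) (FF a b c d f) x) *
        (FF a b c d f x - cE (grel c d) (FF a b c d f) x) else 0)
      - (1 / 2) * (if OO a b c d x then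
          (FF a b c d f x - cE (grel a b) (FF a b c d f) x) ^ 2 else 0)
      - (1 / 2) * (if OO a b c d x then
          (FF a b c d f x - cE (grel c d) (FF a b c d f) x) ^ 2 else 0)
      ≤ (FF a b c d f x - cE (grel a b) (FF a b c d f) x) *
        (FF a b c d f x - cE (grel c d) (FF a b c d f) x) := by
  by_cases hO : OO a b c d x
  · have hodd : ¬ odd' a b c d x := by
      unfold OO Osep at hO
      unfold odd' blk
      beta_reduce at hO
      revert hO
      cases x s(a, c) <;> cases x s(a, d) <;> cases x s(b, c) <;> cases x s(b, d) <;> simp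
    rw [if_neg hodd, if_pos hO, if_pos hO]
    nlinarith [sq_nonneg ((FF a b c d f x - cE (grel a b) (FF a b c d f) x) +
      (FF a b c d f x - cE (grel c d) (FF a b c d f) x))]
  · rw [if_neg hO, if_neg hO]
    by_cases hodd : odd' a b c d x
    · rw [if_pos hodd]; simp
    · rw [if_neg hodd]
      have hcase : (x s(a, c) = x s(b, c) ∧ x s(a, d) = x s(b, d)) ∨
          (x s(c, a) = x s(d, a) ∧ x s(c, b) = x s(d, b)) := by
        rw [Sym2.eq_swap (a := c) (b := a), Sym2.eq_swap (a := d) (b := b),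
          Sym2.eq_swap (a := c) (b := b), Sym2.eq_swap (a := d) (b := a)]
        unfold OO Osep at hO
        unfold odd' blk at hodd
        beta_reduce at hO
        revert hO hodd
        cases x s(a, c) <;> cases x s(a, d) <;> cases x s(b, c) <;> cases x s(b, d) <;> simp
      rcases hcase with ⟨h1, h2⟩ | ⟨h1, h2⟩
      · have h3 : cE (grel a b) (FF a b c d f) x = FF a b c d f x :=
          cE_of_inv fun y hy => (FF_inv a b c d f (frozen h1 h2 hy)).symm
        rw [h3]; simp
      · have h3 : cE (grel c d) (FF a b c d f) x = FF a b c d f x :=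
          cE_of_inv fun y hy => (FF_inv' h f (frozen h1 h2 hy)).symm
        rw [h3]; simp

end graph

end Disj

open Disj in
theorem disjoint_pair {V : Type*} [Fintype V] [DecidableEq V] (a b c d : V) (hab : a ≠ b)
    (hac : a ≠ c) (had : a ≠ d) (hbc : b ≠ c)
    (hbd : b ≠ d) (hcd : c ≠ d) (f : (Sym2 V → Bool) → ℝ) :
    (1 / 2) * en (fun z => s(a, z)) (fun z => s(b, z)) c d f
      - ∑ x, (if Osep (fun z => s(a, z)) (fun z => s(b, z)) c d x then
          (avO (grel a b) (fun z => s(a, z)) (fun z => s(b, z)) c d f x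
            - cE (grel a b) f x) ^ 2 else 0)
      - ∑ x, (if Osep (fun z => s(c, z)) (fun z => s(d, z)) a b x then
          (avO (grel c d) (fun z => s(c, z)) (fun z => s(d, z)) a b f x
            - cE (grel c d) f x) ^ 2 else 0)
      ≤ 2 * ∑ x, hh a b f x * hh c d f x := by
  have h : D4 a b c d := ⟨hab, hac, had, hbc, hbd, hcd⟩
  have h1 := inner_ev h f
  have h2 := inner_decomp (grel0_le h) (grel0_le h.swap) (comm1 h) (comm1 h.swap) (comm3 h)
    (ev a b c d f)
  have h3 : 0 ≤ ∑ x, (if odd' a b c d x then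
      (FF a b c d f x - cE (grel a b) (FF a b c d f) x) *
        (FF a b c d f x - cE (grel c d) (FF a b c d f) x) else 0) := by
    apply inner_nonneg_on (odd' a b c d)
    · intro x y hx hxy
      unfold odd' at hx ⊢
      rw [← (blk_inv a b c d hab hac had hbc hbd hcd x y hxy).1]
      exact hx
    · intro x y hx hxy
      unfold odd' at hx ⊢
      rw [← (blk_inv c d a b hcd hac.symm hbc.symm had.symm hbd.symm hab x y hxy).2]
      exact hx
    · intro g x hx
      exact cE_comm_odd a b c d hab hac had hbc hbd hcd g x hx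
  have h4 := half_bound h f
  have h5 := half_bound h.swap f
  have h6 := sum_le_sum (s := univ) fun x _ => pointwise h f x
  rw [sum_sub_distrib, sum_sub_distrib, ← mul_sum, ← mul_sum] at h6
  have h7 : ∑ x, (if OO c d a b x then
      (FF c d a b f x - cE (grel c d) (FF c d a b f) x) ^ 2 else 0)
      = ∑ x, (if OO a b c d x then
      (FF a b c d f x - cE (grel c d) (FF a b c d f) x) ^ 2 else 0) := by
    apply sum_congr rfl
    intro x _
    rw [← FF_swap h]
    have := OO_swap a b c d x
    by_cases hx : OO a b c d x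
    · rw [if_pos hx, if_pos (this.mp hx)]
    · rw [if_neg hx, if_neg (fun h' => hx (this.mpr h'))]
  rw [h7] at h5
  have h8 : ∑ x, (FF a b c d f x - cE (grel a b) (FF a b c d f) x) *
        (FF a b c d f x - cE (grel c d) (FF a b c d f) x) ≤
      ∑ x, (ev a b c d f x - cE (grel a b) (ev a b c d f) x) *
          (ev a b c d f x - cE (grel c d) (ev a b c d f) x) := h2
  linarith

end Crest.Agent.R299
end

-- ▼ part R299/Johnson
section

/-! The two inequalities on one Johnson class `M.powersetCard x` used in row 299. -/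

set_option autoImplicit false

namespace Crest.Agent.R299.Johnson

open Finset

section Sw
variable {α : Type*} [DecidableEq α]

/-- Exchange two elements in a finite set. -/
def sw (c d : α) (A : Finset α) : Finset α := A.map (Equiv.swap c d).toEmbedding

theorem mem_sw {c d a : α} {A : Finset α} : a ∈ sw c d A ↔ Equiv.swap c d a ∈ A := by
  simp only [sw, Finset.mem_map_equiv, Equiv.symm_swap]

@[simp] theorem sw_sw (c d : α) (A : Finset α) : sw c d (sw c d A) = A := by
  ext a
  rw [mem_sw, mem_sw, Equiv.swap_apply_self]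


@[simp] theorem sw_self (c : α) (A : Finset α) : sw c c A = A := by
  ext a
  rw [mem_sw, Equiv.swap_self, Equiv.refl_apply]

@[simp] theorem card_sw (c d : α) (A : Finset α) : (sw c d A).card = A.card := by
  rw [sw, Finset.card_map]

theorem swap_mem {M : Finset α} {c d : α} (hc : c ∈ M) (hd : d ∈ M) (a : α) :
    Equiv.swap c d a ∈ M ↔ a ∈ M := by
  by_cases h1 : a = c
  · subst h1; simp [hc, hd]
  · by_cases h2 : a = d
    · subst h2; simp [hc, hd]
    · rw [Equiv.swap_apply_of_ne_of_ne h1 h2]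

theorem sw_mem {M : Finset α} {x : ℕ} {c d : α} (hc : c ∈ M) (hd : d ∈ M) {A : Finset α}
    (hA : A ∈ M.powersetCard x) : sw c d A ∈ M.powersetCard x := by
  rw [Finset.mem_powersetCard] at hA ⊢
  refine ⟨?_, by rw [card_sw]; exact hA.2⟩
  intro a ha
  rw [mem_sw] at ha
  have := hA.1 ha
  rwa [swap_mem hc hd] at this

theorem sum_sw {M : Finset α} {x : ℕ} {c d : α} (hc : c ∈ M) (hd : d ∈ M)
    (F : Finset α → ℝ) :
    ∑ A ∈ M.powersetCard x, F (sw c d A) = ∑ A ∈ M.powersetCard x, F A := by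
  apply Finset.sum_nbij' (sw c d) (sw c d)
  · intro A hA; exact sw_mem hc hd hA
  · intro A hA; exact sw_mem hc hd hA
  · intro A _; exact sw_sw c d A
  · intro A _; exact sw_sw c d A
  · intro A _; rfl

/-- The Dirichlet form of one pair. -/
noncomputable def Epair (M : Finset α) (x : ℕ) (f : Finset α → ℝ) (c d : α) : ℝ :=
  (1 / 2) * ∑ A ∈ M.powersetCard x, (f A - f (sw c d A)) ^ 2

/-- The Dirichlet form, summed over ordered pairs. -/
noncomputable def Etot (M : Finset α) (x : ℕ) (f : Finset α → ℝ) : ℝ :=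
  ∑ c ∈ M, ∑ d ∈ M, Epair M x f c d

theorem Epair_nonneg (M : Finset α) (x : ℕ) (f : Finset α → ℝ) (c d : α) :
    0 ≤ Epair M x f c d := by
  unfold Epair
  positivity

theorem Epair_self (M : Finset α) (x : ℕ) (f : Finset α → ℝ) (c : α) :
    Epair M x f c c = 0 := by
  unfold Epair
  simp

theorem Etot_nonneg (M : Finset α) (x : ℕ) (f : Finset α → ℝ) : 0 ≤ Etot M x f := by
  unfold Etot
  exact Finset.sum_nonneg fun c _ => Finset.sum_nonneg fun d _ => Epair_nonneg M x f c d

/-- `1` if exactly one of `c`, `d` lies in `A`, else `0`. -/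
def sep (c d : α) (A : Finset α) : ℝ := if (c ∈ A ↔ d ∈ A) then 0 else 1

/-- `∑ f` over the sets separating `c` and `d`. -/
noncomputable def Ssum (M : Finset α) (x : ℕ) (f : Finset α → ℝ) (c d : α) : ℝ :=
  ∑ A ∈ M.powersetCard x, sep c d A * f A

/-- `∑ f` over the sets containing `c`. -/
noncomputable def asum (M : Finset α) (x : ℕ) (f : Finset α → ℝ) (c : α) : ℝ :=
  ∑ A ∈ M.powersetCard x, (if c ∈ A then f A else 0)

/-- number of sets separating `c` and `d` (as a real). -/
noncomputable def wsum (M : Finset α) (x : ℕ) (c d : α) : ℝ :=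
  ∑ A ∈ M.powersetCard x, sep c d A

theorem Ssum_self (M : Finset α) (x : ℕ) (f : Finset α → ℝ) (c : α) :
    Ssum M x f c c = 0 := by
  unfold Ssum sep
  simp

/-- A common Cauchy–Schwarz step. -/
theorem cs_step {M : Finset α} {x : ℕ} {f : Finset α → ℝ} {c c' : α} (hc : c ∈ M)
    (hc' : c' ∈ M) (u u' : Finset α → ℝ) (huu : ∀ A, u' (sw c c' A) = u A)
    (hu2 : ∀ A, (u A - u' A) ^ 2 ≤ sep c c' A) :
    (∑ A ∈ M.powersetCard x, u A * f A - ∑ A ∈ M.powersetCard x, u' A * f A) ^ 2 ≤
      (wsum M x c c' / 2) * Epair M x f c c' := by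
  set P := M.powersetCard x with hP
  set g : Finset α → ℝ := fun A => f A - f (sw c c' A) with hg
  have h1 : ∑ A ∈ P, u' A * f A = ∑ A ∈ P, u A * f (sw c c' A) := by
    rw [← sum_sw hc hc' (fun A => u' A * f A)]
    exact Finset.sum_congr rfl fun A _ => by simp only [huu]
  have h1' : ∑ A ∈ P, u A * f A = ∑ A ∈ P, u' A * f (sw c c' A) := by
    rw [← sum_sw hc hc' (fun A => u' A * f (sw c c' A))]
    exact Finset.sum_congr rfl fun A _ => by simp only [huu, sw_sw]
  have h2 : ∑ A ∈ P, u A * f A - ∑ A ∈ P, u' A * f A =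
      (1 / 2) * ∑ A ∈ P, (u A - u' A) * g A := by
    have e1 : ∑ A ∈ P, (u A - u' A) * g A =
        ∑ A ∈ P, u A * f A - ∑ A ∈ P, u A * f (sw c c' A) - ∑ A ∈ P, u' A * f A +
          ∑ A ∈ P, u' A * f (sw c c' A) := by
      rw [← Finset.sum_sub_distrib, ← Finset.sum_sub_distrib, ← Finset.sum_add_distrib]
      exact Finset.sum_congr rfl fun A _ => by simp only [hg]; ring
    rw [e1, ← h1, ← h1']
    ring
  have h3 : (∑ A ∈ P, (u A - u' A) * g A) ^ 2 ≤
      (∑ A ∈ P, (u A - u' A) ^ 2) * ∑ A ∈ P, g A ^ 2 :=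
    Finset.sum_mul_sq_le_sq_mul_sq P _ _
  have h4 : ∑ A ∈ P, (u A - u' A) ^ 2 ≤ wsum M x c c' :=
    Finset.sum_le_sum fun A _ => hu2 A
  have h5 : 0 ≤ ∑ A ∈ P, g A ^ 2 := Finset.sum_nonneg fun A _ => sq_nonneg _
  have h6 : Epair M x f c c' = (1 / 2) * ∑ A ∈ P, g A ^ 2 := rfl
  rw [h2, h6]
  have h7 := h3.trans (mul_le_mul_of_nonneg_right h4 h5)
  nlinarith [h7]

theorem Ssum_diff {M : Finset α} {x : ℕ} {f : Finset α → ℝ} {c c' d : α} (hc : c ∈ M)
    (hc' : c' ∈ M) (hdc : d ≠ c) (hdc' : d ≠ c') :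
    (Ssum M x f c d - Ssum M x f c' d) ^ 2 ≤
      (wsum M x c c' / 2) * Epair M x f c c' := by
  refine cs_step hc hc' (sep c d) (sep c' d) ?_ ?_
  · intro A
    unfold sep
    simp only [mem_sw, Equiv.swap_apply_right, Equiv.swap_apply_of_ne_of_ne hdc hdc']
  · intro A
    unfold sep
    by_cases h1 : c ∈ A <;> by_cases h2 : c' ∈ A <;> by_cases h3 : d ∈ A <;>
      simp [h1, h2, h3]

theorem asum_eq (M : Finset α) (x : ℕ) (f : Finset α → ℝ) (c : α) :
    asum M x f c = ∑ A ∈ M.powersetCard x, (if c ∈ A then (1 : ℝ) else 0) * f A := by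
  unfold asum
  exact Finset.sum_congr rfl fun A _ => by split_ifs <;> simp

theorem asum_diff {M : Finset α} {x : ℕ} {f : Finset α → ℝ} {c c' : α} (hc : c ∈ M)
    (hc' : c' ∈ M) :
    (asum M x f c - asum M x f c') ^ 2 ≤ (wsum M x c c' / 2) * Epair M x f c c' := by
  rw [asum_eq, asum_eq]
  refine cs_step hc hc' (fun A => if c ∈ A then (1 : ℝ) else 0)
    (fun A => if c' ∈ A then (1 : ℝ) else 0) ?_ ?_
  · intro A
    simp only [mem_sw, Equiv.swap_apply_right]
  · intro A
    unfold sep
    by_cases h1 : c ∈ A <;> by_cases h2 : c' ∈ A <;> simp [h1, h2]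

theorem sum_sep {M : Finset α} {x : ℕ} {A : Finset α} (hA : A ∈ M.powersetCard x) (d : α) :
    ∑ c ∈ M, sep c d A = if d ∈ A then (M.card : ℝ) - x else x := by
  rw [Finset.mem_powersetCard] at hA
  obtain ⟨hAM, hAx⟩ := hA
  have h1 : ∑ c ∈ M, (if c ∈ A then (1 : ℝ) else 0) = x := by
    rw [Finset.sum_ite_mem, Finset.inter_eq_right.mpr hAM]
    simp [hAx]
  by_cases hd : d ∈ A
  · rw [if_pos hd]
    have h2 : ∀ c ∈ M, sep c d A = 1 - (if c ∈ A then (1 : ℝ) else 0) := by
      intro c _
      unfold sep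
      by_cases hc : c ∈ A <;> simp [hc, hd]
    rw [Finset.sum_congr rfl h2, Finset.sum_sub_distrib, h1]
    simp
  · rw [if_neg hd]
    have h2 : ∀ c ∈ M, sep c d A = (if c ∈ A then (1 : ℝ) else 0) := by
      intro c _
      unfold sep
      by_cases hc : c ∈ A <;> simp [hc, hd]
    rw [Finset.sum_congr rfl h2, h1]

theorem sum_Ssum {M : Finset α} {x : ℕ} {f : Finset α → ℝ}
    (hf : ∑ A ∈ M.powersetCard x, f A = 0) (d : α) :
    ∑ c ∈ M, Ssum M x f c d = ((M.card : ℝ) - 2 * x) * asum M x f d := by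
  unfold Ssum
  rw [Finset.sum_comm]
  have h1 : ∀ A ∈ M.powersetCard x, ∑ c ∈ M, sep c d A * f A =
      ((M.card : ℝ) - 2 * x) * (if d ∈ A then f A else 0) + x * f A := by
    intro A hA
    rw [← Finset.sum_mul, sum_sep hA]
    split_ifs <;> ring
  rw [Finset.sum_congr rfl h1, Finset.sum_add_distrib, ← Finset.mul_sum, ← Finset.mul_sum, hf]
  unfold asum
  ring

theorem sum_asum {M : Finset α} {x : ℕ} {f : Finset α → ℝ}
    (hf : ∑ A ∈ M.powersetCard x, f A = 0) :
    ∑ c ∈ M, asum M x f c = 0 := by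
  unfold asum
  rw [Finset.sum_comm]
  have h1 : ∀ A ∈ M.powersetCard x, ∑ c ∈ M, (if c ∈ A then f A else 0) = x * f A := by
    intro A hA
    rw [Finset.mem_powersetCard] at hA
    rw [Finset.sum_ite_mem, Finset.inter_eq_right.mpr hA.1]
    simp [hA.2]
  rw [Finset.sum_congr rfl h1, ← Finset.mul_sum, hf, mul_zero]

omit [DecidableEq α] in
/-- `∑_{c,c'} (a_c - a_{c'})² = 2 m ∑ a² - 2 (∑ a)²`. -/
theorem sum_sq_diff (s : Finset α) (a : α → ℝ) :
    ∑ c ∈ s, ∑ c' ∈ s, (a c - a c') ^ 2 =
      2 * (s.card : ℝ) * ∑ c ∈ s, a c ^ 2 - 2 * (∑ c ∈ s, a c) ^ 2 := by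
  have h1 : ∀ c ∈ s, ∑ c' ∈ s, (a c - a c') ^ 2 =
      (s.card : ℝ) * a c ^ 2 - 2 * a c * (∑ c' ∈ s, a c') + ∑ c' ∈ s, a c' ^ 2 := by
    intro c _
    have : ∀ c' ∈ s, (a c - a c') ^ 2 = a c ^ 2 - 2 * a c * a c' + a c' ^ 2 := by
      intro c' _; ring
    rw [Finset.sum_congr rfl this, Finset.sum_add_distrib, Finset.sum_sub_distrib,
      Finset.sum_const, nsmul_eq_mul, Finset.mul_sum]
  rw [Finset.sum_congr rfl h1, Finset.sum_add_distrib, Finset.sum_sub_distrib,
    Finset.sum_const, nsmul_eq_mul, ← Finset.mul_sum, ← Finset.sum_mul, ← Finset.mul_sum]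
  ring

/-- (J) for centred `f`: `∑_{c,d} S_{cd}² ≤ (W/2) 𝓔`. -/
theorem johnson_J {M : Finset α} {x : ℕ} {f : Finset α → ℝ}
    (hf : ∑ A ∈ M.powersetCard x, f A = 0) (hx : x ≤ M.card) {W : ℝ}
    (hW : ∀ c ∈ M, ∀ c' ∈ M, c ≠ c' → wsum M x c c' ≤ W) (hW0 : 0 ≤ W) :
    ∑ c ∈ M, ∑ d ∈ M, Ssum M x f c d ^ 2 ≤ (W / 2) * Etot M x f := by
  set m : ℝ := (M.card : ℝ) with hm
  have hE : ∀ c d, 0 ≤ Epair M x f c d := Epair_nonneg M x f
  have hWE : ∀ c ∈ M, ∀ c' ∈ M, (wsum M x c c' / 2) * Epair M x f c c' ≤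
      (W / 2) * Epair M x f c c' := by
    intro c hc c' hc'
    by_cases h : c = c'
    · subst h; simp [Epair_self]
    · exact mul_le_mul_of_nonneg_right (by linarith [hW c hc c' hc' h]) (hE _ _)
  -- (6)
  have h6 : 2 * m * ∑ c ∈ M, asum M x f c ^ 2 ≤ (W / 2) * Etot M x f := by
    have e := sum_sq_diff M (asum M x f)
    rw [sum_asum hf] at e
    have e' : 2 * m * ∑ c ∈ M, asum M x f c ^ 2 =
        ∑ c ∈ M, ∑ c' ∈ M, (asum M x f c - asum M x f c') ^ 2 := by
      rw [e]; ring
    rw [e', Etot, Finset.mul_sum]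
    apply Finset.sum_le_sum
    intro c hc
    rw [Finset.mul_sum]
    apply Finset.sum_le_sum
    intro c' hc'
    exact (asum_diff hc hc').trans (hWE c hc c' hc')
  -- (5) for fixed `d`
  have h5 : ∀ d ∈ M, 2 * (m - 1) * ∑ c ∈ M, Ssum M x f c d ^ 2 -
      2 * (m - 2 * x) ^ 2 * asum M x f d ^ 2 ≤
      (W / 2) * ∑ c ∈ M.erase d, ∑ c' ∈ M.erase d, Epair M x f c c' := by
    intro d hd
    have e := sum_sq_diff (M.erase d) (fun c => Ssum M x f c d)
    have e1 : ∑ c ∈ M.erase d, Ssum M x f c d = ∑ c ∈ M, Ssum M x f c d := by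
      rw [← Finset.add_sum_erase M _ hd, Ssum_self, zero_add]
    have e2 : ∑ c ∈ M.erase d, Ssum M x f c d ^ 2 = ∑ c ∈ M, Ssum M x f c d ^ 2 := by
      rw [← Finset.add_sum_erase M _ hd, Ssum_self]; ring
    have e3 : ((M.erase d).card : ℝ) = m - 1 := by
      rw [Finset.card_erase_of_mem hd, Nat.cast_sub (Finset.card_pos.mpr ⟨d, hd⟩)]
      simp [hm]
    rw [e1, e2, e3, sum_Ssum hf d] at e
    have e4 : 2 * (m - 1) * ∑ c ∈ M, Ssum M x f c d ^ 2 -
        2 * (m - 2 * x) ^ 2 * asum M x f d ^ 2 =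
        ∑ c ∈ M.erase d, ∑ c' ∈ M.erase d, (Ssum M x f c d - Ssum M x f c' d) ^ 2 := by
      rw [e]; ring
    rw [e4, Finset.mul_sum]
    apply Finset.sum_le_sum
    intro c hc
    rw [Finset.mul_sum]
    apply Finset.sum_le_sum
    intro c' hc'
    rw [Finset.mem_erase] at hc hc'
    exact (Ssum_diff hc.2 hc'.2 (Ne.symm hc.1) (Ne.symm hc'.1)).trans
      (hWE c hc.2 c' hc'.2)
  -- counting the `d`'s
  have hcount : ∑ d ∈ M, ∑ c ∈ M.erase d, ∑ c' ∈ M.erase d, Epair M x f c c' =
      (m - 2) * Etot M x f := by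
    have e1 : ∀ d ∈ M, ∑ c ∈ M.erase d, ∑ c' ∈ M.erase d, Epair M x f c c' =
        Etot M x f - ∑ c ∈ M, Epair M x f c d - ∑ c ∈ M, Epair M x f d c := by
      intro d hd
      have e2 : ∀ c, ∑ c' ∈ M.erase d, Epair M x f c c' =
          ∑ c' ∈ M, Epair M x f c c' - Epair M x f c d := by
        intro c
        rw [← Finset.add_sum_erase M _ hd]; ring
      have e3 : ∑ c ∈ M.erase d, ∑ c' ∈ M.erase d, Epair M x f c c' =
          ∑ c ∈ M, ∑ c' ∈ M.erase d, Epair M x f c c' -
            ∑ c' ∈ M.erase d, Epair M x f d c' := by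
        rw [← Finset.add_sum_erase M _ hd]; ring
      rw [e3, e2 d, Finset.sum_congr rfl (fun c _ => e2 c), Finset.sum_sub_distrib,
        Epair_self, Etot]
      ring
    rw [Finset.sum_congr rfl e1, Finset.sum_sub_distrib, Finset.sum_sub_distrib,
      Finset.sum_const, nsmul_eq_mul]
    have e5 : ∑ d ∈ M, ∑ c ∈ M, Epair M x f c d = Etot M x f := by
      rw [Finset.sum_comm]; rfl
    rw [e5]
    have e6 : ∑ d ∈ M, ∑ c ∈ M, Epair M x f d c = Etot M x f := rfl
    rw [e6]
    ring
  -- sum over `d`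
  have h7 : 2 * (m - 1) * (∑ c ∈ M, ∑ d ∈ M, Ssum M x f c d ^ 2) -
      2 * (m - 2 * x) ^ 2 * (∑ d ∈ M, asum M x f d ^ 2) ≤
      (W / 2) * ((m - 2) * Etot M x f) := by
    have := Finset.sum_le_sum h5
    rw [Finset.sum_sub_distrib, ← Finset.mul_sum, ← Finset.mul_sum, ← Finset.mul_sum,
      hcount] at this
    rw [Finset.sum_comm (s := M) (t := M)]
    exact this
  have hE0 : 0 ≤ Etot M x f := Etot_nonneg M x f
  have hA0 : 0 ≤ ∑ c ∈ M, asum M x f c ^ 2 := Finset.sum_nonneg fun c _ => sq_nonneg _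
  have hx' : (x : ℝ) ≤ m := by rw [hm]; exact_mod_cast hx
  have hx0 : (0 : ℝ) ≤ x := Nat.cast_nonneg x
  have hmx : (m - 2 * x) ^ 2 ≤ m ^ 2 := by nlinarith
  rcases Nat.lt_or_ge M.card 2 with hM2 | hM2
  · -- at most one element: all terms vanish
    have hz : ∑ c ∈ M, ∑ d ∈ M, Ssum M x f c d ^ 2 = 0 := by
      apply Finset.sum_eq_zero
      intro c hc
      apply Finset.sum_eq_zero
      intro d hd
      have : c = d := Finset.card_le_one.mp (by omega) c hc d hd
      subst this
      rw [Ssum_self]; ring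
    rw [hz]
    positivity
  · have hm2 : (2 : ℝ) ≤ m := by rw [hm]; exact_mod_cast hM2
    set T := ∑ c ∈ M, ∑ d ∈ M, Ssum M x f c d ^ 2
    set Q := ∑ c ∈ M, asum M x f c ^ 2
    have h8 : 2 * (m - 2 * x) ^ 2 * Q ≤ m * ((W / 2) * Etot M x f) := by
      calc 2 * (m - 2 * x) ^ 2 * Q ≤ 2 * m ^ 2 * Q := by
            apply mul_le_mul_of_nonneg_right _ hA0
            linarith
        _ = m * (2 * m * Q) := by ring
        _ ≤ m * ((W / 2) * Etot M x f) :=
            mul_le_mul_of_nonneg_left h6 (by linarith)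
    have h9 : 2 * (m - 1) * T ≤ 2 * (m - 1) * ((W / 2) * Etot M x f) := by
      nlinarith [h7, h8]
    exact le_of_mul_le_mul_left h9 (by linarith)

/-- `wsum` does not depend on the pair. -/
theorem wsum_right {M : Finset α} {x : ℕ} {c d d' : α} (hd : d ∈ M) (hd' : d' ∈ M)
    (h : c ≠ d) (h' : c ≠ d') : wsum M x c d = wsum M x c d' := by
  unfold wsum
  rw [← sum_sw hd hd' (fun A => sep c d' A)]
  refine Finset.sum_congr rfl fun A _ => ?_
  unfold sep
  simp only [mem_sw, Equiv.swap_apply_right, Equiv.swap_apply_of_ne_of_ne h h']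

theorem wsum_comm (M : Finset α) (x : ℕ) (c d : α) : wsum M x c d = wsum M x d c := by
  unfold wsum sep
  refine Finset.sum_congr rfl fun A _ => ?_
  simp only [iff_comm]

theorem wsum_const {M : Finset α} {x : ℕ} {c d c' d' : α} (hc : c ∈ M) (hd : d ∈ M)
    (hc' : c' ∈ M) (hd' : d' ∈ M) (h : c ≠ d) (h' : c' ≠ d') :
    wsum M x c d = wsum M x c' d' := by
  by_cases h1 : c = d'
  · subst h1
    rw [wsum_comm M x c' c]
    exact wsum_right hd hc' h h'.symm
  · rw [wsum_right hd hd' h h1, wsum_comm M x c d', wsum_comm M x c' d']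
    exact wsum_right hc hc' (Ne.symm h1) h'.symm

theorem sep_nonneg (c d : α) (A : Finset α) : 0 ≤ sep c d A := by
  unfold sep; split_ifs <;> norm_num

theorem wsum_nonneg (M : Finset α) (x : ℕ) (c d : α) : 0 ≤ wsum M x c d :=
  Finset.sum_nonneg fun A _ => sep_nonneg c d A

/-- (J) in averaged form. -/
theorem johnson_J' {M : Finset α} {x : ℕ} {f : Finset α → ℝ} {μ : ℝ}
    (hμ : ∑ A ∈ M.powersetCard x, f A = ((M.powersetCard x).card : ℝ) * μ)
    (hx : x ≤ M.card) :
    ∑ c ∈ M, ∑ d ∈ M, ∑ A ∈ M.powersetCard x,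
      sep c d A * (Ssum M x f c d / wsum M x c d - μ) ^ 2 ≤ (1 / 2) * Etot M x f := by
  set F : Finset α → ℝ := fun A => f A - μ with hF
  have hF0 : ∑ A ∈ M.powersetCard x, F A = 0 := by
    simp only [hF]
    rw [Finset.sum_sub_distrib, hμ, Finset.sum_const, nsmul_eq_mul, sub_self]
  have hEF : Etot M x F = Etot M x f := by
    unfold Etot Epair
    simp only [hF]
    refine Finset.sum_congr rfl fun c _ => Finset.sum_congr rfl fun d _ => ?_
    congr 1
    refine Finset.sum_congr rfl fun A _ => ?_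
    ring
  have hSF : ∀ c d, Ssum M x F c d = Ssum M x f c d - wsum M x c d * μ := by
    intro c d
    unfold Ssum wsum
    rw [Finset.sum_mul, ← Finset.sum_sub_distrib]
    refine Finset.sum_congr rfl fun A _ => ?_
    simp only [hF]; ring
  have hterm : ∀ c d, ∑ A ∈ M.powersetCard x,
      sep c d A * (Ssum M x f c d / wsum M x c d - μ) ^ 2 =
      Ssum M x F c d ^ 2 / wsum M x c d := by
    intro c d
    rw [← Finset.sum_mul]
    change wsum M x c d * _ = _
    rw [hSF]
    by_cases hw : wsum M x c d = 0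
    · rw [hw]; simp
    · field_simp
  simp only [hterm]
  by_cases hex : ∃ c0 ∈ M, ∃ d0 ∈ M, c0 ≠ d0
  · obtain ⟨c0, hc0, d0, hd0, h0⟩ := hex
    set W := wsum M x c0 d0 with hW
    have hW0 : 0 ≤ W := wsum_nonneg M x c0 d0
    have hc : ∀ c ∈ M, ∀ d ∈ M, Ssum M x F c d ^ 2 / wsum M x c d =
        Ssum M x F c d ^ 2 / W := by
      intro c hc d hd
      by_cases h : c = d
      · subst h; rw [Ssum_self]; simp
      · rw [wsum_const hc hd hc0 hd0 h h0]
    rw [Finset.sum_congr rfl fun c hc' => Finset.sum_congr rfl fun d hd' => hc c hc' d hd']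
    have hJ := johnson_J hF0 hx (W := W)
      (fun c hc d hd h => (wsum_const hc hd hc0 hd0 h h0).le) hW0
    rw [hEF] at hJ
    simp only [← Finset.sum_div]
    rcases hW0.eq_or_lt with h | h
    · rw [← h, div_zero]
      have := Etot_nonneg M x f
      linarith
    · rw [div_le_iff₀ h]
      calc _ ≤ _ := hJ
        _ = _ := by ring
  · push Not at hex
    have hz : ∑ c ∈ M, ∑ d ∈ M, Ssum M x F c d ^ 2 / wsum M x c d = 0 := by
      apply Finset.sum_eq_zero
      intro c hc
      apply Finset.sum_eq_zero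
      intro d hd
      rw [hex c hc d hd, Ssum_self]
      simp
    rw [hz]
    have := Etot_nonneg M x f
    linarith

end Sw

end Crest.Agent.R299.Johnson
end

-- ▼ part R299/TwoRowJ
section

/-! Row 299, T2: inequality (J) for the classes of `rel p q U`. -/

set_option autoImplicit false
open Finset

namespace Crest.Agent.R299

namespace TJ

variable {κ S : Type*} [DecidableEq κ] [DecidableEq S] {p q : κ → S} {U : Finset κ}
  (hp : Set.InjOn p U) (hq : Set.InjOn q U) (hpq : ∀ z ∈ U, ∀ w ∈ U, p z ≠ q w)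

include hp hq hpq

theorem osep_setC {x : S → Bool} {A : Finset κ} {c d : κ} (hc : c ∈ U) (hd : d ∈ U) :
    Osep p q c d (setC p q (freeC p q U x) A x) ↔
      c ∈ freeC p q U x ∧ d ∈ freeC p q U x ∧ ¬ (c ∈ A ↔ d ∈ A) := by
  unfold Osep
  rw [setC_p_of hp hq hpq (freeC_subset x) hc, setC_q_of hp hq hpq (freeC_subset x) hd,
    setC_p_of hp hq hpq (freeC_subset x) hd, setC_q_of hp hq hpq (freeC_subset x) hc]
  have hcf : c ∉ freeC p q U x → x (p c) = x (q c) := by
    intro h; by_contra h'; exact h (mem_freeC.mpr ⟨hc, h'⟩)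
  have hdf : d ∉ freeC p q U x → x (p d) = x (q d) := by
    intro h; by_contra h'; exact h (mem_freeC.mpr ⟨hd, h'⟩)
  by_cases h1 : c ∈ freeC p q U x
  · by_cases h2 : d ∈ freeC p q U x
    · by_cases h3 : c ∈ A <;> by_cases h4 : d ∈ A <;> simp [h1, h2, h3, h4]
    · have := hdf h2
      by_cases h3 : c ∈ A <;> simp [h1, h2, h3, this]
  · have hc' := hcf h1
    by_cases h2 : d ∈ freeC p q U x
    · by_cases h4 : d ∈ A <;> simp [h1, h2, h4, hc']
    · have := hdf h2
      simp only [h1, h2, if_false, false_and, iff_false, hc', this]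
      cases x (q c) <;> cases x (q d) <;> simp

theorem sw_setC {x : S → Bool} {A : Finset κ} {c d : κ} (hc : c ∈ U) (hd : d ∈ U)
    (hcf : c ∈ freeC p q U x) (hdf : d ∈ freeC p q U x) :
    sw p q c d (setC p q (freeC p q U x) A x) =
      setC p q (freeC p q U x) (Johnson.sw c d A) x := by
  have hO := osep_setC hp hq hpq (x := x) (A := A) hc hd
  by_cases hsep : (c ∈ A ↔ d ∈ A)
  · have h1 : ¬ Osep p q c d (setC p q (freeC p q U x) A x) := by
      rw [hO]; tauto
    have h2 : Johnson.sw c d A = A := by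
      ext a
      rw [Johnson.mem_sw]
      by_cases h3 : a = c
      · subst h3; rw [Equiv.swap_apply_left]; exact hsep.symm
      · by_cases h4 : a = d
        · subst h4; rw [Equiv.swap_apply_right]; exact hsep
        · rw [Equiv.swap_apply_of_ne_of_ne h3 h4]
    rw [h2]
    funext e
    unfold sw
    rw [if_neg (fun h => h1 h.1)]
  · have h1 : Osep p q c d (setC p q (freeC p q U x) A x) := hO.mpr ⟨hcf, hdf, hsep⟩
    have hcd : c ≠ d := by rintro rfl; exact hsep Iff.rfl
    funext e
    unfold sw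
    simp only [h1, true_and]
    by_cases hep : ∃ z ∈ freeC p q U x, e = p z
    · obtain ⟨z, hz, rfl⟩ := hep
      have hzU := freeC_subset x hz
      rw [setC_p_of hp hq hpq (freeC_subset x) hzU, setC_p_of hp hq hpq (freeC_subset x) hzU,
        if_pos hz, if_pos hz]
      by_cases h3 : z = c
      · subst h3
        rw [if_pos (Or.inl rfl)]
        simp only [Johnson.mem_sw, Equiv.swap_apply_left]
        by_cases h5 : z ∈ A <;> by_cases h6 : d ∈ A <;> simp_all
      · by_cases h4 : z = d
        · subst h4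
          rw [if_pos (Or.inr (Or.inl rfl))]
          simp only [Johnson.mem_sw, Equiv.swap_apply_right]
          by_cases h5 : z ∈ A <;> by_cases h6 : c ∈ A <;> simp_all
        · rw [if_neg]
          · simp only [Johnson.mem_sw, Equiv.swap_apply_of_ne_of_ne h3 h4]
          · rintro (h | h | h | h)
            · exact h3 (hp hzU hc h)
            · exact h4 (hp hzU hd h)
            · exact hpq z hzU c hc h
            · exact hpq z hzU d hd h
    · by_cases heq : ∃ z ∈ freeC p q U x, e = q z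
      · obtain ⟨z, hz, rfl⟩ := heq
        have hzU := freeC_subset x hz
        rw [setC_q_of hp hq hpq (freeC_subset x) hzU, setC_q_of hp hq hpq (freeC_subset x) hzU,
          if_pos hz, if_pos hz]
        by_cases h3 : z = c
        · subst h3
          rw [if_pos (Or.inr (Or.inr (Or.inl rfl)))]
          simp only [Johnson.mem_sw, Equiv.swap_apply_left]
          by_cases h5 : z ∈ A <;> by_cases h6 : d ∈ A <;> simp_all
        · by_cases h4 : z = d
          · subst h4
            rw [if_pos (Or.inr (Or.inr (Or.inr rfl)))]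
            simp only [Johnson.mem_sw, Equiv.swap_apply_right]
            by_cases h5 : z ∈ A <;> by_cases h6 : c ∈ A <;> simp_all
          · rw [if_neg]
            · simp only [Johnson.mem_sw, Equiv.swap_apply_of_ne_of_ne h3 h4]
            · rintro (h | h | h | h)
              · exact hpq c hc z hzU h.symm
              · exact hpq d hd z hzU h.symm
              · exact h3 (hq hzU hc h)
              · exact h4 (hq hzU hd h)
      · have h3 : ∀ z ∈ freeC p q U x, e ≠ p z := fun z hz h => hep ⟨z, hz, h⟩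
        have h4 : ∀ z ∈ freeC p q U x, e ≠ q z := fun z hz h => heq ⟨z, hz, h⟩
        rw [setC_off x h3 h4, setC_off x h3 h4, if_neg]
        rintro (h | h | h | h)
        · exact h3 c hcf h
        · exact h3 d hdf h
        · exact h4 c hcf h
        · exact h4 d hdf h

theorem sw_setC_not {x : S → Bool} {A : Finset κ} {c d : κ} (hc : c ∈ U) (hd : d ∈ U)
    (h : ¬ (c ∈ freeC p q U x ∧ d ∈ freeC p q U x)) :
    sw p q c d (setC p q (freeC p q U x) A x) = setC p q (freeC p q U x) A x := by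
  have hO := osep_setC hp hq hpq (x := x) (A := A) hc hd
  have h1 : ¬ Osep p q c d (setC p q (freeC p q U x) A x) := by
    rw [hO]; tauto
  funext e
  unfold sw
  rw [if_neg (fun h => h1 h.1)]

/-- the energy integrand, averaged over a class -/
theorem sum_energy [Fintype S] (f : (S → Bool) → ℝ) (x : S → Bool) :
    ∑ y ∈ cls (rel p q U) x, ∑ c ∈ U, ∑ d ∈ U, (f y - f (sw p q c d y)) ^ 2 =
      2 * Johnson.Etot (freeC p q U x) (posC p q U x).card
        (fun A => f (setC p q (freeC p q U x) A x)) := by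
  rw [sum_cls_rel hp hq hpq]
  set M := freeC p q U x with hM
  set P := powersetCard (posC p q U x).card M with hP
  set F : Finset κ → ℝ := fun A => f (setC p q M A x) with hF
  have h1 : ∀ A ∈ P, ∑ c ∈ U, ∑ d ∈ U,
      (f (setC p q M A x) - f (sw p q c d (setC p q M A x))) ^ 2 =
      ∑ c ∈ M, ∑ d ∈ M, (F A - F (Johnson.sw c d A)) ^ 2 := by
    intro A _
    have h2 : ∀ c ∈ U, ∀ d ∈ U,
        (f (setC p q M A x) - f (sw p q c d (setC p q M A x))) ^ 2 =
        if c ∈ M then (if d ∈ M then (F A - F (Johnson.sw c d A)) ^ 2 else 0) else 0 := by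
      intro c hc d hd
      by_cases hcM : c ∈ M
      · by_cases hdM : d ∈ M
        · rw [if_pos hcM, if_pos hdM, sw_setC hp hq hpq hc hd hcM hdM]
        · rw [if_pos hcM, if_neg hdM, sw_setC_not hp hq hpq hc hd (fun h => hdM h.2)]
          ring
      · rw [if_neg hcM, sw_setC_not hp hq hpq hc hd (fun h => hcM h.1)]
        ring
    rw [sum_congr rfl fun c hc => sum_congr rfl fun d hd => h2 c hc d hd]
    have h3 : ∀ c ∈ U, (∑ d ∈ U, if c ∈ M then
        (if d ∈ M then (F A - F (Johnson.sw c d A)) ^ 2 else 0) else 0) =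
        if c ∈ M then ∑ d ∈ M, (F A - F (Johnson.sw c d A)) ^ 2 else 0 := by
      intro c _
      by_cases hcM : c ∈ M
      · simp only [if_pos hcM]
        rw [sum_ite_mem, inter_eq_right.mpr (freeC_subset x)]
      · simp only [if_neg hcM, sum_const_zero]
    rw [sum_congr rfl h3, sum_ite_mem, inter_eq_right.mpr (freeC_subset x)]
  rw [sum_congr rfl h1, Johnson.Etot, sum_comm, mul_sum]
  refine sum_congr rfl fun c _ => ?_
  rw [sum_comm, mul_sum]
  refine sum_congr rfl fun d _ => ?_
  rw [Johnson.Epair]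
  ring

theorem avO_eq [Fintype S] (f : (S → Bool) → ℝ) (x : S → Bool) {c d : κ}
    (hc : c ∈ freeC p q U x) (hd : d ∈ freeC p q U x) :
    avO (rel p q U) p q c d f x =
      Johnson.Ssum (freeC p q U x) (posC p q U x).card
        (fun A => f (setC p q (freeC p q U x) A x)) c d /
      Johnson.wsum (freeC p q U x) (posC p q U x).card c d := by
  classical
  have hcU := freeC_subset x hc
  have hdU := freeC_subset x hd
  have key : ∀ g : (S → Bool) → ℝ,
      ∑ y ∈ (cls (rel p q U) x).filter (fun y => Osep p q c d y), g y =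
      ∑ A ∈ powersetCard (posC p q U x).card (freeC p q U x),
        Johnson.sep c d A * g (setC p q (freeC p q U x) A x) := by
    intro g
    rw [sum_filter, sum_cls_rel hp hq hpq]
    refine sum_congr rfl fun A _ => ?_
    have hO := osep_setC hp hq hpq (x := x) (A := A) hcU hdU
    unfold Johnson.sep
    by_cases h : (c ∈ A ↔ d ∈ A)
    · rw [if_neg, if_pos h, zero_mul]
      rw [hO]; tauto
    · rw [if_pos, if_neg h, one_mul]
      rw [hO]; exact ⟨hc, hd, h⟩
  unfold avO
  have h1 := key f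
  have h2 := key (fun _ => 1)
  rw [sum_const, nsmul_eq_mul, mul_one] at h2
  simp only [mul_one] at h2
  have e1 : (∑ y ∈ (cls (rel p q U) x).filter (fun y => Osep p q c d y), f y) =
      Johnson.Ssum (freeC p q U x) (posC p q U x).card
        (fun A => f (setC p q (freeC p q U x) A x)) c d := h1
  have e2 : ((((cls (rel p q U) x).filter (fun y => Osep p q c d y)).card : ℕ) : ℝ) =
      Johnson.wsum (freeC p q U x) (posC p q U x).card c d := h2
  rw [e1, e2]

/-- the class version of (J) -/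
theorem class_J [Fintype S] (f : (S → Bool) → ℝ) (x : S → Bool) :
    ∑ y ∈ cls (rel p q U) x, ∑ c ∈ U, ∑ d ∈ U, (if Osep p q c d y then
        (avO (rel p q U) p q c d f y - cE (rel p q U) f y) ^ 2 else 0) ≤
      (1 / 4) * ∑ y ∈ cls (rel p q U) x, ∑ c ∈ U, ∑ d ∈ U, (f y - f (sw p q c d y)) ^ 2 := by
  classical
  rw [sum_energy hp hq hpq]
  set M := freeC p q U x with hM
  set k := (posC p q U x).card with hk
  set F : Finset κ → ℝ := fun A => f (setC p q M A x) with hF
  have h1 : ∀ y ∈ cls (rel p q U) x, ∑ c ∈ U, ∑ d ∈ U, (if Osep p q c d y then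
        (avO (rel p q U) p q c d f y - cE (rel p q U) f y) ^ 2 else 0) =
      ∑ c ∈ U, ∑ d ∈ U, (if Osep p q c d y then
        (avO (rel p q U) p q c d f x - cE (rel p q U) f x) ^ 2 else 0) := by
    intro y hy
    have hxy : rel p q U x y := mem_cls.mp hy
    have e : ∀ c d, avO (rel p q U) p q c d f y = avO (rel p q U) p q c d f x := by
      intro c d
      unfold avO
      rw [cls_eq hxy]
    simp only [e, cE_congr hxy]
  rw [sum_congr rfl h1, sum_cls_rel hp hq hpq]
  have h2 : ∀ A ∈ powersetCard k M, ∑ c ∈ U, ∑ d ∈ U,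
      (if Osep p q c d (setC p q M A x) then
        (avO (rel p q U) p q c d f x - cE (rel p q U) f x) ^ 2 else 0) =
      ∑ c ∈ M, ∑ d ∈ M, Johnson.sep c d A *
        (Johnson.Ssum M k F c d / Johnson.wsum M k c d - cE (rel p q U) f x) ^ 2 := by
    intro A _
    have h3 : ∀ c ∈ U, ∀ d ∈ U, (if Osep p q c d (setC p q M A x) then
        (avO (rel p q U) p q c d f x - cE (rel p q U) f x) ^ 2 else 0) =
        if c ∈ M then (if d ∈ M then Johnson.sep c d A *
        (Johnson.Ssum M k F c d / Johnson.wsum M k c d - cE (rel p q U) f x) ^ 2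
          else 0) else 0 := by
      intro c hc d hd
      have hO := osep_setC hp hq hpq (x := x) (A := A) hc hd
      by_cases hcM : c ∈ M
      · by_cases hdM : d ∈ M
        · rw [if_pos hcM, if_pos hdM, avO_eq hp hq hpq f x hcM hdM]
          unfold Johnson.sep
          by_cases h : (c ∈ A ↔ d ∈ A)
          · rw [if_neg, if_pos h, zero_mul]
            rw [hO]; tauto
          · rw [if_pos, if_neg h, one_mul]
            rw [hO]; exact ⟨hcM, hdM, h⟩
        · rw [if_pos hcM, if_neg hdM, if_neg]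
          rw [hO]; tauto
      · rw [if_neg hcM, if_neg]
        rw [hO]; tauto
    rw [sum_congr rfl fun c hc => sum_congr rfl fun d hd => h3 c hc d hd]
    have h4 : ∀ c ∈ U, (∑ d ∈ U, if c ∈ M then
        (if d ∈ M then Johnson.sep c d A *
        (Johnson.Ssum M k F c d / Johnson.wsum M k c d - cE (rel p q U) f x) ^ 2
          else 0) else 0) =
        if c ∈ M then ∑ d ∈ M, Johnson.sep c d A *
        (Johnson.Ssum M k F c d / Johnson.wsum M k c d - cE (rel p q U) f x) ^ 2 else 0 := by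
      intro c _
      by_cases hcM : c ∈ M
      · simp only [if_pos hcM]
        rw [sum_ite_mem, inter_eq_right.mpr (freeC_subset x)]
      · simp only [if_neg hcM, sum_const_zero]
    rw [sum_congr rfl h4, sum_ite_mem, inter_eq_right.mpr (freeC_subset x)]
  rw [sum_congr rfl h2]
  have hμ : ∑ A ∈ M.powersetCard k, F A =
      ((M.powersetCard k).card : ℝ) * cE (rel p q U) f x := by
    have := card_mul_cE (rel p q U) f x
    rw [sum_cls_rel hp hq hpq, card_cls_rel hp hq hpq] at this
    rw [card_powersetCard]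
    exact this.symm
  have hkM : k ≤ M.card := card_le_card (posC_subset_freeC x)
  have hJ := Johnson.johnson_J' (M := M) (x := k) (f := F) hμ hkM
  calc _ = ∑ c ∈ M, ∑ d ∈ M, ∑ A ∈ M.powersetCard k, Johnson.sep c d A *
        (Johnson.Ssum M k F c d / Johnson.wsum M k c d - cE (rel p q U) f x) ^ 2 := by
        rw [sum_comm]
        exact sum_congr rfl fun c _ => sum_comm
    _ ≤ _ := hJ
    _ = _ := by ring

end TJ

variable {κ S : Type*} [DecidableEq κ] [DecidableEq S]

theorem twoRow_J [Fintype S] (p q : κ → S) (U : Finset κ) (hp : Set.InjOn p U)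
    (hq : Set.InjOn q U) (hpq : ∀ z ∈ U, ∀ w ∈ U, p z ≠ q w) (f : (S → Bool) → ℝ) :
    ∑ c ∈ U, ∑ d ∈ U, ∑ x, (if Osep p q c d x then
        (avO (rel p q U) p q c d f x - cE (rel p q U) f x) ^ 2 else 0)
      ≤ (1 / 4) * ∑ c ∈ U, ∑ d ∈ U, en p q c d f := by
  have e1 : ∑ c ∈ U, ∑ d ∈ U, ∑ x, (if Osep p q c d x then
        (avO (rel p q U) p q c d f x - cE (rel p q U) f x) ^ 2 else 0) =
      ∑ x, ∑ c ∈ U, ∑ d ∈ U, (if Osep p q c d x then
        (avO (rel p q U) p q c d f x - cE (rel p q U) f x) ^ 2 else 0) := by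
    rw [sum_comm (s := univ)]
    exact sum_congr rfl fun c _ => sum_comm
  have e2 : ∑ c ∈ U, ∑ d ∈ U, en p q c d f =
      ∑ x, ∑ c ∈ U, ∑ d ∈ U, (f x - f (sw p q c d x)) ^ 2 := by
    rw [sum_comm (s := univ)]
    exact sum_congr rfl fun c _ => sum_comm
  rw [e1, e2, ← sum_cE (rel p q U) (fun x => ∑ c ∈ U, ∑ d ∈ U, (if Osep p q c d x then
        (avO (rel p q U) p q c d f x - cE (rel p q U) f x) ^ 2 else 0)),
    ← sum_cE (rel p q U) (fun x => ∑ c ∈ U, ∑ d ∈ U, (f x - f (sw p q c d x)) ^ 2), mul_sum]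
  refine sum_le_sum fun x _ => ?_
  have hJ := TJ.class_J hp hq hpq f x
  unfold cE at hJ ⊢
  have hpos : (0 : ℝ) < (cls (rel p q U) x).card := by
    exact_mod_cast card_cls_pos (rel p q U) x
  rw [div_le_iff₀ hpos]
  calc _ ≤ _ := hJ
    _ = _ := by
      field_simp

end Crest.Agent.R299
end

-- ▼ part R299/Poincare
section

/-!
Row 299, task T9: Poincaré inequality on a closed connected set of states from the main inequality.
-/

set_option autoImplicit false
open Finset

namespace Crest.Agent.R299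

open scoped RealInnerProductSpace

/-- Gap of a symmetric positive operator on functions from `2⟨f,Kf⟩ ≤ ‖Kf‖²`. -/
theorem gap_fun {α : Type*} [Fintype α] (K : (α → ℝ) →ₗ[ℝ] (α → ℝ))
    (hsymm : ∀ f g : α → ℝ, ∑ x, g x * K f x = ∑ x, K g x * f x)
    (hpos : ∀ f : α → ℝ, 0 ≤ ∑ x, f x * K f x) (c : ℝ)
    (hev : ∀ f : α → ℝ, c * ∑ x, f x * K f x ≤ ∑ x, (K f x) ^ 2)
    (v : α → ℝ) (hv : ∀ u : α → ℝ, K u = 0 → ∑ x, u x * v x = 0) :
    c * ∑ x, v x ^ 2 ≤ ∑ x, v x * K v x := by
  classical
  let e : EuclideanSpace ℝ α ≃ₗ[ℝ] (α → ℝ) := WithLp.linearEquiv 2 ℝ (α → ℝ)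
  let T : EuclideanSpace ℝ α →ₗ[ℝ] EuclideanSpace ℝ α :=
    e.symm.toLinearMap ∘ₗ K ∘ₗ e.toLinearMap
  have hinner : ∀ u w : EuclideanSpace ℝ α, ⟪u, w⟫ = ∑ x, e u x * e w x := by
    intro u w
    rw [PiLp.inner_apply]
    refine sum_congr rfl fun x _ => ?_
    simp [e, mul_comm]
  have hTe : ∀ u, e (T u) = K (e u) := by
    intro u; simp [T]
  have hnorm : ∀ u : EuclideanSpace ℝ α, ‖u‖ ^ 2 = ∑ x, e u x ^ 2 := by
    intro u
    rw [← real_inner_self_eq_norm_sq, hinner]
    exact sum_congr rfl fun x _ => (sq _).symm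
  have hT : T.IsSymmetric := by
    intro u w
    rw [hinner, hinner]
    simp only [hTe]
    have := hsymm (e w) (e u)
    exact this.symm
  have hTpos : ∀ u, 0 ≤ ⟪T u, u⟫ := by
    intro u
    rw [hinner, hTe]
    have := hpos (e u)
    refine this.trans (le_of_eq ?_)
    exact sum_congr rfl fun x _ => mul_comm _ _
  have hTev : ∀ (l : ℝ) (u : EuclideanSpace ℝ α), u ≠ 0 → T u = l • u → l ≤ 0 ∨ c ≤ l := by
    intro l u hu hl
    by_contra hcon
    push Not at hcon
    obtain ⟨h0, h1⟩ := hcon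
    have hKe : K (e u) = l • e u := by
      rw [← hTe, hl, map_smul]
    have h2 := hev (e u)
    rw [hKe] at h2
    have hS : 0 < ∑ x, e u x ^ 2 := by
      rw [← hnorm]
      have : 0 < ‖u‖ := norm_pos_iff.2 hu
      positivity
    have e1 : ∑ x, e u x * (l • e u) x = l * ∑ x, e u x ^ 2 := by
      rw [mul_sum]; refine sum_congr rfl fun x _ => ?_
      simp only [Pi.smul_apply, smul_eq_mul]; ring
    have e2 : ∑ x, ((l • e u) x) ^ 2 = l ^ 2 * ∑ x, e u x ^ 2 := by
      rw [mul_sum]; refine sum_congr rfl fun x _ => ?_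
      simp only [Pi.smul_apply, smul_eq_mul]; ring
    rw [e1, e2] at h2
    have h3 : c * l ≤ l ^ 2 := by
      by_contra h4
      push Not at h4
      nlinarith
    nlinarith
  have hmain := spec_gap hT (g := c) hTev hTpos (e.symm v) (by
    intro u hu
    rw [hinner]
    have hKu : K (e u) = 0 := by rw [← hTe, hu, map_zero]
    have := hv (e u) hKu
    simpa using this)
  rw [hnorm, hinner, hTe] at hmain
  simp only [LinearEquiv.apply_symm_apply] at hmain
  refine hmain.trans (le_of_eq ?_)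
  exact sum_congr rfl fun x _ => mul_comm _ _

section graph

variable {V : Type*} [Fintype V] [DecidableEq V]

/-- the sum of all fluctuation operators -/
noncomputable def KK : ((Sym2 V → Bool) → ℝ) →ₗ[ℝ] ((Sym2 V → Bool) → ℝ) where
  toFun f := fun x => ∑ a, ∑ b ∈ univ.erase a, hh a b f x
  map_add' f g := by
    funext x
    simp only [Pi.add_apply]
    rw [← sum_add_distrib]
    refine sum_congr rfl fun a _ => ?_
    rw [← sum_add_distrib]
    refine sum_congr rfl fun b _ => ?_
    unfold hh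
    have : cE (grel a b) (f + g) x = cE (grel a b) f x + cE (grel a b) g x :=
      cE_add _ f g x
    rw [this, Pi.add_apply]; ring
  map_smul' c f := by
    funext x
    simp only [Pi.smul_apply, smul_eq_mul, RingHom.id_apply]
    rw [mul_sum]
    refine sum_congr rfl fun a _ => ?_
    rw [mul_sum]
    refine sum_congr rfl fun b _ => ?_
    unfold hh
    have : cE (grel a b) (c • f) x = c * cE (grel a b) f x :=
      cE_mul_const _ c f x
    rw [this, Pi.smul_apply, smul_eq_mul]; ring

theorem KK_apply (f : (Sym2 V → Bool) → ℝ) (x : Sym2 V → Bool) :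
    KK f x = ∑ a, ∑ b ∈ univ.erase a, hh a b f x := rfl

theorem sum_mul_KK (f g : (Sym2 V → Bool) → ℝ) :
    ∑ x, g x * KK f x = ∑ a, ∑ b ∈ univ.erase a, ∑ x, g x * hh a b f x := by
  simp only [KK_apply, mul_sum]
  rw [sum_comm]
  refine sum_congr rfl fun a _ => ?_
  rw [sum_comm]

theorem sum_mul_KK_self (f : (Sym2 V → Bool) → ℝ) :
    ∑ x, f x * KK f x = ∑ a, ∑ b ∈ univ.erase a, ∑ x, hh a b f x ^ 2 := by
  rw [sum_mul_KK]
  refine sum_congr rfl fun a _ => sum_congr rfl fun b _ => ?_
  exact sum_mul_sub_cE (grel a b) f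

theorem poincare_of_main
    (hmain : ∀ f : (Sym2 V → Bool) → ℝ, 2 * ∑ a, ∑ b ∈ univ.erase a, ∑ x, hh a b f x ^ 2
      ≤ ∑ x, (∑ a, ∑ b ∈ univ.erase a, hh a b f x) ^ 2)
    (C : Finset (Sym2 V → Bool))
    (hC : ∀ a b, a ≠ b → ∀ x y, x ∈ C → grel a b x y → y ∈ C)
    (hconn : ∀ g : (Sym2 V → Bool) → ℝ, (∀ a b, a ≠ b → ∀ x y, grel a b x y → g x = g y) →
      ∀ x ∈ C, ∀ y ∈ C, g x = g y)
    (f : (Sym2 V → Bool) → ℝ) :
    (C.card : ℝ) * (∑ x ∈ C, f x ^ 2) - (∑ x ∈ C, f x) ^ 2
      ≤ (C.card : ℝ) * ((1 / 2) * ∑ a, ∑ b ∈ univ.erase a, ∑ x ∈ C, hh a b f x ^ 2) := by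
  classical
  rcases C.eq_empty_or_nonempty with hCe | hCne
  · subst hCe; simp
  have hcard : (0 : ℝ) < C.card := by exact_mod_cast hCne.card_pos
  set m : ℝ := (∑ x ∈ C, f x) / C.card with hm
  set v : (Sym2 V → Bool) → ℝ := fun x => if x ∈ C then f x - m else 0 with hvdef
  have hmC : (C.card : ℝ) * m = ∑ x ∈ C, f x := by
    rw [hm, mul_div_cancel₀ _ hcard.ne']
  -- sums against `v`
  have hsumv : ∀ g : (Sym2 V → Bool) → ℝ, ∑ x, g x * v x = ∑ x ∈ C, g x * (f x - m) := by
    intro g
    simp only [hvdef, mul_ite, mul_zero]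
    rw [← sum_filter]
    refine sum_congr (by ext x; simp) fun _ _ => rfl
  have hsum0 : ∑ x ∈ C, (f x - m) = 0 := by
    rw [sum_sub_distrib, sum_const, nsmul_eq_mul, hmC, sub_self]
  have hsymm : ∀ f g : (Sym2 V → Bool) → ℝ, ∑ x, g x * KK f x = ∑ x, KK g x * f x := by
    intro f g
    have h1 : ∑ x, KK g x * f x = ∑ x, f x * KK g x := sum_congr rfl fun x _ => mul_comm _ _
    rw [h1, sum_mul_KK, sum_mul_KK]
    refine sum_congr rfl fun a _ => sum_congr rfl fun b _ => ?_
    unfold hh
    simp only [mul_sub, sum_sub_distrib]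
    rw [cE_symm (grel a b) f g]
    congr 1
    · exact sum_congr rfl fun x _ => mul_comm _ _
    · exact sum_congr rfl fun x _ => mul_comm _ _
  have hpos : ∀ f : (Sym2 V → Bool) → ℝ, 0 ≤ ∑ x, f x * KK f x := by
    intro f
    rw [sum_mul_KK_self]
    exact sum_nonneg fun a _ => sum_nonneg fun b _ => sum_nonneg fun x _ => sq_nonneg _
  have hev : ∀ f : (Sym2 V → Bool) → ℝ, 2 * ∑ x, f x * KK f x ≤ ∑ x, (KK f x) ^ 2 := by
    intro f
    rw [sum_mul_KK_self]
    exact hmain f
  have hker : ∀ u : (Sym2 V → Bool) → ℝ, KK u = 0 → ∑ x, u x * v x = 0 := by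
    intro u hu
    have h0 : ∑ a, ∑ b ∈ univ.erase a, ∑ x, hh a b u x ^ 2 = 0 := by
      rw [← sum_mul_KK_self, hu]; simp
    have h1 : ∀ a b, a ≠ b → ∀ x, hh a b u x = 0 := by
      intro a b hab x
      have e1 := (sum_eq_zero_iff_of_nonneg (fun a _ => sum_nonneg fun b _ =>
        sum_nonneg fun x _ => sq_nonneg (hh a b u x))).1 h0 a (mem_univ a)
      have e2 := (sum_eq_zero_iff_of_nonneg (fun b _ =>
        sum_nonneg fun x _ => sq_nonneg (hh a b u x))).1 e1 b (mem_erase.2 ⟨hab.symm, mem_univ b⟩)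
      have e3 := (sum_eq_zero_iff_of_nonneg (fun x _ => sq_nonneg (hh a b u x))).1 e2 x (mem_univ x)
      exact pow_eq_zero_iff (two_ne_zero) |>.1 e3
    have h2 : ∀ a b, a ≠ b → ∀ x y, grel a b x y → u x = u y := by
      intro a b hab x y hxy
      have e1 := h1 a b hab x
      have e2 := h1 a b hab y
      unfold hh at e1 e2
      have e3 := cE_congr (f := u) hxy
      linarith
    obtain ⟨x0, hx0⟩ := hCne
    rw [hsumv]
    have : ∀ x ∈ C, u x * (f x - m) = u x0 * (f x - m) := by
      intro x hx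
      rw [hconn u h2 x hx x0 hx0]
    rw [sum_congr rfl this, ← mul_sum, hsum0, mul_zero]
  have hgap := gap_fun KK hsymm hpos 2 hev v hker
  rw [sum_mul_KK_self] at hgap
  -- fluctuations of `v`
  have hhv : ∀ a b, a ≠ b → ∑ x, hh a b v x ^ 2 = ∑ x ∈ C, hh a b f x ^ 2 := by
    intro a b hab
    have h1 : ∀ x, hh a b v x ^ 2 = if x ∈ C then hh a b f x ^ 2 else 0 := by
      intro x
      split_ifs with hx
      · have e1 : cE (grel a b) v x = cE (grel a b) f x - m := by
          have : cE (grel a b) v x = cE (grel a b) (fun y => f y - m) x := by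
            refine cE_eq_of_eqOn fun y hy => ?_
            have : y ∈ C := hC a b hab x y hx hy
            simp [hvdef, this]
          rw [this, cE_sub (grel a b) f (fun _ => m) x, cE_const]
        unfold hh
        rw [e1]
        simp only [hvdef, hx, if_true]
        ring
      · have e1 : cE (grel a b) v x = 0 := by
          have : cE (grel a b) v x = cE (grel a b) (fun _ => 0) x := by
            refine cE_eq_of_eqOn fun y hy => ?_
            have : y ∉ C := fun hy' => hx (hC a b hab y x hy' ((grel a b).symm' hy))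
            simp [hvdef, this]
          rw [this, cE_const]
        unfold hh
        rw [e1]
        simp [hvdef, hx]
    rw [sum_congr rfl fun x _ => h1 x, ← sum_filter]
    refine sum_congr (by ext x; simp) fun _ _ => rfl
  have hgap2 : ∑ a, ∑ b ∈ univ.erase a, ∑ x, hh a b v x ^ 2
      = ∑ a, ∑ b ∈ univ.erase a, ∑ x ∈ C, hh a b f x ^ 2 := by
    refine sum_congr rfl fun a _ => sum_congr rfl fun b hb => ?_
    exact hhv a b (mem_erase.1 hb).1.symm
  rw [hgap2] at hgap
  have hvv : ∑ x, v x ^ 2 = ∑ x ∈ C, (f x - m) ^ 2 := by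
    have := hsumv v
    have h1 : ∑ x, v x ^ 2 = ∑ x, v x * v x := sum_congr rfl fun x _ => sq _
    rw [h1, this]
    refine sum_congr rfl fun x hx => ?_
    simp only [hvdef, hx, if_true]; ring
  have hvar : (C.card : ℝ) * ∑ x ∈ C, (f x - m) ^ 2
      = (C.card : ℝ) * (∑ x ∈ C, f x ^ 2) - (∑ x ∈ C, f x) ^ 2 := by
    have h1 : ∑ x ∈ C, (f x - m) ^ 2
        = ∑ x ∈ C, f x ^ 2 - 2 * m * ∑ x ∈ C, f x + C.card * m ^ 2 := by
      have : ∀ x ∈ C, (f x - m) ^ 2 = f x ^ 2 - 2 * m * f x + m ^ 2 := by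
        intro x _; ring
      rw [sum_congr rfl this, sum_add_distrib, sum_sub_distrib, ← mul_sum, sum_const,
        nsmul_eq_mul]
    rw [h1, ← hmC]; ring
  rw [← hvar, ← hvv]
  have : ∑ x, v x ^ 2 ≤ (1 / 2) * ∑ a, ∑ b ∈ univ.erase a, ∑ x ∈ C, hh a b f x ^ 2 := by
    linarith
  exact mul_le_mul_of_nonneg_left this hcard.le

end graph

end Crest.Agent.R299
end

-- ▼ part R299/Conn

/-!
Row 299, T10: connectivity of the set of graphs with given degrees under pair trades.
-/

set_option autoImplicit false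
set_option linter.unusedSectionVars false
set_option linter.unusedVariables false
open Finset

namespace Crest.Agent.R299

namespace Conn

section

variable {V : Type*} [DecidableEq V]

/-- degree inside `U` -/
def dg (U : Finset V) (x : Sym2 V → Bool) (v : V) : ℕ := ∑ w ∈ U.erase v, (x s(v, w)).toNat

theorem sum_ind (U : Finset V) {p q : V} (hpq : p ≠ q) (hp : p ∈ U) (hq : q ∈ U) (a : V) :
    ∑ t ∈ U.erase a, (if s(a, t) = s(p, q) then (1 : ℤ) else 0)
      = (if a = p then 1 else 0) + (if a = q then 1 else 0) := by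
  by_cases hap : a = p
  · subst hap
    rw [if_pos rfl, if_neg hpq]
    have : ∀ t ∈ U.erase a, (if s(a, t) = s(a, q) then (1 : ℤ) else 0) = if t = q then 1 else 0 := by
      intro t ht
      have : s(a, t) = s(a, q) ↔ t = q := by
        rw [Sym2.eq_iff]
        constructor
        · rintro (h | h)
          · exact h.2
          · exact absurd h.1 hpq
        · intro h; exact Or.inl ⟨rfl, h⟩
      simp only [this]
    rw [sum_congr rfl this, sum_ite_eq' , if_pos (mem_erase.mpr ⟨hpq.symm, hq⟩)]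
    simp
  · rw [if_neg hap, zero_add]
    by_cases haq : a = q
    · subst haq
      rw [if_pos rfl]
      have : ∀ t ∈ U.erase a, (if s(a, t) = s(p, a) then (1 : ℤ) else 0) = if t = p then 1 else 0 := by
        intro t ht
        have : s(a, t) = s(p, a) ↔ t = p := by
          rw [Sym2.eq_iff]
          constructor
          · rintro (h | h)
            · exact absurd h.1 hap
            · exact h.2
          · intro h; exact Or.inr ⟨rfl, h⟩
        simp only [this]
      rw [sum_congr rfl this, sum_ite_eq' , if_pos (mem_erase.mpr ⟨hpq, hp⟩)]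
    · rw [if_neg haq]
      apply sum_eq_zero
      intro t ht
      rw [if_neg]
      intro h
      rw [Sym2.eq_iff] at h
      rcases h with h | h
      · exact hap h.1
      · exact haq h.1

/-- existence of the fourth vertex -/
theorem exists_fourth {U : Finset V} {x : Sym2 V → Bool} {v u w : V} (hv : v ∈ U) (hu : u ∈ U)
    (hw : w ∈ U) (hvu : v ≠ u) (hvw : v ≠ w) (huw : u ≠ w) (h1 : x s(v, u) = true)
    (h2 : x s(v, w) = false) (hd : dg U x u ≤ dg U x w) :
    ∃ z ∈ U, z ≠ v ∧ z ≠ u ∧ z ≠ w ∧ x s(w, z) = true ∧ x s(u, z) = false := by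
  by_contra hcon
  push Not at hcon
  have e1 : dg U x u = (x s(u, w)).toNat + ∑ t ∈ (U.erase u).erase w, (x s(u, t)).toNat := by
    unfold dg
    rw [add_sum_erase _ (fun t => (x s(u, t)).toNat) (mem_erase.mpr ⟨huw.symm, hw⟩)]
  have e2 : dg U x w = (x s(w, u)).toNat + ∑ t ∈ (U.erase u).erase w, (x s(w, t)).toNat := by
    unfold dg
    rw [erase_right_comm, add_sum_erase _ (fun t => (x s(w, t)).toNat) (mem_erase.mpr ⟨huw, hu⟩)]
  have e3 : ∑ t ∈ (U.erase u).erase w, (x s(w, t)).toNat
      < ∑ t ∈ (U.erase u).erase w, (x s(u, t)).toNat := by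
    apply sum_lt_sum
    · intro t ht
      simp only [mem_erase] at ht
      by_cases htv : t = v
      · subst htv
        rw [Sym2.eq_swap (a := w), h2, Sym2.eq_swap (a := u), h1]; simp
      · have := hcon t ht.2.2 htv ht.2.1 ht.1
        cases hx : x s(w, t)
        · simp
        · have h3 := this hx
          have h4 : x s(u, t) = true := by simpa using h3
          rw [h4]
    · refine ⟨v, ?_, ?_⟩
      · simp only [mem_erase]; exact ⟨hvw, hvu, hv⟩
      · rw [Sym2.eq_swap (a := w), h2, Sym2.eq_swap (a := u), h1]; simp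
  rw [Sym2.eq_swap (a := w) (b := u)] at e2
  omega

/-- the switched state -/
def swt (v u w z : V) (x : Sym2 V → Bool) : Sym2 V → Bool := fun e =>
  if e = s(v, u) ∨ e = s(w, z) then false else if e = s(v, w) ∨ e = s(u, z) then true else x e

theorem swt_toNat {x : Sym2 V → Bool} {v u w z : V} (hvu : v ≠ u) (hvw : v ≠ w) (huw : u ≠ w)
    (hzv : z ≠ v) (hzu : z ≠ u) (hzw : z ≠ w) (h1 : x s(v, u) = true) (h2 : x s(v, w) = false)
    (h3 : x s(w, z) = true) (h4 : x s(u, z) = false) (e : Sym2 V) :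
    (((swt v u w z x) e).toNat : ℤ) = (x e).toNat + (if e = s(v, w) then 1 else 0)
      + (if e = s(u, z) then 1 else 0) - (if e = s(v, u) then 1 else 0)
      - (if e = s(w, z) then 1 else 0) := by
  have n1 : s(v, u) ≠ s(v, w) := by rw [Ne, Sym2.eq_iff]; rintro (h | h) <;> simp_all
  have n2 : s(v, u) ≠ s(u, z) := by rw [Ne, Sym2.eq_iff]; rintro (h | h) <;> simp_all
  have n3 : s(v, u) ≠ s(w, z) := by rw [Ne, Sym2.eq_iff]; rintro (h | h) <;> simp_all
  have n4 : s(w, z) ≠ s(v, w) := by rw [Ne, Sym2.eq_iff]; rintro (h | h) <;> simp_all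
  have n5 : s(w, z) ≠ s(u, z) := by rw [Ne, Sym2.eq_iff]; rintro (h | h) <;> simp_all
  have n6 : s(v, w) ≠ s(u, z) := by rw [Ne, Sym2.eq_iff]; rintro (h | h) <;> simp_all
  unfold swt
  by_cases e1 : e = s(v, u)
  · subst e1
    simp [n1, n2, n3, h1]
  · by_cases e2 : e = s(w, z)
    · subst e2
      simp [n3.symm, n4, n5, h3]
    · by_cases e3 : e = s(v, w)
      · subst e3
        simp [n1.symm, n4.symm, n6, h2]
      · by_cases e4 : e = s(u, z)
        · subst e4
          simp [n2.symm, n5.symm, n6.symm, h4]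
        · simp [e1, e2, e3, e4]

theorem dg_swt {U : Finset V} {x : Sym2 V → Bool} {v u w z : V} (hv : v ∈ U) (hu : u ∈ U)
    (hw : w ∈ U) (hz : z ∈ U) (hvu : v ≠ u) (hvw : v ≠ w) (huw : u ≠ w)
    (hzv : z ≠ v) (hzu : z ≠ u) (hzw : z ≠ w) (h1 : x s(v, u) = true) (h2 : x s(v, w) = false)
    (h3 : x s(w, z) = true) (h4 : x s(u, z) = false) (a : V) :
    dg U (swt v u w z x) a = dg U x a := by
  have : (dg U (swt v u w z x) a : ℤ) = dg U x a := by
    unfold dg
    push_cast
    rw [sum_congr rfl fun t _ => swt_toNat hvu hvw huw hzv hzu hzw h1 h2 h3 h4 s(a, t)]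
    rw [sum_sub_distrib, sum_sub_distrib, sum_add_distrib, sum_add_distrib,
      sum_ind U hvw hv hw, sum_ind U hzu.symm hu hz, sum_ind U hvu hv hu, sum_ind U hzw.symm hw hz]
    ring
  exact_mod_cast this

end

section

variable {V : Type*} [Fintype V] [DecidableEq V]

theorem grel_swt {x : Sym2 V → Bool} {v u w z : V} (hvu : v ≠ u) (hvw : v ≠ w) (huw : u ≠ w)
    (hzv : z ≠ v) (hzu : z ≠ u) (hzw : z ≠ w) (h1 : x s(v, u) = true) (h2 : x s(v, w) = false)
    (h3 : x s(w, z) = true) (h4 : x s(u, z) = false) :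
    grel u w x (swt v u w z x) := by
  have key := swt_toNat hvu hvw huw hzv hzu hzw h1 h2 h3 h4
  have hcols : ∀ t, t ∈ cols u w ↔ t ≠ w ∧ t ≠ u := by
    intro t; simp [cols]
  refine ⟨?_, ?_, ?_⟩
  · intro e he
    have e1 : e ≠ s(v, u) := by
      rw [Sym2.eq_swap]; exact (he v ((hcols v).mpr ⟨hvw, hvu⟩)).1
    have e2 : e ≠ s(v, w) := by
      rw [Sym2.eq_swap]; exact (he v ((hcols v).mpr ⟨hvw, hvu⟩)).2
    have e3 : e ≠ s(u, z) := (he z ((hcols z).mpr ⟨hzw, hzu⟩)).1
    have e4 : e ≠ s(w, z) := (he z ((hcols z).mpr ⟨hzw, hzu⟩)).2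
    simp [swt, e1, e2, e3, e4]
  · intro t ht
    rw [hcols] at ht
    have : ((x s(u, t)).toNat : ℤ) + (x s(w, t)).toNat
        = ((swt v u w z x) s(u, t)).toNat + ((swt v u w z x) s(w, t)).toNat := by
      rw [key, key]
      have a1 : s(u, t) = s(v, w) ↔ False := by
        rw [Sym2.eq_iff]; constructor
        · rintro (h | h)
          · exact hvu h.1.symm
          · exact huw h.1
        · exact False.elim
      have a2 : s(u, t) = s(u, z) ↔ t = z := by
        rw [Sym2.eq_iff]; constructor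
        · rintro (h | h)
          · exact h.2
          · exact absurd h.1.symm hzu
        · intro h; exact Or.inl ⟨rfl, h⟩
      have a3 : s(u, t) = s(v, u) ↔ t = v := by
        rw [Sym2.eq_iff]; constructor
        · rintro (h | h)
          · exact absurd h.1.symm hvu
          · exact h.2
        · intro h; exact Or.inr ⟨rfl, h⟩
      have a4 : s(u, t) = s(w, z) ↔ False := by
        rw [Sym2.eq_iff]; constructor
        · rintro (h | h)
          · exact huw h.1
          · exact hzu h.1.symm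
        · exact False.elim
      have b1 : s(w, t) = s(v, w) ↔ t = v := by
        rw [Sym2.eq_iff]; constructor
        · rintro (h | h)
          · exact absurd h.1.symm hvw
          · exact h.2
        · intro h; exact Or.inr ⟨rfl, h⟩
      have b2 : s(w, t) = s(u, z) ↔ False := by
        rw [Sym2.eq_iff]; constructor
        · rintro (h | h)
          · exact huw h.1.symm
          · exact hzw h.1.symm
        · exact False.elim
      have b3 : s(w, t) = s(v, u) ↔ False := by
        rw [Sym2.eq_iff]; constructor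
        · rintro (h | h)
          · exact hvw h.1.symm
          · exact huw h.1.symm
        · exact False.elim
      have b4 : s(w, t) = s(w, z) ↔ t = z := by
        rw [Sym2.eq_iff]; constructor
        · rintro (h | h)
          · exact h.2
          · exact absurd h.1.symm hzw
        · intro h; exact Or.inl ⟨rfl, h⟩
      simp only [a1, a2, a3, a4, b1, b2, b3, b4, if_false]
      ring
    exact_mod_cast this
  · have : (∑ t ∈ cols u w, ((x s(u, t)).toNat : ℤ))
        = ∑ t ∈ cols u w, (((swt v u w z x) s(u, t)).toNat : ℤ) := by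
      have e : ∀ t ∈ cols u w, (((swt v u w z x) s(u, t)).toNat : ℤ)
          = (x s(u, t)).toNat + ((if t = z then 1 else 0) - (if t = v then 1 else 0)) := by
        intro t ht
        rw [hcols] at ht
        rw [key]
        have a1 : s(u, t) = s(v, w) ↔ False := by
          rw [Sym2.eq_iff]; constructor
          · rintro (h | h)
            · exact hvu h.1.symm
            · exact huw h.1
          · exact False.elim
        have a2 : s(u, t) = s(u, z) ↔ t = z := by
          rw [Sym2.eq_iff]; constructor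
          · rintro (h | h)
            · exact h.2
            · exact absurd h.1.symm hzu
          · intro h; exact Or.inl ⟨rfl, h⟩
        have a3 : s(u, t) = s(v, u) ↔ t = v := by
          rw [Sym2.eq_iff]; constructor
          · rintro (h | h)
            · exact absurd h.1.symm hvu
            · exact h.2
          · intro h; exact Or.inr ⟨rfl, h⟩
        have a4 : s(u, t) = s(w, z) ↔ False := by
          rw [Sym2.eq_iff]; constructor
          · rintro (h | h)
            · exact huw h.1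
            · exact hzu h.1.symm
          · exact False.elim
        simp only [a1, a2, a3, a4, if_false]
        ring
      rw [sum_congr rfl e, sum_add_distrib, sum_sub_distrib, sum_ite_eq', sum_ite_eq',
        if_pos ((hcols z).mpr ⟨hzw, hzu⟩), if_pos ((hcols v).mpr ⟨hvw, hvu⟩)]
      ring
    exact_mod_cast this

/-- states agree outside `U` and on the diagonal -/
def Agr (U : Finset V) (x y : Sym2 V → Bool) : Prop :=
  (∀ a b, (a ∉ U ∨ b ∉ U) → x s(a, b) = y s(a, b)) ∧ ∀ a, x s(a, a) = y s(a, a)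

theorem Agr.symm {U : Finset V} {x y : Sym2 V → Bool} (h : Agr U x y) : Agr U y x :=
  ⟨fun a b hab => (h.1 a b hab).symm, fun a => (h.2 a).symm⟩

theorem Agr.trans {U : Finset V} {x y z : Sym2 V → Bool} (h : Agr U x y) (h' : Agr U y z) :
    Agr U x z :=
  ⟨fun a b hab => (h.1 a b hab).trans (h'.1 a b hab), fun a => (h.2 a).trans (h'.2 a)⟩

theorem agr_swt {U : Finset V} {x : Sym2 V → Bool} {v u w z : V} (hv : v ∈ U) (hu : u ∈ U)
    (hw : w ∈ U) (hz : z ∈ U) (hvu : v ≠ u) (hvw : v ≠ w)
    (hzu : z ≠ u) (hzw : z ≠ w) : Agr U (swt v u w z x) x := by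
  constructor
  · intro a b hab
    unfold swt
    have hne : ∀ p q : V, p ∈ U → q ∈ U → s(a, b) ≠ s(p, q) := by
      intro p q hp hq h
      rw [Sym2.eq_iff] at h
      rcases h with ⟨rfl, rfl⟩ | ⟨rfl, rfl⟩
      · rcases hab with h | h
        · exact h hp
        · exact h hq
      · rcases hab with h | h
        · exact h hq
        · exact h hp
    simp [-Sym2.eq, hne v u hv hu, hne w z hw hz, hne v w hv hw, hne u z hu hz]
  · intro a
    unfold swt
    have hne : ∀ p q : V, p ≠ q → s(a, a) ≠ s(p, q) := by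
      intro p q hpq h
      rw [Sym2.eq_iff] at h
      rcases h with ⟨rfl, rfl⟩ | ⟨rfl, rfl⟩ <;> exact hpq rfl
    simp [-Sym2.eq, hne v u hvu, hne w z hzw.symm, hne v w hvw, hne u z hzu.symm]

/-- One step. -/
theorem step {U : Finset V} {x : Sym2 V → Bool} {v u w : V} (hv : v ∈ U) (hu : u ∈ U)
    (hw : w ∈ U) (hvu : v ≠ u) (hvw : v ≠ w) (huw : u ≠ w) (h1 : x s(v, u) = true)
    (h2 : x s(v, w) = false) (hd : dg U x u ≤ dg U x w) :
    ∃ x', grel u w x x' ∧ Agr U x' x ∧ (∀ a, dg U x' a = dg U x a) ∧ x' s(v, u) = false ∧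
      x' s(v, w) = true ∧ ∀ t, t ≠ u → t ≠ w → x' s(v, t) = x s(v, t) := by
  obtain ⟨z, hz, hzv, hzu, hzw, h3, h4⟩ := exists_fourth hv hu hw hvu hvw huw h1 h2 hd
  refine ⟨swt v u w z x, grel_swt hvu hvw huw hzv hzu hzw h1 h2 h3 h4,
    agr_swt hv hu hw hz hvu hvw hzu hzw,
    dg_swt hv hu hw hz hvu hvw huw hzv hzu hzw h1 h2 h3 h4, ?_, ?_, ?_⟩
  · simp [swt]
  · have n1 : s(v, w) ≠ s(v, u) := by rw [Ne, Sym2.eq_iff]; rintro (h | h) <;> simp_all
    have n2 : s(v, w) ≠ s(w, z) := by rw [Ne, Sym2.eq_iff]; rintro (h | h) <;> simp_all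
    simp [-Sym2.eq, swt, n1, n2]
  · intro t htu htw
    have n1 : s(v, t) ≠ s(v, u) := by rw [Ne, Sym2.eq_iff]; rintro (h | h) <;> simp_all
    have n2 : s(v, t) ≠ s(w, z) := by rw [Ne, Sym2.eq_iff]; rintro (h | h) <;> simp_all
    have n3 : s(v, t) ≠ s(v, w) := by rw [Ne, Sym2.eq_iff]; rintro (h | h) <;> simp_all
    have n4 : s(v, t) ≠ s(u, z) := by rw [Ne, Sym2.eq_iff]; rintro (h | h) <;> simp_all
    simp [-Sym2.eq, swt, n1, n2, n3, n4]

theorem exists_true_false (S : Finset V) (p q : V → Bool)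
    (h : ∑ t ∈ S, (p t).toNat = ∑ t ∈ S, (q t).toNat) (hne : ∃ t ∈ S, p t ≠ q t) :
    ∃ u ∈ S, p u = true ∧ q u = false := by
  by_contra hcon
  push Not at hcon
  have hle : ∀ t ∈ S, (p t).toNat ≤ (q t).toNat := by
    intro t ht
    cases hp : p t
    · simp
    · have h1 := hcon t ht hp
      have h2 : q t = true := by simpa using h1
      rw [h2]
  obtain ⟨t, ht, htn⟩ := hne
  have hlt : (p t).toNat < (q t).toNat := by
    have h1 := hle t ht
    cases hp : p t <;> cases hq : q t <;> simp_all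
  have := sum_lt_sum hle ⟨t, ht, hlt⟩
  omega

theorem inner (g : (Sym2 V → Bool) → ℝ)
    (hg : ∀ a b, a ≠ b → ∀ x y, grel a b x y → g x = g y) (U' : Finset V) (v : V) (hv : v ∉ U')
    (ih : ∀ x y, Agr U' x y → (∀ a ∈ U', dg U' x a = dg U' y a) → g x = g y) :
    ∀ n : ℕ, ∀ x y, Agr (insert v U') x y →
      (∀ a ∈ insert v U', dg (insert v U') x a = dg (insert v U') y a) →
      (U'.filter fun w => x s(v, w) ≠ y s(v, w)).card = n → g x = g y := by
  intro n
  induction n using Nat.strong_induction_on with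
  | _ n ihn =>
  intro x y hagr hdeg hn
  by_cases hall : ∀ w ∈ U', x s(v, w) = y s(v, w)
  · -- agreement on `U'`
    have hagr' : Agr U' x y := by
      refine ⟨?_, hagr.2⟩
      have aux : ∀ a b, a ∉ U' → x s(a, b) = y s(a, b) := by
        intro a b ha
        by_cases hav : a = v
        · subst hav
          by_cases hb : b ∈ U'
          · exact hall b hb
          · by_cases hba : b = a
            · subst hba; exact hagr.2 b
            · apply hagr.1
              right
              rw [mem_insert]; push Not; exact ⟨hba, hb⟩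
        · apply hagr.1
          left
          rw [mem_insert]; push Not; exact ⟨hav, ha⟩
      rintro a b (h | h)
      · exact aux a b h
      · rw [Sym2.eq_swap]; exact aux b a h
    apply ih x y hagr'
    intro a ha
    have hav : a ≠ v := fun h => hv (h ▸ ha)
    have e : ∀ x : Sym2 V → Bool, dg (insert v U') x a = (x s(a, v)).toNat + dg U' x a := by
      intro x
      unfold dg
      rw [← add_sum_erase _ (fun t => (x s(a, t)).toNat)
        (show v ∈ (insert v U').erase a from mem_erase.mpr ⟨hav.symm, mem_insert_self _ _⟩)]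
      rw [erase_right_comm, erase_insert hv]
    have h1 := hdeg a (mem_insert_of_mem ha)
    rw [e, e] at h1
    have h2 : x s(a, v) = y s(a, v) := by
      rw [Sym2.eq_swap]; exact hall a ha
    rw [h2] at h1
    omega
  · push Not at hall
    have hsum : ∑ t ∈ U', (x s(v, t)).toNat = ∑ t ∈ U', (y s(v, t)).toNat := by
      have := hdeg v (mem_insert_self _ _)
      unfold dg at this
      rwa [erase_insert hv] at this
    obtain ⟨u, hu, hxu, hyu⟩ := exists_true_false U' (fun t => x s(v, t)) (fun t => y s(v, t))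
      hsum hall
    obtain ⟨w, hw, hyw, hxw⟩ := exists_true_false U' (fun t => y s(v, t)) (fun t => x s(v, t))
      hsum.symm (by obtain ⟨t, ht, h⟩ := hall; exact ⟨t, ht, h.symm⟩)
    have hvu : v ≠ u := fun h => hv (h ▸ hu)
    have hvw : v ≠ w := fun h => hv (h ▸ hw)
    have huw : u ≠ w := by rintro rfl; rw [hxu] at hxw; exact absurd hxw (by simp)
    have hvU := mem_insert_self v U'
    have huU := mem_insert_of_mem (b := v) hu
    have hwU := mem_insert_of_mem (b := v) hw
    rcases le_total (dg (insert v U') x u) (dg (insert v U') x w) with hd | hd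
    · obtain ⟨x', hr, ha, hdg, e1, e2, e3⟩ := step hvU huU hwU hvu hvw huw hxu hxw hd
      rw [hg u w huw x x' hr]
      refine ihn _ ?_ x' y (ha.trans hagr) ?_ rfl
      · rw [← hn]
        apply card_lt_card
        refine ⟨?_, ?_⟩
        · intro t ht
          simp only [mem_filter] at ht ⊢
          refine ⟨ht.1, ?_⟩
          by_cases htu : t = u
          · subst htu; rw [hxu, hyu]; simp
          · by_cases htw : t = w
            · subst htw; rw [hxw, hyw]; simp
            · rw [← e3 t htu htw]; exact ht.2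
        · intro hsub
          have := hsub (mem_filter.mpr ⟨hu, by rw [hxu, hyu]; simp⟩)
          simp only [mem_filter] at this
          exact this.2 (by rw [e1, hyu])
      · intro a ha'
        rw [hdg]; exact hdeg a ha'
    · have hd' : dg (insert v U') y w ≤ dg (insert v U') y u := by
        rw [← hdeg w hwU, ← hdeg u huU]; exact hd
      obtain ⟨y', hr, ha, hdg, e1, e2, e3⟩ := step hvU hwU huU hvw hvu huw.symm hyw hyu hd'
      rw [hg w u huw.symm y y' hr]
      refine ihn _ ?_ x y' (hagr.trans ha.symm) ?_ rfl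
      · rw [← hn]
        apply card_lt_card
        refine ⟨?_, ?_⟩
        · intro t ht
          simp only [mem_filter] at ht ⊢
          refine ⟨ht.1, ?_⟩
          by_cases htu : t = u
          · subst htu; rw [hxu, hyu]; simp
          · by_cases htw : t = w
            · subst htw; rw [hxw, hyw]; simp
            · rw [← e3 t htw htu]; exact ht.2
        · intro hsub
          have := hsub (mem_filter.mpr ⟨hu, by rw [hxu, hyu]; simp⟩)
          simp only [mem_filter] at this
          exact this.2 (by rw [e2, hxu])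
      · intro a ha'
        rw [hdg]; exact hdeg a ha'

theorem outer (g : (Sym2 V → Bool) → ℝ)
    (hg : ∀ a b, a ≠ b → ∀ x y, grel a b x y → g x = g y) (U : Finset V) :
    ∀ x y, Agr U x y → (∀ a ∈ U, dg U x a = dg U y a) → g x = g y := by
  induction U using Finset.induction_on with
  | empty =>
    intro x y h _
    have : x = y := by
      funext e
      induction e using Sym2.ind with
      | _ a b => exact h.1 a b (Or.inl (notMem_empty a))
    rw [this]
  | insert v U' hv ih =>
    intro x y h1 h2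
    exact inner g hg U' v hv ih _ x y h1 h2 rfl

end

end Conn

section graph

variable {V : Type*} [Fintype V] [DecidableEq V]

/-- T10: connectivity. -/
theorem conn (g : (Sym2 V → Bool) → ℝ)
    (hg : ∀ a b, a ≠ b → ∀ x y, grel a b x y → g x = g y) (x y : Sym2 V → Bool)
    (hdiag : ∀ v, x s(v, v) = y s(v, v))
    (hdeg : ∀ v, ∑ w ∈ univ.erase v, (x s(v, w)).toNat = ∑ w ∈ univ.erase v, (y s(v, w)).toNat) :
    g x = g y := by
  apply Conn.outer g hg univ x y
  · refine ⟨?_, hdiag⟩
    rintro a b (h | h) <;> exact absurd (mem_univ _) h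
  · intro a _
    exact hdeg a

end graph

end Crest.Agent.R299
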