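import Mathlib
import Crest.Prelude.Def_SwitchChain
import Crest.Agent.R299.Defs

-- ▼ part R299/Dirichlet
section

/-!
Row 299 (S0453): elementary facts on the lazy switch chain kernel and its Dirichlet form.
-/

set_option autoImplicit false
open Finset

namespace Crest.Agent.R299

open Crest.SwitchChain

variable {n : ℕ}

/-- The edge joining `a ≠ b`. -/
def mkE (a b : Fin n) (h : a ≠ b) : Edge n := ⟨s(a, b), by simpa [Sym2.mk_isDiag_iff] using h⟩

/-! ### degrees under a proposal -/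

theorem pmSet_filter_card {S : Finset (Fin n)} {F : Finset (Edge n)} (hF : F ∈ pmSet S) (v : Fin n) :
    (F.filter fun e => v ∈ e.1).card = if v ∈ S then 1 else 0 := by
  unfold pmSet at hF
  rw [mem_filter] at hF
  obtain ⟨_, h1, h2⟩ := hF
  split_ifs with hv
  · exact h2 v hv
  · rw [card_eq_zero, filter_eq_empty_iff]
    intro e he hve
    exact hv (h1 e he v hve)

theorem deg_switch {S : Finset (Fin n)} {E F F' : Finset (Edge n)} (hF : F ∈ pmSet S)
    (hF' : F' ∈ pmSet S) (h1 : F ⊆ E) (h2 : Disjoint F' E) (v : Fin n) :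
    deg (E \ F ∪ F') v = deg E v := by
  unfold deg
  rw [filter_union, card_union_of_disjoint]
  · have hsub : F.filter (fun e => v ∈ e.1) ⊆ E.filter (fun e => v ∈ e.1) :=
      filter_subset_filter _ h1
    have : (E \ F).filter (fun e => v ∈ e.1)
        = (E.filter fun e => v ∈ e.1) \ (F.filter fun e => v ∈ e.1) := by
      ext e
      simp only [mem_filter, mem_sdiff]
      tauto
    rw [this, card_sdiff_of_subset hsub, pmSet_filter_card hF, pmSet_filter_card hF']
    have hle := card_le_card hsub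
    rw [pmSet_filter_card hF] at hle
    omega
  · apply Disjoint.mono (filter_subset _ _) (filter_subset _ _)
    exact (h2.mono_right sdiff_subset).symm

theorem mem_realizations {d : Fin n → ℕ} {E : Finset (Edge n)} :
    E ∈ realizations d ↔ ∀ v, deg E v = d v := by
  simp [realizations]

theorem switchResult_mem {d : Fin n → ℕ} {S : Finset (Fin n)} {E F F' : Finset (Edge n)}
    (hF : F ∈ pmSet S) (hF' : F' ∈ pmSet S) (hE : E ∈ realizations d) :
    switchResult E F F' ∈ realizations d := by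
  unfold switchResult
  split_ifs with h
  · rw [mem_realizations] at hE ⊢
    intro v
    rw [deg_switch hF hF' h.1 h.2, hE]
  · exact hE

/-! ### perfect matchings of a four-set -/

theorem mem_pmSet_of {a b c d : Fin n} (hab : a ≠ b) (hac : a ≠ c) (had : a ≠ d)
    (hbc : b ≠ c) (hbd : b ≠ d) (hcd : c ≠ d) :
    ({mkE a b hab, mkE c d hcd} : Finset (Edge n)) ∈ pmSet ({a, b, c, d} : Finset (Fin n)) := by
  have hne : mkE a b hab ≠ mkE c d hcd := by
    intro h
    have := congrArg Subtype.val h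
    simp only [mkE, Sym2.eq_iff] at this
    rcases this with ⟨h1, _⟩ | ⟨h1, _⟩
    · exact hac h1
    · exact had h1
  unfold pmSet
  rw [mem_filter, mem_powersetCard]
  refine ⟨⟨subset_univ _, card_pair hne⟩, ?_, ?_⟩
  · intro e he v hv
    simp only [mem_insert, mem_singleton] at he ⊢
    rcases he with rfl | rfl <;> simp only [mkE, Sym2.mem_iff] at hv <;> tauto
  · intro v hv
    simp only [mem_insert, mem_singleton] at hv
    rw [card_eq_one]
    rcases hv with rfl | rfl | rfl | rfl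
    · refine ⟨mkE v b hab, ?_⟩
      ext e
      simp only [mem_filter, mem_insert, mem_singleton]
      constructor
      · rintro ⟨rfl | rfl, h⟩
        · rfl
        · simp only [mkE, Sym2.mem_iff] at h; tauto
      · rintro rfl; simp [mkE]
    · refine ⟨mkE a v hab, ?_⟩
      ext e
      simp only [mem_filter, mem_insert, mem_singleton]
      constructor
      · rintro ⟨rfl | rfl, h⟩
        · rfl
        · simp only [mkE, Sym2.mem_iff] at h; tauto
      · rintro rfl; simp [mkE]
    · refine ⟨mkE v d hcd, ?_⟩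
      ext e
      simp only [mem_filter, mem_insert, mem_singleton]
      constructor
      · rintro ⟨rfl | rfl, h⟩
        · simp only [mkE, Sym2.mem_iff] at h
          rcases h with h | h
          · exact absurd h.symm hac
          · exact absurd h.symm hbc
        · rfl
      · rintro rfl; simp [mkE]
    · refine ⟨mkE c v hcd, ?_⟩
      ext e
      simp only [mem_filter, mem_insert, mem_singleton]
      constructor
      · rintro ⟨rfl | rfl, h⟩
        · simp only [mkE, Sym2.mem_iff] at h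
          rcases h with h | h
          · exact absurd h.symm had
          · exact absurd h.symm hbd
        · rfl
      · rintro rfl; simp [mkE]


theorem mkE_inj {a b c d : Fin n} {h : a ≠ b} {h' : c ≠ d} :
    mkE a b h = mkE c d h' ↔ (a = c ∧ b = d) ∨ (a = d ∧ b = c) := by
  simp only [mkE, Subtype.mk.injEq, Sym2.eq_iff]

theorem exists_mkE (e : Edge n) {a : Fin n} (ha : a ∈ e.1) : ∃ x, ∃ h : a ≠ x, e = mkE a x h := by
  obtain ⟨x, hx⟩ := Sym2.mem_iff_exists.mp ha
  refine ⟨x, ?_, ?_⟩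
  · intro h
    apply e.2
    rw [hx, h]
    simp
  · apply Subtype.ext
    simpa [mkE] using hx

theorem mem_mkE {a b v : Fin n} {h : a ≠ b} : v ∈ (mkE a b h).1 ↔ v = a ∨ v = b := by
  simp [mkE]

/-- A perfect matching on `{a,b,c,d}` containing the edge `ab` is `{ab, cd}`. -/
theorem pmSet_eq_of_mem {a b c d : Fin n} (hab : a ≠ b) (hac : a ≠ c) (had : a ≠ d)
    (hbc : b ≠ c) (hbd : b ≠ d) (hcd : c ≠ d) {F : Finset (Edge n)}
    (hF : F ∈ pmSet ({a, b, c, d} : Finset (Fin n))) (hm : mkE a b hab ∈ F) :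
    F = {mkE a b hab, mkE c d hcd} := by
  have hF0 := hF
  unfold pmSet at hF
  rw [mem_filter, mem_powersetCard] at hF
  obtain ⟨⟨_, hc⟩, h1, h2⟩ := hF
  have hc1 := h2 c (by simp)
  rw [card_eq_one] at hc1
  obtain ⟨e, he⟩ := hc1
  have heF : e ∈ F.filter (fun e => c ∈ e.1) := by rw [he]; simp
  rw [mem_filter] at heF
  obtain ⟨x, hx, rfl⟩ := exists_mkE e heF.2
  have hxS := h1 _ heF.1 x (by rw [mem_mkE]; tauto)
  simp only [mem_insert, mem_singleton] at hxS
  have hone : ∀ v ∈ ({a, b, c, d} : Finset (Fin n)), ∀ e₁ ∈ F, ∀ e₂ ∈ F, v ∈ e₁.1 → v ∈ e₂.1 →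
      e₁ = e₂ := by
    intro v hv e₁ h₁ e₂ h₂ hv1 hv2
    have := h2 v hv
    rw [card_eq_one] at this
    obtain ⟨e', he'⟩ := this
    have a1 : e₁ ∈ F.filter (fun e => v ∈ e.1) := mem_filter.mpr ⟨h₁, hv1⟩
    have a2 : e₂ ∈ F.filter (fun e => v ∈ e.1) := mem_filter.mpr ⟨h₂, hv2⟩
    rw [he', mem_singleton] at a1 a2
    rw [a1, a2]
  have hxd : x = d := by
    rcases hxS with rfl | rfl | rfl | rfl
    · exfalso
      have := hone x (by simp) _ hm _ heF.1 (by simp [mem_mkE]) (by simp [mem_mkE])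
      rw [mkE_inj] at this
      tauto
    · exfalso
      have := hone x (by simp) _ hm _ heF.1 (by simp [mem_mkE]) (by simp [mem_mkE])
      rw [mkE_inj] at this
      tauto
    · exact absurd rfl hx
    · rfl
  subst hxd
  symm
  apply eq_of_subset_of_card_le
  · intro e he
    simp only [mem_insert, mem_singleton] at he
    rcases he with rfl | rfl
    · exact hm
    · exact heF.1
  · rw [hc, card_pair]
    intro h
    rw [mkE_inj] at h
    tauto

theorem pmSet_eq {a b c d : Fin n} (hab : a ≠ b) (hac : a ≠ c) (had : a ≠ d)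
    (hbc : b ≠ c) (hbd : b ≠ d) (hcd : c ≠ d) :
    pmSet ({a, b, c, d} : Finset (Fin n)) =
      {{mkE a b hab, mkE c d hcd}, {mkE a c hac, mkE b d hbd}, {mkE a d had, mkE b c hbc}} := by
  have e1 : ({a, c, b, d} : Finset (Fin n)) = {a, b, c, d} := by ext; simp; tauto
  have e2 : ({a, d, b, c} : Finset (Fin n)) = {a, b, c, d} := by ext; simp; tauto
  ext F
  simp only [mem_insert, mem_singleton]
  constructor
  · intro hF
    have hF' := hF
    unfold pmSet at hF'
    rw [mem_filter, mem_powersetCard] at hF'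
    obtain ⟨⟨_, hc⟩, h1, h2⟩ := hF'
    have hc1 := h2 a (by simp)
    rw [card_eq_one] at hc1
    obtain ⟨e, he⟩ := hc1
    have heF : e ∈ F.filter (fun e => a ∈ e.1) := by rw [he]; simp
    rw [mem_filter] at heF
    obtain ⟨x, hx, rfl⟩ := exists_mkE e heF.2
    have hxS := h1 _ heF.1 x (by rw [mem_mkE]; tauto)
    simp only [mem_insert, mem_singleton] at hxS
    rcases hxS with rfl | rfl | rfl | rfl
    · exact absurd rfl hx
    · left
      exact pmSet_eq_of_mem hab hac had hbc hbd hcd hF heF.1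
    · right; left
      rw [← e1] at hF
      exact pmSet_eq_of_mem hac hab had hbc.symm hcd hbd hF heF.1
    · right; right
      rw [← e2] at hF
      exact pmSet_eq_of_mem had hab hac hbd.symm hcd.symm hbc hF heF.1
  · rintro (rfl | rfl | rfl)
    · exact mem_pmSet_of hab hac had hbc hbd hcd
    · rw [← e1]; exact mem_pmSet_of hac hab had hbc.symm hcd hbd
    · rw [← e2]; exact mem_pmSet_of had hab hac hbd.symm hcd.symm hbc

theorem exists_four {S : Finset (Fin n)} (hS : S.card = 4) :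
    ∃ a b c d : Fin n, a ≠ b ∧ a ≠ c ∧ a ≠ d ∧ b ≠ c ∧ b ≠ d ∧ c ≠ d ∧ S = {a, b, c, d} := by
  obtain ⟨a, T, haT, rfl, hT⟩ := card_eq_succ.mp hS
  obtain ⟨b, c, d, hbc, hbd, hcd, rfl⟩ := card_eq_three.mp hT
  simp only [mem_insert, mem_singleton, not_or] at haT
  exact ⟨a, b, c, d, haT.1, haT.2.1, haT.2.2, hbc, hbd, hcd, rfl⟩

theorem pair_ne {a b c d x y z w : Fin n} {h1 : a ≠ b} {h2 : c ≠ d} {h3 : x ≠ y} {h4 : z ≠ w}
    (h5 : mkE a b h1 ≠ mkE x y h3) (h6 : mkE a b h1 ≠ mkE z w h4) :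
    ({mkE a b h1, mkE c d h2} : Finset (Edge n)) ≠ {mkE x y h3, mkE z w h4} := by
  intro h
  have : mkE a b h1 ∈ ({mkE x y h3, mkE z w h4} : Finset (Edge n)) := by rw [← h]; simp
  simp only [mem_insert, mem_singleton] at this
  tauto

theorem card_pmSet {S : Finset (Fin n)} (hS : S.card = 4) : (pmSet S).card = 3 := by
  obtain ⟨a, b, c, d, hab, hac, had, hbc, hbd, hcd, rfl⟩ := exists_four hS
  rw [pmSet_eq hab hac had hbc hbd hcd, card_eq_three]
  refine ⟨_, _, _, ?_, ?_, ?_, rfl⟩
  · apply pair_ne <;> (rw [Ne, mkE_inj]; tauto)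
  · apply pair_ne <;> (rw [Ne, mkE_inj]; tauto)
  · apply pair_ne <;> (rw [Ne, mkE_inj]; tauto)

/-! ### the kernel -/

theorem sum_proposalCount (E : Finset (Edge n)) :
    ∑ E' : Finset (Edge n), proposalCount E E' = 6 * n.choose 4 := by
  unfold proposalCount
  rw [sum_comm]
  have : ∀ S ∈ (univ : Finset (Fin n)).powersetCard 4,
      ∑ E' : Finset (Edge n), ∑ F ∈ pmSet S, ∑ F' ∈ (pmSet S).erase F,
        (if switchResult E F F' = E' then 1 else 0) = 6 := by
    intro S hS
    rw [mem_powersetCard] at hS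
    rw [sum_comm]
    have h2 : ∀ F ∈ pmSet S, ∑ E' : Finset (Edge n), ∑ F' ∈ (pmSet S).erase F,
        (if switchResult E F F' = E' then 1 else 0) = 2 := by
      intro F hF
      rw [sum_comm]
      simp only [sum_ite_eq, mem_univ, if_true, sum_const, smul_eq_mul, mul_one]
      rw [card_erase_of_mem hF, card_pmSet hS.2]
    rw [sum_congr rfl h2, sum_const, card_pmSet hS.2]
    rfl
  rw [sum_congr rfl this, sum_const, card_powersetCard]
  simp [mul_comm]

theorem switchResult_eq_iff {E E' F F' : Finset (Edge n)} (hne : E ≠ E') :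
    switchResult E F F' = E' ↔ F ⊆ E ∧ Disjoint F' E ∧ E \ F ∪ F' = E' := by
  unfold switchResult
  split_ifs with h
  · tauto
  · constructor
    · intro h'; exact absurd h' hne
    · rintro ⟨h1, h2, _⟩; exact absurd ⟨h1, h2⟩ h

theorem switch_symm_aux {E E' F F' : Finset (Edge n)}
    (h : F ⊆ E ∧ Disjoint F' E ∧ E \ F ∪ F' = E') :
    F' ⊆ E' ∧ Disjoint F E' ∧ E' \ F' ∪ F = E := by
  obtain ⟨h1, h2, rfl⟩ := h
  refine ⟨subset_union_right, ?_, ?_⟩
  · rw [disjoint_union_right]
    refine ⟨disjoint_sdiff, ?_⟩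
    exact (h2.mono_right h1).symm
  · ext e
    simp only [mem_union, mem_sdiff]
    have := @h1 e
    have h3 : e ∈ F' → e ∉ E := fun h h' => (disjoint_left.mp h2) h h'
    tauto

theorem switchResult_symm {E E' F F' : Finset (Edge n)} (hne : E ≠ E') :
    switchResult E F F' = E' ↔ switchResult E' F' F = E := by
  rw [switchResult_eq_iff hne, switchResult_eq_iff hne.symm]
  exact ⟨switch_symm_aux, switch_symm_aux⟩

theorem proposalCount_symm {E E' : Finset (Edge n)} (hne : E ≠ E') :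
    proposalCount E E' = proposalCount E' E := by
  unfold proposalCount
  apply sum_congr rfl
  intro S _
  have key : ∀ (g : Finset (Edge n) → Finset (Edge n) → ℕ),
      ∑ F ∈ pmSet S, ∑ F' ∈ (pmSet S).erase F, g F F'
        = ∑ F ∈ pmSet S, ∑ F' ∈ (pmSet S).erase F, g F' F := by
    intro g
    rw [Finset.sum_sigma', Finset.sum_sigma']
    refine Finset.sum_bij' (fun x _ => ⟨x.2, x.1⟩) (fun x _ => ⟨x.2, x.1⟩) ?_ ?_ ?_ ?_ ?_
    · rintro ⟨F, F'⟩ h
      simp only [mem_sigma, mem_erase, ne_eq] at h ⊢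
      exact ⟨h.2.2, fun h' => h.2.1 h'.symm, h.1⟩
    · rintro ⟨F, F'⟩ h
      simp only [mem_sigma, mem_erase, ne_eq] at h ⊢
      exact ⟨h.2.2, fun h' => h.2.1 h'.symm, h.1⟩
    · rintro ⟨F, F'⟩ h; rfl
    · rintro ⟨F, F'⟩ h; rfl
    · rintro ⟨F, F'⟩ h; rfl
  rw [key]
  apply sum_congr rfl
  intro F _
  apply sum_congr rfl
  intro F' _
  simp only [switchResult_symm hne]

theorem kernel_symm (E E' : Finset (Edge n)) : kernel n E E' = kernel n E' E := by
  by_cases h : E = E'
  · rw [h]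
  · unfold kernel
    rw [if_neg h, if_neg (Ne.symm h), proposalCount_symm h]

theorem kernel_nonneg (E E' : Finset (Edge n)) : 0 ≤ kernel n E E' := by
  unfold kernel
  split_ifs <;> positivity

theorem kernel_sum (hn : 4 ≤ n) (E : Finset (Edge n)) :
    ∑ E' : Finset (Edge n), kernel n E E' = 1 := by
  unfold kernel
  rw [sum_add_distrib]
  have hpos : (0 : ℝ) < n.choose 4 := by exact_mod_cast Nat.choose_pos hn
  have h := sum_proposalCount E
  have h' : ∑ E' : Finset (Edge n), (proposalCount E E' : ℝ) = 6 * (n.choose 4 : ℝ) := by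
    exact_mod_cast h
  rw [← sum_div, h']
  simp only [sum_ite_eq, mem_univ, if_true]
  field_simp
  norm_num

theorem proposalCount_eq_zero {d : Fin n → ℕ} {E E' : Finset (Edge n)}
    (hE : E ∈ realizations d) (hE' : E' ∉ realizations d) : proposalCount E E' = 0 := by
  unfold proposalCount
  apply sum_eq_zero
  intro S _
  apply sum_eq_zero
  intro F hF
  apply sum_eq_zero
  intro F' hF'
  rw [if_neg]
  rintro rfl
  exact hE' (switchResult_mem hF (mem_of_mem_erase hF') hE)

theorem kernel_eq_zero {d : Fin n → ℕ} {E E' : Finset (Edge n)}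
    (hE : E ∈ realizations d) (hE' : E' ∉ realizations d) : kernel n E E' = 0 := by
  unfold kernel
  rw [proposalCount_eq_zero hE hE', if_neg]
  · simp
  · rintro rfl; exact hE' hE

theorem kernel_sum_realizations (hn : 4 ≤ n) {d : Fin n → ℕ} {E : Finset (Edge n)}
    (hE : E ∈ realizations d) :
    ∑ E' ∈ realizations d, kernel n E E' = 1 := by
  rw [← kernel_sum hn E]
  apply sum_subset (subset_univ _)
  intro E' _ h
  exact kernel_eq_zero hE h

/-- The Dirichlet form identity. -/
theorem dirichlet_identity {α : Type*} (Ω : Finset α) (P : α → α → ℝ)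
    (hs : ∀ x y, P x y = P y x) (h1 : ∀ x ∈ Ω, ∑ y ∈ Ω, P x y = 1) (f : α → ℝ) :
    ∑ x ∈ Ω, f x * (f x - ∑ y ∈ Ω, P x y * f y)
      = (1 / 2) * ∑ x ∈ Ω, ∑ y ∈ Ω, P x y * (f x - f y) ^ 2 := by
  have hA : ∑ x ∈ Ω, ∑ y ∈ Ω, P x y * (f x) ^ 2 = ∑ x ∈ Ω, (f x) ^ 2 := by
    apply sum_congr rfl
    intro x hx
    rw [← sum_mul, h1 x hx, one_mul]
  have hB : ∑ x ∈ Ω, ∑ y ∈ Ω, P x y * (f y) ^ 2 = ∑ x ∈ Ω, (f x) ^ 2 := by
    rw [sum_comm]
    rw [← hA]
    apply sum_congr rfl
    intro x _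
    apply sum_congr rfl
    intro y _
    rw [hs]
  have hC : ∑ x ∈ Ω, ∑ y ∈ Ω, P x y * (f x - f y) ^ 2
      = ∑ x ∈ Ω, ∑ y ∈ Ω, P x y * (f x) ^ 2 + ∑ x ∈ Ω, ∑ y ∈ Ω, P x y * (f y) ^ 2
        - 2 * ∑ x ∈ Ω, ∑ y ∈ Ω, P x y * (f x * f y) := by
    rw [← sum_add_distrib, mul_sum, ← sum_sub_distrib]
    apply sum_congr rfl
    intro x _
    rw [← sum_add_distrib, mul_sum, ← sum_sub_distrib]
    apply sum_congr rfl
    intro y _
    ring
  rw [hC, hA, hB]
  have hD : ∑ x ∈ Ω, f x * (f x - ∑ y ∈ Ω, P x y * f y)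
      = ∑ x ∈ Ω, f x ^ 2 - ∑ x ∈ Ω, ∑ y ∈ Ω, P x y * (f x * f y) := by
    rw [← sum_sub_distrib]
    apply sum_congr rfl
    intro x _
    rw [mul_sub, mul_sum]
    congr 1
    · ring
    · apply sum_congr rfl
      intro y _
      ring
  rw [hD]
  ring

/-! ### adjacency -/

/-- `G'` arises from `G` by replacing the present edges `ab, cd` by the absent edges `ac, bd`. -/
def SwitchAdj (G G' : Finset (Edge n)) : Prop :=
  ∃ (a b c d : Fin n) (hab : a ≠ b) (hcd : c ≠ d) (hac : a ≠ c) (hbd : b ≠ d) (_ : a ≠ d)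
    (_ : b ≠ c),
    mkE a b hab ∈ G ∧ mkE c d hcd ∈ G ∧ mkE a c hac ∉ G ∧ mkE b d hbd ∉ G ∧
      G' = G \ {mkE a b hab, mkE c d hcd} ∪ {mkE a c hac, mkE b d hbd}

theorem SwitchAdj.ne {G G' : Finset (Edge n)} (h : SwitchAdj G G') : G ≠ G' := by
  obtain ⟨a, b, c, d, hab, hcd, hac, hbd, had, hbc, h1, h2, h3, h4, rfl⟩ := h
  intro h
  apply h3
  rw [h]
  simp

theorem one_le_proposalCount {G G' : Finset (Edge n)} (h : SwitchAdj G G') :
    1 ≤ proposalCount G G' := by
  obtain ⟨a, b, c, d, hab, hcd, hac, hbd, had, hbc, h1, h2, h3, h4, rfl⟩ := h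
  unfold proposalCount
  have hS : ({a, b, c, d} : Finset (Fin n)) ∈ (univ : Finset (Fin n)).powersetCard 4 := by
    rw [mem_powersetCard]
    refine ⟨subset_univ _, ?_⟩
    rw [card_insert_of_notMem, card_insert_of_notMem, card_pair hcd]
    · simp only [mem_insert, mem_singleton, not_or]; exact ⟨hbc, hbd⟩
    · simp only [mem_insert, mem_singleton, not_or]; exact ⟨hab, hac, had⟩
  refine le_trans ?_ (single_le_sum (fun _ _ => Nat.zero_le _) hS)
  have hF : ({mkE a b hab, mkE c d hcd} : Finset (Edge n)) ∈ pmSet ({a, b, c, d} : Finset (Fin n)) :=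
    mem_pmSet_of hab hac had hbc hbd hcd
  refine le_trans ?_ (single_le_sum (fun _ _ => Nat.zero_le _) hF)
  have hF' : ({mkE a c hac, mkE b d hbd} : Finset (Edge n)) ∈
      (pmSet ({a, b, c, d} : Finset (Fin n))).erase {mkE a b hab, mkE c d hcd} := by
    rw [mem_erase]
    refine ⟨?_, ?_⟩
    · apply pair_ne <;> (rw [Ne, mkE_inj]; tauto)
    · have e1 : ({a, c, b, d} : Finset (Fin n)) = {a, b, c, d} := by ext; simp; tauto
      rw [← e1]
      exact mem_pmSet_of hac hab had hbc.symm hcd hbd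
  refine le_trans ?_ (single_le_sum (fun _ _ => Nat.zero_le _) hF')
  rw [if_pos]
  unfold switchResult
  rw [if_pos]
  refine ⟨?_, ?_⟩
  · intro e he
    simp only [mem_insert, mem_singleton] at he
    rcases he with rfl | rfl <;> assumption
  · rw [disjoint_left]
    intro e he
    simp only [mem_insert, mem_singleton] at he
    rcases he with rfl | rfl <;> assumption

/-- The kernel's Dirichlet form on the realizations, as a sum of proposal counts. -/
theorem dirichlet_kernel (hn : 4 ≤ n) (d : Fin n → ℕ) (f : Finset (Edge n) → ℝ) :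
    ∑ G ∈ realizations d, f G * (f G - ∑ G' ∈ realizations d, kernel n G G' * f G')
      = (1 / (24 * (n.choose 4 : ℝ))) *
        ∑ G ∈ realizations d, ∑ G' ∈ realizations d,
          (proposalCount G G' : ℝ) * (f G - f G') ^ 2 := by
  rw [dirichlet_identity (realizations d) (kernel n) kernel_symm
    (fun x hx => kernel_sum_realizations hn hx) f]
  have hpos : (0 : ℝ) < n.choose 4 := by exact_mod_cast Nat.choose_pos hn
  rw [mul_sum, mul_sum]
  apply sum_congr rfl
  intro G _
  rw [mul_sum, mul_sum]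
  apply sum_congr rfl
  intro G' _
  unfold kernel
  by_cases h : G = G'
  · subst h; simp
  · rw [if_neg h]
    field_simp
    ring

open Classical in
/-- The Poincaré inequality of the statement follows from the one for the (unnormalised)
switch graph: `Var(f) ≤ 2 n² · (1/|Ω|) ∑_{unordered switch pairs} (f G - f G')²`. -/
theorem poincare_of_switchAdj (hn : 4 ≤ n) (d : Fin n → ℕ) (f : Finset (Edge n) → ℝ)
    (h : ((realizations d).card : ℝ) * (∑ G ∈ realizations d, f G ^ 2) -
            (∑ G ∈ realizations d, f G) ^ 2 ≤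
          (n : ℝ) ^ 2 * (realizations d).card *
            ∑ G ∈ realizations d, ∑ G' ∈ realizations d,
              if SwitchAdj G G' then (f G - f G') ^ 2 else 0) :
    ((realizations d).card : ℝ) * (∑ G ∈ realizations d, f G ^ 2) -
            (∑ G ∈ realizations d, f G) ^ 2 ≤
          24 * (n : ℝ) ^ 2 * (n.choose 4 : ℝ) * (realizations d).card *
            ∑ G ∈ realizations d, f G * (f G - ∑ G' ∈ realizations d, kernel n G G' * f G') := by
  refine h.trans ?_
  rw [dirichlet_kernel hn d f]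
  have hpos : (0 : ℝ) < n.choose 4 := by exact_mod_cast Nat.choose_pos hn
  have hle : ∑ G ∈ realizations d, ∑ G' ∈ realizations d,
        (if SwitchAdj G G' then (f G - f G') ^ 2 else 0)
      ≤ ∑ G ∈ realizations d, ∑ G' ∈ realizations d,
          (proposalCount G G' : ℝ) * (f G - f G') ^ 2 := by
    apply sum_le_sum
    intro G _
    apply sum_le_sum
    intro G' _
    split_ifs with hadj
    · have h1 : (1 : ℝ) ≤ proposalCount G G' := by exact_mod_cast one_le_proposalCount hadj
      nlinarith [sq_nonneg (f G - f G')]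
    · positivity
  calc (n : ℝ) ^ 2 * (realizations d).card *
            ∑ G ∈ realizations d, ∑ G' ∈ realizations d,
              (if SwitchAdj G G' then (f G - f G') ^ 2 else 0)
      ≤ (n : ℝ) ^ 2 * (realizations d).card * ∑ G ∈ realizations d, ∑ G' ∈ realizations d,
          (proposalCount G G' : ℝ) * (f G - f G') ^ 2 :=
        mul_le_mul_of_nonneg_left hle (by positivity)
    _ = 24 * (n : ℝ) ^ 2 * (n.choose 4 : ℝ) * (realizations d).card *
          ((1 / (24 * (n.choose 4 : ℝ))) *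
        ∑ G ∈ realizations d, ∑ G' ∈ realizations d,
          (proposalCount G G' : ℝ) * (f G - f G') ^ 2) := by
        field_simp

end Crest.Agent.R299
end

-- ▼ part R299/Mixing
section

/-!
Row 299 (S0453): the total variation bound `≤ 1/4` at time `2 n^8` from the Poincaré inequality.
-/

set_option autoImplicit false
open Finset

namespace Crest.Agent.R299

open Crest.SwitchChain

variable {n : ℕ}

/-! ### generic facts on a lazy symmetric kernel on a finite set -/

section generic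

variable {α : Type*} [DecidableEq α] (Ω : Finset α) (P : α → α → ℝ)

/-- Contraction in `ℓ²` of a symmetric stochastic kernel. -/
theorem sum_sq_le_of_stoch (Q : α → α → ℝ) (hQ0 : ∀ x ∈ Ω, ∀ y ∈ Ω, 0 ≤ Q x y)
    (hs : ∀ x y, Q x y = Q y x) (h1 : ∀ x ∈ Ω, ∑ y ∈ Ω, Q x y = 1) (g : α → ℝ) :
    ∑ x ∈ Ω, (∑ y ∈ Ω, Q x y * g y) ^ 2 ≤ ∑ x ∈ Ω, g x ^ 2 := by
  have hx : ∀ x ∈ Ω, (∑ y ∈ Ω, Q x y * g y) ^ 2 ≤ ∑ y ∈ Ω, Q x y * g y ^ 2 := by
    intro x hx
    have hcs := Finset.sum_mul_sq_le_sq_mul_sq Ω (fun y => Real.sqrt (Q x y))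
      (fun y => Real.sqrt (Q x y) * g y)
    have e1 : ∑ y ∈ Ω, Real.sqrt (Q x y) * (Real.sqrt (Q x y) * g y) = ∑ y ∈ Ω, Q x y * g y := by
      apply sum_congr rfl
      intro y hy
      rw [← mul_assoc, Real.mul_self_sqrt (hQ0 x hx y hy)]
    have e2 : ∑ y ∈ Ω, Real.sqrt (Q x y) ^ 2 = 1 := by
      rw [← h1 x hx]
      apply sum_congr rfl
      intro y hy
      rw [Real.sq_sqrt (hQ0 x hx y hy)]
    have e3 : ∑ y ∈ Ω, (Real.sqrt (Q x y) * g y) ^ 2 = ∑ y ∈ Ω, Q x y * g y ^ 2 := by
      apply sum_congr rfl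
      intro y hy
      rw [mul_pow, Real.sq_sqrt (hQ0 x hx y hy)]
    rw [e1, e2, e3, one_mul] at hcs
    exact hcs
  calc ∑ x ∈ Ω, (∑ y ∈ Ω, Q x y * g y) ^ 2 ≤ ∑ x ∈ Ω, ∑ y ∈ Ω, Q x y * g y ^ 2 :=
        sum_le_sum hx
    _ = ∑ y ∈ Ω, ∑ x ∈ Ω, Q y x * g y ^ 2 := by
        rw [sum_comm]
        apply sum_congr rfl
        intro y _
        apply sum_congr rfl
        intro x _
        rw [hs]
    _ = ∑ y ∈ Ω, g y ^ 2 := by
        apply sum_congr rfl
        intro y hy
        rw [← sum_mul, h1 y hy, one_mul]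

/-- For a lazy symmetric kernel, `‖P g‖² ≤ ⟨g, P g⟩`. -/
theorem sq_le_inner_of_lazy (hP0 : ∀ x ∈ Ω, ∀ y ∈ Ω, 0 ≤ P x y)
    (hlazy : ∀ x ∈ Ω, 1 / 2 ≤ P x x)
    (hs : ∀ x y, P x y = P y x) (h1 : ∀ x ∈ Ω, ∑ y ∈ Ω, P x y = 1) (g : α → ℝ) :
    ∑ x ∈ Ω, (∑ y ∈ Ω, P x y * g y) ^ 2 ≤ ∑ x ∈ Ω, g x * ∑ y ∈ Ω, P x y * g y := by
  set Q : α → α → ℝ := fun x y => 2 * P x y - if x = y then 1 else 0 with hQ
  have hQg : ∀ x ∈ Ω, ∑ y ∈ Ω, Q x y * g y = 2 * (∑ y ∈ Ω, P x y * g y) - g x := by
    intro x hx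
    simp only [hQ, sub_mul, sum_sub_distrib, ite_mul, one_mul, zero_mul, sum_ite_eq, hx, if_true,
      mul_sum, mul_assoc]
  have hQ0 : ∀ x ∈ Ω, ∀ y ∈ Ω, 0 ≤ Q x y := by
    intro x hx y hy
    simp only [hQ]
    split_ifs with h
    · subst h; linarith [hlazy x hx]
    · have := hP0 x hx y hy; linarith
  have hQs : ∀ x y, Q x y = Q y x := by
    intro x y
    simp only [hQ, hs x y, eq_comm]
  have hQ1 : ∀ x ∈ Ω, ∑ y ∈ Ω, Q x y = 1 := by
    intro x hx
    simp only [hQ, sum_sub_distrib, ← mul_sum, h1 x hx, sum_ite_eq, hx, if_true]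
    norm_num
  have key := sum_sq_le_of_stoch Ω Q hQ0 hQs hQ1 g
  rw [sum_congr rfl (fun x hx => by rw [hQg x hx])] at key
  have e : ∀ x, (2 * (∑ y ∈ Ω, P x y * g y) - g x) ^ 2
      = 4 * (∑ y ∈ Ω, P x y * g y) ^ 2 - 4 * (g x * ∑ y ∈ Ω, P x y * g y) + g x ^ 2 := by
    intro x; ring
  simp only [e, sum_add_distrib, sum_sub_distrib, ← mul_sum] at key
  linarith

end generic

/-! ### powers of the kernel -/

theorem kernel_lazy (E : Finset (Edge n)) : 1 / 2 ≤ kernel n E E := by
  unfold kernel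
  rw [if_pos rfl]
  have : (0 : ℝ) ≤ (proposalCount E E : ℝ) / (12 * (n.choose 4 : ℝ)) := by positivity
  linarith

theorem kernel_pow_eq_zero {d : Fin n → ℕ} {G : Finset (Edge n)} (hG : G ∈ realizations d)
    (t : ℕ) : ∀ G' ∉ realizations d, (kernel n ^ t) G G' = 0 := by
  induction t with
  | zero =>
    intro G' hG'
    rw [pow_zero, Matrix.one_apply_ne]
    rintro rfl; exact hG' hG
  | succ t ih =>
    intro G' hG'
    rw [pow_succ, Matrix.mul_apply]
    apply sum_eq_zero
    intro x _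
    by_cases hx : x ∈ realizations d
    · rw [kernel_eq_zero hx hG', mul_zero]
    · rw [ih x hx, zero_mul]

/-- The recursion for the powers restricted to the realizations. -/
theorem kernel_pow_succ {d : Fin n → ℕ} {G : Finset (Edge n)} (hG : G ∈ realizations d)
    (t : ℕ) (G' : Finset (Edge n)) :
    (kernel n ^ (t + 1)) G G' = ∑ x ∈ realizations d, kernel n G' x * (kernel n ^ t) G x := by
  rw [pow_succ, Matrix.mul_apply]
  symm
  rw [← sum_subset (subset_univ (realizations d))]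
  · apply sum_congr rfl
    intro x _
    rw [kernel_symm, mul_comm]
  · intro x _ hx
    rw [kernel_pow_eq_zero hG t x hx, zero_mul]

theorem kernel_pow_sum (hn : 4 ≤ n) {d : Fin n → ℕ} {G : Finset (Edge n)}
    (hG : G ∈ realizations d) (t : ℕ) :
    ∑ G' ∈ realizations d, (kernel n ^ t) G G' = 1 := by
  induction t with
  | zero =>
    simp only [pow_zero, Matrix.one_apply, sum_ite_eq, hG, if_true]
  | succ t ih =>
    rw [sum_congr rfl (fun G' _ => kernel_pow_succ hG t G'), sum_comm]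
    rw [← ih]
    apply sum_congr rfl
    intro x hx
    rw [← sum_mul]
    rw [sum_congr rfl (fun y _ => kernel_symm y x), kernel_sum_realizations hn hx, one_mul]

/-- The centred law after `t` steps. -/
noncomputable def cen (d : Fin n → ℕ) (G : Finset (Edge n)) (t : ℕ) (G' : Finset (Edge n)) : ℝ :=
  (kernel n ^ t) G G' - 1 / ((realizations d).card : ℝ)

theorem cen_sum (hn : 4 ≤ n) {d : Fin n → ℕ} {G : Finset (Edge n)}
    (hG : G ∈ realizations d) (t : ℕ) :
    ∑ G' ∈ realizations d, cen d G t G' = 0 := by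
  unfold cen
  rw [sum_sub_distrib, kernel_pow_sum hn hG t, sum_const, nsmul_eq_mul, mul_one_div, div_self,
    sub_self]
  have : 0 < (realizations d).card := card_pos.mpr ⟨G, hG⟩
  exact_mod_cast this.ne'

theorem cen_succ (hn : 4 ≤ n) {d : Fin n → ℕ} {G : Finset (Edge n)}
    (hG : G ∈ realizations d) (t : ℕ) {G' : Finset (Edge n)} (hG' : G' ∈ realizations d) :
    cen d G (t + 1) G' = ∑ x ∈ realizations d, kernel n G' x * cen d G t x := by
  unfold cen
  rw [kernel_pow_succ hG t G']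
  simp only [mul_sub, sum_sub_distrib, ← sum_mul]
  rw [kernel_sum_realizations hn hG', one_mul]

/-- The constant in the Poincaré inequality. -/
noncomputable def pcst (n : ℕ) : ℝ := 24 * (n : ℝ) ^ 2 * (n.choose 4 : ℝ)

theorem pcst_le (n : ℕ) : pcst n ≤ (n : ℝ) ^ 6 := by
  unfold pcst
  have h : 24 * n.choose 4 ≤ n ^ 4 := by
    have h1 : (Nat.factorial 4) * n.choose 4 = n.descFactorial 4 :=
      (Nat.descFactorial_eq_factorial_mul_choose n 4).symm
    have h2 : n.descFactorial 4 ≤ n ^ 4 := Nat.descFactorial_le_pow n 4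
    have h3 : Nat.factorial 4 = 24 := rfl
    rw [h3] at h1
    omega
  have h' : 24 * (n.choose 4 : ℝ) ≤ (n : ℝ) ^ 4 := by exact_mod_cast h
  nlinarith [sq_nonneg (n : ℝ)]

theorem one_le_pcst (hn : 4 ≤ n) : 1 ≤ pcst n := by
  unfold pcst
  have h1 : (1 : ℝ) ≤ n.choose 4 := by exact_mod_cast Nat.choose_pos hn
  have h2 : (4 : ℝ) ≤ n := by exact_mod_cast hn
  nlinarith [sq_nonneg (n : ℝ)]

/-- One-step decay. -/
theorem cen_decay (hn : 4 ≤ n) {d : Fin n → ℕ} {G : Finset (Edge n)}
    (hG : G ∈ realizations d)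
    (hP : ∀ f : Finset (Edge n) → ℝ,
        ((realizations d).card : ℝ) * (∑ G ∈ realizations d, f G ^ 2) -
            (∑ G ∈ realizations d, f G) ^ 2 ≤
          24 * (n : ℝ) ^ 2 * (n.choose 4 : ℝ) * (realizations d).card *
            ∑ G ∈ realizations d,
              f G * (f G - ∑ G' ∈ realizations d, kernel n G G' * f G')) (t : ℕ) :
    ∑ G' ∈ realizations d, cen d G (t + 1) G' ^ 2
      ≤ (1 - 1 / pcst n) * ∑ G' ∈ realizations d, cen d G t G' ^ 2 := by
  have hN : (0 : ℝ) < (realizations d).card := by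
    exact_mod_cast card_pos.mpr ⟨G, hG⟩
  have hC : 1 ≤ pcst n := one_le_pcst hn
  have hCpos : 0 < pcst n := by linarith
  rw [sum_congr rfl (fun G' hG' => by rw [cen_succ hn hG t hG'])]
  have h1 := sq_le_inner_of_lazy (realizations d) (kernel n)
    (fun x _ y _ => kernel_nonneg x y) (fun x _ => kernel_lazy x) kernel_symm
    (fun x hx => kernel_sum_realizations hn hx) (cen d G t)
  refine h1.trans ?_
  have h2 := hP (cen d G t)
  rw [cen_sum hn hG t] at h2
  have e : ∑ x ∈ realizations d, cen d G t x *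
      (cen d G t x - ∑ G' ∈ realizations d, kernel n x G' * cen d G t G')
      = ∑ x ∈ realizations d, cen d G t x ^ 2 -
        ∑ x ∈ realizations d, cen d G t x * ∑ G' ∈ realizations d, kernel n x G' * cen d G t G' := by
    rw [← sum_sub_distrib]
    apply sum_congr rfl
    intro x _
    ring
  rw [e] at h2
  set A := ∑ x ∈ realizations d, cen d G t x ^ 2 with hA
  set B := ∑ x ∈ realizations d,
    cen d G t x * ∑ G' ∈ realizations d, kernel n x G' * cen d G t G' with hB
  have h3 : ((realizations d).card : ℝ) * A ≤ ((realizations d).card : ℝ) * (pcst n * (A - B)) := by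
    have : 24 * (n : ℝ) ^ 2 * (n.choose 4 : ℝ) * (realizations d).card * (A - B)
        = ((realizations d).card : ℝ) * (pcst n * (A - B)) := by
      unfold pcst; ring
    rw [← this]
    linarith
  have h4 : A ≤ pcst n * (A - B) := le_of_mul_le_mul_left h3 hN
  have h5 : A / pcst n ≤ A - B := by
    rw [div_le_iff₀ hCpos]; linarith
  have : (1 - 1 / pcst n) * A = A - A / pcst n := by ring
  rw [this]
  linarith

theorem cen_pow (hn : 4 ≤ n) {d : Fin n → ℕ} {G : Finset (Edge n)}
    (hG : G ∈ realizations d)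
    (hP : ∀ f : Finset (Edge n) → ℝ,
        ((realizations d).card : ℝ) * (∑ G ∈ realizations d, f G ^ 2) -
            (∑ G ∈ realizations d, f G) ^ 2 ≤
          24 * (n : ℝ) ^ 2 * (n.choose 4 : ℝ) * (realizations d).card *
            ∑ G ∈ realizations d,
              f G * (f G - ∑ G' ∈ realizations d, kernel n G G' * f G')) (t : ℕ) :
    ∑ G' ∈ realizations d, cen d G t G' ^ 2 ≤ (1 - 1 / pcst n) ^ t := by
  have hC : 1 ≤ pcst n := one_le_pcst hn
  have hCpos : 0 < pcst n := by linarith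
  have hnn : 0 ≤ 1 - 1 / pcst n := by
    rw [sub_nonneg, div_le_one hCpos]; exact hC
  induction t with
  | zero =>
    have hN : (0 : ℝ) < (realizations d).card := by
      exact_mod_cast card_pos.mpr ⟨G, hG⟩
    have h0 : ∀ G' ∈ realizations d, cen d G 0 G' ^ 2
        = (if G = G' then 1 else 0) * (1 - 2 / ((realizations d).card : ℝ))
          + (1 / ((realizations d).card : ℝ)) ^ 2 := by
      intro G' _
      unfold cen
      rw [pow_zero, Matrix.one_apply]
      split_ifs <;> ring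
    rw [sum_congr rfl h0, sum_add_distrib, ← sum_mul]
    simp only [sum_ite_eq, hG, if_true, sum_const, nsmul_eq_mul, pow_zero, one_mul]
    have : ((realizations d).card : ℝ) * (1 / ((realizations d).card : ℝ)) ^ 2
        = 1 / ((realizations d).card : ℝ) := by field_simp
    rw [this]
    have h1 : 0 ≤ 1 / ((realizations d).card : ℝ) := by positivity
    have h2 : 2 / ((realizations d).card : ℝ) = 2 * (1 / ((realizations d).card : ℝ)) := by ring
    rw [h2]
    linarith
  | succ t ih =>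
    refine (cen_decay hn hG hP t).trans ?_
    rw [pow_succ, mul_comm]
    exact mul_le_mul_of_nonneg_right ih hnn

theorem card_realizations_le (d : Fin n → ℕ) :
    ((realizations d).card : ℝ) ≤ Real.exp ((n : ℝ) ^ 2 / 2) := by
  have h1 : (realizations d).card ≤ 2 ^ (n.choose 2) := by
    refine (card_le_univ _).trans ?_
    rw [Fintype.card_finset]
    apply Nat.pow_le_pow_right (by norm_num)
    rw [Sym2.card_subtype_not_diag, Fintype.card_fin]
  have h2 : ((realizations d).card : ℝ) ≤ 2 ^ (n.choose 2) := by exact_mod_cast h1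
  refine h2.trans ?_
  have h3 : (2 : ℝ) ≤ Real.exp 1 := by
    have := Real.add_one_le_exp (1 : ℝ)
    linarith
  calc (2 : ℝ) ^ (n.choose 2) ≤ (Real.exp 1) ^ (n.choose 2) :=
        pow_le_pow_left₀ (by norm_num) h3 _
    _ = Real.exp (n.choose 2 : ℝ) := by
        rw [← Real.exp_nat_mul, mul_one]
    _ ≤ Real.exp ((n : ℝ) ^ 2 / 2) := by
        apply Real.exp_le_exp.mpr
        rw [Nat.cast_choose_two]
        have : (0 : ℝ) ≤ n := Nat.cast_nonneg n
        nlinarith

/-- **TV bound from the Poincaré inequality.** -/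
theorem tv_of_poincare (hn : 4 ≤ n) (d : Fin n → ℕ)
    (hP : ∀ f : Finset (Edge n) → ℝ,
        ((realizations d).card : ℝ) * (∑ G ∈ realizations d, f G ^ 2) -
            (∑ G ∈ realizations d, f G) ^ 2 ≤
          24 * (n : ℝ) ^ 2 * (n.choose 4 : ℝ) * (realizations d).card *
            ∑ G ∈ realizations d,
              f G * (f G - ∑ G' ∈ realizations d, kernel n G G' * f G'))
    (G : Finset (Edge n)) (hG : G ∈ realizations d) :
    tvDist (fun G' => (kernel n ^ (2 * n ^ 8)) G G') (unifOn (realizations d)) ≤ 1 / 4 := by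
  set t := 2 * n ^ 8 with ht
  have hN : (0 : ℝ) < (realizations d).card := by
    exact_mod_cast card_pos.mpr ⟨G, hG⟩
  have hC : 1 ≤ pcst n := one_le_pcst hn
  have hCpos : 0 < pcst n := by linarith
  have hnpos : (4 : ℝ) ≤ n := by exact_mod_cast hn
  -- the TV distance as an `ℓ¹` norm on the realizations
  have e1 : ∑ a : Finset (Edge n), |(kernel n ^ t) G a - unifOn (realizations d) a|
      = ∑ a ∈ realizations d, |cen d G t a| := by
    rw [← sum_subset (subset_univ (realizations d))]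
    · apply sum_congr rfl
      intro a ha
      unfold cen unifOn
      rw [if_pos ha]
    · intro a _ ha
      unfold unifOn
      rw [if_neg ha, kernel_pow_eq_zero hG t a ha]
      simp
  have hcs : (∑ a ∈ realizations d, |cen d G t a|) ^ 2
      ≤ (realizations d).card * ∑ a ∈ realizations d, cen d G t a ^ 2 := by
    have := sq_sum_le_card_mul_sum_sq (s := realizations d) (f := fun a => |cen d G t a|)
    simpa [sq_abs] using this
  have hdec := cen_pow hn hG hP t
  have hexp : (1 - 1 / pcst n) ^ t ≤ Real.exp (-(2 * (n : ℝ) ^ 2)) := by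
    have h1 : 1 - 1 / pcst n ≤ Real.exp (-(1 / pcst n)) := by
      have := Real.add_one_le_exp (-(1 / pcst n))
      linarith
    have hnn : 0 ≤ 1 - 1 / pcst n := by
      rw [sub_nonneg, div_le_one hCpos]; exact hC
    calc (1 - 1 / pcst n) ^ t ≤ (Real.exp (-(1 / pcst n))) ^ t :=
          pow_le_pow_left₀ hnn h1 t
      _ = Real.exp (t * (-(1 / pcst n))) := by rw [Real.exp_nat_mul]
      _ ≤ Real.exp (-(2 * (n : ℝ) ^ 2)) := by
          apply Real.exp_le_exp.mpr
          have h2 : (2 * (n : ℝ) ^ 2) ≤ (t : ℝ) / pcst n := by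
            rw [le_div_iff₀ hCpos]
            have h3 : (t : ℝ) = 2 * (n : ℝ) ^ 8 := by rw [ht]; push_cast; ring
            rw [h3]
            have h4 := pcst_le n
            nlinarith [sq_nonneg (n : ℝ)]
          have h5 : (t : ℝ) * (-(1 / pcst n)) = -((t : ℝ) / pcst n) := by ring
          rw [h5]
          linarith
  have hfin : (∑ a ∈ realizations d, |cen d G t a|) ^ 2 ≤ (1 / 2) ^ 2 := by
    calc (∑ a ∈ realizations d, |cen d G t a|) ^ 2
        ≤ (realizations d).card * ∑ a ∈ realizations d, cen d G t a ^ 2 := hcs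
      _ ≤ (realizations d).card * (1 - 1 / pcst n) ^ t :=
          mul_le_mul_of_nonneg_left hdec hN.le
      _ ≤ Real.exp ((n : ℝ) ^ 2 / 2) * Real.exp (-(2 * (n : ℝ) ^ 2)) := by
          apply mul_le_mul (card_realizations_le d) hexp _ (Real.exp_nonneg _)
          apply pow_nonneg
          rw [sub_nonneg, div_le_one hCpos]; exact hC
      _ = Real.exp (-(3 / 2 * (n : ℝ) ^ 2)) := by
          rw [← Real.exp_add]; congr 1; ring
      _ ≤ Real.exp (-3) := by
          apply Real.exp_le_exp.mpr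
          nlinarith
      _ ≤ (1 / 2) ^ 2 := by
          rw [Real.exp_neg]
          have : (4 : ℝ) ≤ Real.exp 3 := by
            have := Real.add_one_le_exp (3 : ℝ)
            linarith
          calc (Real.exp 3)⁻¹ ≤ (4 : ℝ)⁻¹ := inv_anti₀ (by norm_num) this
            _ = (1 / 2) ^ 2 := by norm_num
  have h0 : 0 ≤ ∑ a ∈ realizations d, |cen d G t a| := sum_nonneg (fun _ _ => abs_nonneg _)
  have h1 : ∑ a ∈ realizations d, |cen d G t a| ≤ 1 / 2 :=
    abs_le_of_sq_le_sq' hfin (by norm_num) |>.2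
  unfold tvDist
  rw [e1]
  linarith

end Crest.Agent.R299
end

-- ▼ part R299/Final

/-!
Row 299 (S0453), task T11: transfer of the Poincaré inequality from `Sym2 (Fin n) → Bool` to the
switch graph on `Finset (Edge n)`.
-/

set_option autoImplicit false
open Finset

namespace Crest.Agent.R299

open Crest.SwitchChain

variable {n : ℕ}

/-! ### the two encodings of a graph -/

open Classical in
/-- indicator of an edge set on `Sym2` -/
noncomputable def toB (G : Finset (Edge n)) : Sym2 (Fin n) → Bool := fun e =>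
  decide (∃ h : ¬ e.IsDiag, (⟨e, h⟩ : Edge n) ∈ G)

/-- edge set of an indicator -/
def ofB (x : Sym2 (Fin n) → Bool) : Finset (Edge n) := univ.filter fun e => x e.1 = true

theorem mem_ofB {x : Sym2 (Fin n) → Bool} {e : Edge n} : e ∈ ofB x ↔ x e.1 = true := by
  simp [ofB]

theorem toB_iff {G : Finset (Edge n)} {e : Sym2 (Fin n)} :
    toB G e = true ↔ ∃ h : ¬ e.IsDiag, (⟨e, h⟩ : Edge n) ∈ G := by
  simp [toB]

theorem ofB_toB (G : Finset (Edge n)) : ofB (toB G) = G := by
  ext e
  rw [mem_ofB, toB_iff]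
  constructor
  · rintro ⟨_, h⟩; exact h
  · intro h; exact ⟨e.2, h⟩

theorem toB_ofB {x : Sym2 (Fin n) → Bool} (hx : ∀ v, x s(v, v) = false) : toB (ofB x) = x := by
  funext e
  rw [Bool.eq_iff_iff, toB_iff]
  constructor
  · rintro ⟨h, h'⟩; exact mem_ofB.mp h'
  · intro h
    have hd : ¬ e.IsDiag := by
      intro hd
      induction e using Sym2.ind with
      | _ a b =>
        rw [Sym2.mk_isDiag_iff] at hd
        subst hd
        rw [hx] at h
        exact Bool.false_ne_true h
    exact ⟨hd, mem_ofB.mpr h⟩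

/-- the degree of `v` in the graph `x` -/
def dg (x : Sym2 (Fin n) → Bool) (v : Fin n) : ℕ := ∑ w ∈ univ.erase v, (x s(v, w)).toNat

theorem deg_ofB (x : Sym2 (Fin n) → Bool) (v : Fin n) : deg (ofB x) v = dg x v := by
  unfold deg dg
  have h1 : ∑ w ∈ univ.erase v, (x s(v, w)).toNat
      = ((univ.erase v).filter fun w => x s(v, w) = true).card := by
    rw [card_filter]
    apply sum_congr rfl
    intro w _
    cases x s(v, w) <;> simp
  rw [h1]
  symm
  apply card_bij (fun w hw => mkE v w (by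
    rw [mem_filter, mem_erase] at hw; exact fun h => hw.1.1 h.symm))
  · intro w hw
    rw [mem_filter, mem_erase] at hw
    rw [mem_filter, mem_ofB]
    exact ⟨hw.2, by simp [mkE]⟩
  · intro a ha b hb hab
    rw [mkE_inj] at hab
    rw [mem_filter, mem_erase] at ha hb
    rcases hab with h | h
    · exact h.2
    · exact absurd h.1.symm hb.1.1
  · intro e he
    rw [mem_filter] at he
    obtain ⟨w, hw, rfl⟩ := exists_mkE e he.2
    refine ⟨w, ?_, rfl⟩
    rw [mem_filter, mem_erase]
    exact ⟨⟨hw.symm, mem_univ _⟩, mem_ofB.mp he.1⟩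

/-- the realizations as indicators -/
def realB (d : Fin n → ℕ) : Finset (Sym2 (Fin n) → Bool) :=
  univ.filter fun x => (∀ v, x s(v, v) = false) ∧ ∀ v, dg x v = d v

theorem mem_realB {d : Fin n → ℕ} {x : Sym2 (Fin n) → Bool} :
    x ∈ realB d ↔ (∀ v, x s(v, v) = false) ∧ ∀ v, dg x v = d v := by simp [realB]

theorem toB_diag (G : Finset (Edge n)) (v : Fin n) : toB G s(v, v) = false := by
  rw [← Bool.not_eq_true, toB_iff]
  rintro ⟨h, _⟩
  exact h (by simp)

theorem toB_mem {d : Fin n → ℕ} {G : Finset (Edge n)} (hG : G ∈ realizations d) :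
    toB G ∈ realB d := by
  rw [mem_realB]
  refine ⟨toB_diag G, fun v => ?_⟩
  rw [← deg_ofB, ofB_toB]
  exact mem_realizations.mp hG v

theorem ofB_mem {d : Fin n → ℕ} {x : Sym2 (Fin n) → Bool} (hx : x ∈ realB d) :
    ofB x ∈ realizations d := by
  rw [mem_realizations]
  intro v
  rw [deg_ofB]
  exact (mem_realB.mp hx).2 v

theorem sum_realB (d : Fin n → ℕ) (φ : Finset (Edge n) → ℝ) :
    ∑ x ∈ realB d, φ (ofB x) = ∑ G ∈ realizations d, φ G := by
  apply sum_bij' (fun x _ => ofB x) (fun G _ => toB G)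
  · intro x hx; exact ofB_mem hx
  · intro G hG; exact toB_mem hG
  · intro x hx; exact toB_ofB (mem_realB.mp hx).1
  · intro G _; exact ofB_toB G
  · intro x _; rfl

theorem card_realB (d : Fin n → ℕ) : (realB d).card = (realizations d).card := by
  apply card_bij' (fun x _ => ofB x) (fun G _ => toB G)
  · intro x hx; exact ofB_mem hx
  · intro G hG; exact toB_mem hG
  · intro x hx; exact toB_ofB (mem_realB.mp hx).1
  · intro G _; exact ofB_toB G

/-! ### the realizations are closed under trades -/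

theorem dg_split (x : Sym2 (Fin n) → Bool) {a b : Fin n} (hab : a ≠ b) :
    dg x a = (x s(a, b)).toNat + ∑ z ∈ cols a b, (x s(a, z)).toNat := by
  unfold dg cols
  have hb : b ∈ (univ : Finset (Fin n)).erase a := by simp [hab.symm]
  rw [← add_sum_erase _ _ hb]

theorem dg_split' (x : Sym2 (Fin n) → Bool) {a b v : Fin n} (hab : a ≠ b) (hva : v ≠ a)
    (hvb : v ≠ b) :
    dg x v = (x s(v, a)).toNat + (x s(v, b)).toNat
      + ∑ z ∈ ((univ.erase v).erase a).erase b, (x s(v, z)).toNat := by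
  unfold dg
  have ha : a ∈ (univ : Finset (Fin n)).erase v := by simp [hva.symm]
  have hb : b ∈ ((univ : Finset (Fin n)).erase v).erase a := by simp [hvb.symm, hab.symm]
  rw [← add_sum_erase _ _ ha, ← add_sum_erase _ _ hb, add_assoc]

theorem mem_cols_fin {a b z : Fin n} : z ∈ cols a b ↔ z ≠ a ∧ z ≠ b := by
  simp [cols, and_comm]

theorem grel_off {a b : Fin n} {x y : Sym2 (Fin n) → Bool} (h : grel a b x y) (e : Sym2 (Fin n))
    (he : ∀ z, z ≠ a → z ≠ b → e ≠ s(a, z) ∧ e ≠ s(b, z)) : x e = y e := by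
  apply h.1
  intro z hz
  rw [mem_cols_fin] at hz
  exact he z hz.1 hz.2

theorem realB_closed {d : Fin n → ℕ} {a b : Fin n} (hab : a ≠ b) {x y : Sym2 (Fin n) → Bool}
    (hx : x ∈ realB d) (h : grel a b x y) : y ∈ realB d := by
  rw [mem_realB] at hx ⊢
  have hdiag : ∀ v, x s(v, v) = y s(v, v) := by
    intro v
    apply grel_off h
    intro z hza hzb
    constructor
    · intro he
      rw [Sym2.eq_iff] at he
      rcases he with he | he
      · exact hza (he.2.symm.trans he.1)
      · exact hza (he.1.symm.trans he.2)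
    · intro he
      rw [Sym2.eq_iff] at he
      rcases he with he | he
      · exact hzb (he.2.symm.trans he.1)
      · exact hzb (he.1.symm.trans he.2)
  have hab' : x s(a, b) = y s(a, b) := by
    apply grel_off h
    intro z hza hzb
    constructor
    · intro he
      rw [Sym2.eq_iff] at he
      rcases he with he | he
      · exact hzb he.2.symm
      · exact hza he.1.symm
    · intro he
      rw [Sym2.eq_iff] at he
      rcases he with he | he
      · exact hzb he.2.symm
      · exact hza he.1.symm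
  have hcol : ∀ z ∈ cols a b, (x s(a, z)).toNat + (x s(b, z)).toNat
      = (y s(a, z)).toNat + (y s(b, z)).toNat := h.2.1
  have hrow : ∑ z ∈ cols a b, (x s(a, z)).toNat = ∑ z ∈ cols a b, (y s(a, z)).toNat := h.2.2
  have hrow' : ∑ z ∈ cols a b, (x s(b, z)).toNat = ∑ z ∈ cols a b, (y s(b, z)).toNat := by
    have := sum_congr (rfl : cols a b = cols a b) hcol
    rw [sum_add_distrib, sum_add_distrib, hrow] at this
    omega
  refine ⟨fun v => by rw [← hdiag v]; exact hx.1 v, fun v => ?_⟩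
  rw [← hx.2 v]
  by_cases hva : v = a
  · subst hva
    rw [dg_split _ hab, dg_split _ hab, hab', hrow]
  by_cases hvb : v = b
  · subst hvb
    have hc : cols v a = cols a v := by
      ext z; rw [mem_cols_fin, mem_cols_fin]; tauto
    rw [dg_split _ hab.symm, dg_split _ hab.symm, Sym2.eq_swap, hab', hc, hrow']
  rw [dg_split' _ hab hva hvb, dg_split' _ hab hva hvb]
  have hz := hcol v (mem_cols_fin.mpr ⟨hva, hvb⟩)
  rw [Sym2.eq_swap (a := a), Sym2.eq_swap (a := b)] at hz
  rw [← hz]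
  congr 1
  apply sum_congr rfl
  intro w hw
  simp only [mem_erase, mem_univ, and_true] at hw
  rw [grel_off h s(v, w)]
  intro z _ _
  constructor
  · intro he
    rw [Sym2.eq_iff] at he
    rcases he with he | he
    · exact hva he.1
    · exact hw.2.1 he.2
  · intro he
    rw [Sym2.eq_iff] at he
    rcases he with he | he
    · exact hvb he.1
    · exact hw.1 he.2

/-! ### switches -/

theorem sw_of_not {κ S : Type*} [DecidableEq κ] [DecidableEq S] {p q : κ → S} {c d : κ}
    {x : S → Bool} (h : ¬ Osep p q c d x) : sw p q c d x = x := by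
  funext e
  unfold sw
  rw [if_neg]
  rintro ⟨h', _⟩
  exact h h'

theorem sw_of {κ S : Type*} [DecidableEq κ] [DecidableEq S] {p q : κ → S} {c d : κ}
    {x : S → Bool} (h : Osep p q c d x) (e : S) :
    sw p q c d x e = if (e = p c ∨ e = p d ∨ e = q c ∨ e = q d) then !(x e) else x e := by
  unfold sw
  simp only [h, true_and]

theorem Osep.ne {κ S : Type*} [DecidableEq κ] [DecidableEq S] {p q : κ → S} {c d : κ}
    {x : S → Bool} (h : Osep p q c d x) : c ≠ d := by
  rintro rfl
  exact h.2.2 rfl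

theorem rel_sw' {κ S : Type*} [DecidableEq κ] [DecidableEq S] {p q : κ → S} {U : Finset κ}
    (hp : Set.InjOn p U) (hq : Set.InjOn q U) (hpq : ∀ z ∈ U, ∀ w ∈ U, p z ≠ q w) {c d : κ}
    (hc : c ∈ U) (hd : d ∈ U) (x : S → Bool) : rel p q U x (sw p q c d x) := by
  by_cases hO : Osep p q c d x
  swap
  · rw [sw_of_not hO]
  have hcd := hO.ne
  have hpc : sw p q c d x (p c) = !(x (p c)) := by rw [sw_of hO]; simp
  have hpd : sw p q c d x (p d) = !(x (p d)) := by rw [sw_of hO]; simp
  have hqc : sw p q c d x (q c) = !(x (q c)) := by rw [sw_of hO]; simp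
  have hqd : sw p q c d x (q d) = !(x (q d)) := by rw [sw_of hO]; simp
  have hpz : ∀ z ∈ U, z ≠ c → z ≠ d → sw p q c d x (p z) = x (p z) := by
    intro z hz hzc hzd
    rw [sw_of hO, if_neg]
    rintro (h | h | h | h)
    · exact hzc (hp hz hc h)
    · exact hzd (hp hz hd h)
    · exact hpq z hz c hc h
    · exact hpq z hz d hd h
  have hqz : ∀ z ∈ U, z ≠ c → z ≠ d → sw p q c d x (q z) = x (q z) := by
    intro z hz hzc hzd
    rw [sw_of hO, if_neg]
    rintro (h | h | h | h)
    · exact hpq c hc z hz h.symm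
    · exact hpq d hd z hz h.symm
    · exact hzc (hq hz hc h)
    · exact hzd (hq hz hd h)
  obtain ⟨h1, h2, h3⟩ := hO
  refine ⟨?_, ?_, ?_⟩
  · intro e he
    rw [sw_of ⟨h1, h2, h3⟩, if_neg]
    rintro (h | h | h | h)
    · exact (he c hc).1 h
    · exact (he d hd).1 h
    · exact (he c hc).2 h
    · exact (he d hd).2 h
  · intro z hz
    by_cases hzc : z = c
    · subst hzc
      rw [hpc, hqc]
      rw [h2] at h3
      revert h3
      cases x (p z) <;> cases x (q z) <;> simp
    by_cases hzd : z = d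
    · subst hzd
      rw [hpd, hqd]
      rw [h1] at h3
      revert h3
      cases x (p z) <;> cases x (q z) <;> simp
    rw [hpz z hz hzc hzd, hqz z hz hzc hzd]
  · have hd' : d ∈ U.erase c := mem_erase.mpr ⟨hcd.symm, hd⟩
    rw [← add_sum_erase _ _ hc, ← add_sum_erase _ _ hd', ← add_sum_erase U _ hc,
      ← add_sum_erase _ _ hd', hpc, hpd, ← add_assoc, ← add_assoc]
    congr 1
    · revert h3
      cases x (p c) <;> cases x (p d) <;> simp
    · apply sum_congr rfl
      intro z hz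
      simp only [mem_erase] at hz
      rw [hpz z hz.2.2 hz.2.1 hz.1]

theorem slot_inj (a : Fin n) (U : Set (Fin n)) :
    Set.InjOn (fun z => s(a, z)) U := by
  intro z _ w _ h
  simp only [Sym2.eq_iff] at h
  rcases h with h | h
  · exact h.2
  · exact h.2.trans h.1

theorem slot_ne {a b : Fin n} (hab : a ≠ b) : ∀ z ∈ cols a b, ∀ w ∈ cols a b,
    (fun z => s(a, z)) z ≠ (fun z => s(b, z)) w := by
  intro z hz w hw h
  rw [mem_cols_fin] at hz hw
  simp only [Sym2.eq_iff] at h
  rcases h with h | h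
  · exact hab h.1
  · exact hw.1 h.1.symm

/-- the switch for a tuple `(a, b, c, d)` -/
def SW (a b c d : Fin n) (x : Sym2 (Fin n) → Bool) : Sym2 (Fin n) → Bool :=
  sw (fun z => s(a, z)) (fun z => s(b, z)) c d x

theorem grel_SW {a b c d : Fin n} (hab : a ≠ b) (hc : c ∈ cols a b) (hd : d ∈ cols a b)
    (x : Sym2 (Fin n) → Bool) : grel a b x (SW a b c d x) :=
  rel_sw' (slot_inj a _) (slot_inj b _) (slot_ne hab) hc hd x

/-! ### restriction to the realizations -/

theorem restrict_T1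
    (hT1 : ∀ (p q : Fin n → Sym2 (Fin n)) (U : Finset (Fin n)), Set.InjOn p U → Set.InjOn q U →
      (∀ z ∈ U, ∀ w ∈ U, p z ≠ q w) → ∀ f : (Sym2 (Fin n) → Bool) → ℝ,
      ∑ x, (f x - cE (rel p q U) f x) ^ 2 ≤ (1 / 8) * ∑ c ∈ U, ∑ d ∈ U, en p q c d f)
    {d : Fin n → ℕ} {a b : Fin n} (hab : a ≠ b) (F : (Sym2 (Fin n) → Bool) → ℝ) :
    ∑ x ∈ realB d, hh a b F x ^ 2
      ≤ (1 / 8) * ∑ c ∈ cols a b, ∑ e ∈ cols a b, ∑ x ∈ realB d, (F x - F (SW a b c e x)) ^ 2 := by
  set g : (Sym2 (Fin n) → Bool) → ℝ := fun x => if x ∈ realB d then F x else 0 with hg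
  have h1 : ∀ x ∈ realB d, hh a b F x = g x - cE (grel a b) g x := by
    intro x hx
    unfold hh
    have : cE (grel a b) F x = cE (grel a b) g x := by
      apply cE_eq_of_eqOn
      intro y hy
      simp only [hg]
      rw [if_pos (realB_closed hab hx hy)]
    rw [this]
    simp only [hg]
    rw [if_pos hx]
  have h2 := hT1 (fun z => s(a, z)) (fun z => s(b, z)) (cols a b) (slot_inj a _) (slot_inj b _)
    (slot_ne hab) g
  have h3 : ∑ x ∈ realB d, hh a b F x ^ 2 ≤ ∑ x, (g x - cE (grel a b) g x) ^ 2 := by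
    rw [sum_congr rfl fun x hx => by rw [h1 x hx]]
    exact sum_le_sum_of_subset_of_nonneg (subset_univ _) fun x _ _ => sq_nonneg _
  refine h3.trans (h2.trans (le_of_eq ?_))
  congr 1
  apply sum_congr rfl
  intro c hc
  apply sum_congr rfl
  intro e he
  unfold en
  rw [← sum_subset (subset_univ (realB d))]
  · apply sum_congr rfl
    intro x hx
    simp only [hg]
    rw [if_pos hx]
    have := realB_closed hab hx (grel_SW hab hc he x)
    unfold SW at this
    rw [if_pos this]
    rfl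
  · intro x _ hx
    simp only [hg]
    rw [if_neg hx]
    have : SW a b c e x ∉ realB d := fun h =>
      hx (realB_closed hab h ((grel a b).symm' (grel_SW hab hc he x)))
    unfold SW at this
    rw [if_neg this]
    simp

/-! ### a switch is a `SwitchAdj` pair -/

theorem osep_of_ne {a b c d : Fin n} {x : Sym2 (Fin n) → Bool} (h : SW a b c d x ≠ x) :
    Osep (fun z => s(a, z)) (fun z => s(b, z)) c d x := by
  by_contra h'
  exact h (sw_of_not h')

theorem SW_apply {a b c d : Fin n} {x : Sym2 (Fin n) → Bool}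
    (h : Osep (fun z => s(a, z)) (fun z => s(b, z)) c d x) (e : Sym2 (Fin n)) :
    SW a b c d x e =
      if (e = s(a, c) ∨ e = s(a, d) ∨ e = s(b, c) ∨ e = s(b, d)) then !(x e) else x e :=
  sw_of h e

theorem adj_SW {a b c d : Fin n} (hab : a ≠ b) (hc : c ∈ cols a b) (hd : d ∈ cols a b)
    {x : Sym2 (Fin n) → Bool} (h : SW a b c d x ≠ x) :
    SwitchAdj (ofB x) (ofB (SW a b c d x)) := by
  have hO := osep_of_ne h
  have hcd := hO.ne
  have hS := SW_apply hO
  obtain ⟨h1, h2, h3⟩ := hO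
  rw [mem_cols_fin] at hc hd
  have hval : ∀ (u v : Fin n) (huv : u ≠ v), (mkE u v huv).1 = s(u, v) := fun _ _ _ => rfl
  simp only at h1 h2 h3
  rcases Bool.eq_false_or_eq_true (x s(a, c)) with hac | hac
  · -- `ac`, `bd` present
    have hbd : x s(b, d) = true := by rw [← h1]; exact hac
    have had : x s(a, d) = false := by
      rw [hac] at h3
      simpa using h3.symm
    have hbc : x s(b, c) = false := by rw [← h2]; exact had
    refine ⟨a, c, d, b, hc.1.symm, hd.2, hd.1.symm, hc.2, hab, hcd, ?_, ?_, ?_, ?_, ?_⟩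
    · rw [mem_ofB, hval]; exact hac
    · rw [mem_ofB, hval, Sym2.eq_swap]; exact hbd
    · rw [mem_ofB, hval, had]; simp
    · rw [mem_ofB, hval, Sym2.eq_swap, hbc]; simp
    · ext e
      have e1 : e = mkE a c hc.1.symm ↔ e.1 = s(a, c) := by rw [Subtype.ext_iff, hval]
      have e2 : e = mkE d b hd.2 ↔ e.1 = s(b, d) := by rw [Subtype.ext_iff, hval, Sym2.eq_swap]
      have e3 : e = mkE a d hd.1.symm ↔ e.1 = s(a, d) := by rw [Subtype.ext_iff, hval]
      have e4 : e = mkE c b hc.2 ↔ e.1 = s(b, c) := by rw [Subtype.ext_iff, hval, Sym2.eq_swap]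
      simp only [mem_union, mem_sdiff, mem_insert, mem_singleton, mem_ofB, hS, e1, e2, e3, e4]
      by_cases q1 : e.1 = s(a, c)
      · rw [q1]
        have : s(a, c) ≠ s(a, d) := by
          intro h'; rw [h'] at hac; rw [had] at hac; exact Bool.false_ne_true hac
        have : s(a, c) ≠ s(b, c) := by
          intro h'; rw [h'] at hac; rw [hbc] at hac; exact Bool.false_ne_true hac
        simp [*]
      by_cases q2 : e.1 = s(b, d)
      · rw [q2]
        have : s(b, d) ≠ s(a, d) := by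
          intro h'; rw [h'] at hbd; rw [had] at hbd; exact Bool.false_ne_true hbd
        have : s(b, d) ≠ s(b, c) := by
          intro h'; rw [h'] at hbd; rw [hbc] at hbd; exact Bool.false_ne_true hbd
        simp [*]
      by_cases q3 : e.1 = s(a, d)
      · simp [q3, had]
      by_cases q4 : e.1 = s(b, c)
      · simp [q4, hbc]
      simp [q1, q2, q3, q4]
  · -- `ad`, `bc` present
    have hbd : x s(b, d) = false := by rw [← h1]; exact hac
    have had : x s(a, d) = true := by
      rw [hac] at h3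
      simpa using h3.symm
    have hbc : x s(b, c) = true := by rw [← h2]; exact had
    refine ⟨a, d, c, b, hd.1.symm, hc.2, hc.1.symm, hd.2, hab, hcd.symm, ?_, ?_, ?_, ?_, ?_⟩
    · rw [mem_ofB, hval]; exact had
    · rw [mem_ofB, hval, Sym2.eq_swap]; exact hbc
    · rw [mem_ofB, hval, hac]; simp
    · rw [mem_ofB, hval, Sym2.eq_swap, hbd]; simp
    · ext e
      have e1 : e = mkE a c hc.1.symm ↔ e.1 = s(a, c) := by rw [Subtype.ext_iff, hval]
      have e2 : e = mkE d b hd.2 ↔ e.1 = s(b, d) := by rw [Subtype.ext_iff, hval, Sym2.eq_swap]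
      have e3 : e = mkE a d hd.1.symm ↔ e.1 = s(a, d) := by rw [Subtype.ext_iff, hval]
      have e4 : e = mkE c b hc.2 ↔ e.1 = s(b, c) := by rw [Subtype.ext_iff, hval, Sym2.eq_swap]
      simp only [mem_union, mem_sdiff, mem_insert, mem_singleton, mem_ofB, hS, e1, e2, e3, e4]
      by_cases q1 : e.1 = s(a, d)
      · rw [q1]
        have : s(a, d) ≠ s(a, c) := by
          intro h'; rw [h'] at had; rw [hac] at had; exact Bool.false_ne_true had
        have : s(a, d) ≠ s(b, d) := by
          intro h'; rw [h'] at had; rw [hbd] at had; exact Bool.false_ne_true had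
        simp [*]
      by_cases q2 : e.1 = s(b, c)
      · rw [q2]
        have : s(b, c) ≠ s(a, c) := by
          intro h'; rw [h'] at hbc; rw [hac] at hbc; exact Bool.false_ne_true hbc
        have : s(b, c) ≠ s(b, d) := by
          intro h'; rw [h'] at hbc; rw [hbd] at hbc; exact Bool.false_ne_true hbc
        simp [*]
      by_cases q3 : e.1 = s(a, c)
      · simp [q3, hac]
      by_cases q4 : e.1 = s(b, d)
      · simp [q4, hbd]
      simp [q1, q2, q3, q4]

/-! ### counting the tuples of a given switch -/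

/-- vertices at which `x` and `y` differ -/
def diffV (x y : Sym2 (Fin n) → Bool) : Finset (Fin n) :=
  univ.filter fun v => ∃ w, x s(v, w) ≠ y s(v, w)

theorem mem_diffV {x y : Sym2 (Fin n) → Bool} {v : Fin n} :
    v ∈ diffV x y ↔ ∃ w, x s(v, w) ≠ y s(v, w) := by simp [diffV]

theorem diffV_subset {a b c d : Fin n} {x : Sym2 (Fin n) → Bool} :
    diffV x (SW a b c d x) ⊆ {a, b, c, d} := by
  intro v hv
  rw [mem_diffV] at hv
  obtain ⟨w, hw⟩ := hv
  by_cases hO : Osep (fun z => s(a, z)) (fun z => s(b, z)) c d x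
  · rw [SW_apply hO] at hw
    split_ifs at hw with h
    · simp only [Sym2.eq_iff] at h
      simp only [mem_insert, mem_singleton]
      tauto
    · exact absurd rfl hw
  · exfalso
    apply hw
    unfold SW
    rw [sw_of_not hO]

theorem card_diffV_le {a b c d : Fin n} {x : Sym2 (Fin n) → Bool} :
    (diffV x (SW a b c d x)).card ≤ 4 :=
  (card_le_card diffV_subset).trans card_le_four

theorem mem_diffV_of_ne {a b c d : Fin n} {x : Sym2 (Fin n) → Bool} (h : SW a b c d x ≠ x) :
    a ∈ diffV x (SW a b c d x) ∧ b ∈ diffV x (SW a b c d x) ∧ c ∈ diffV x (SW a b c d x) ∧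
      d ∈ diffV x (SW a b c d x) := by
  have hO := osep_of_ne h
  have hS := SW_apply hO
  refine ⟨?_, ?_, ?_, ?_⟩
  · rw [mem_diffV]
    refine ⟨c, ?_⟩
    rw [hS, if_pos (Or.inl rfl)]
    cases x s(a, c) <;> simp
  · rw [mem_diffV]
    refine ⟨c, ?_⟩
    rw [hS, if_pos (Or.inr (Or.inr (Or.inl rfl)))]
    cases x s(b, c) <;> simp
  · rw [mem_diffV]
    refine ⟨a, ?_⟩
    rw [Sym2.eq_swap, hS, if_pos (Or.inl rfl)]
    cases x s(a, c) <;> simp
  · rw [mem_diffV]
    refine ⟨a, ?_⟩
    rw [Sym2.eq_swap, hS, if_pos (Or.inr (Or.inl rfl))]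
    cases x s(a, d) <;> simp

/-- the admissible tuples -/
def tup (n : ℕ) : Finset (Fin n × Fin n × Fin n × Fin n) :=
  univ.filter fun t => t.2.1 ≠ t.1 ∧ t.2.2.1 ∈ cols t.1 t.2.1 ∧ t.2.2.2 ∈ cols t.1 t.2.1

theorem mem_tup {t : Fin n × Fin n × Fin n × Fin n} :
    t ∈ tup n ↔ t.2.1 ≠ t.1 ∧ t.2.2.1 ∈ cols t.1 t.2.1 ∧ t.2.2.2 ∈ cols t.1 t.2.1 := by
  simp [tup]

theorem sum_tup (ψ : Fin n → Fin n → Fin n → Fin n → ℝ) :
    ∑ a, ∑ b ∈ univ.erase a, ∑ c ∈ cols a b, ∑ e ∈ cols a b, ψ a b c e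
      = ∑ t ∈ tup n, ψ t.1 t.2.1 t.2.2.1 t.2.2.2 := by
  unfold tup
  rw [sum_filter, Fintype.sum_prod_type]
  apply sum_congr rfl
  intro a _
  rw [Fintype.sum_prod_type]
  have : (univ : Finset (Fin n)).erase a = univ.filter fun b => b ≠ a := by
    ext b; simp
  rw [this, sum_filter]
  apply sum_congr rfl
  intro b _
  rw [Fintype.sum_prod_type]
  split_ifs with hb
  · have hc : cols a b = univ.filter fun z => z ∈ cols a b := by ext z; simp
    conv_lhs => rw [hc]
    rw [sum_filter]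
    apply sum_congr rfl
    intro c _
    split_ifs with h1
    · rw [sum_filter]
      apply sum_congr rfl
      intro e _
      by_cases h2 : e ∈ cols a b
      · rw [if_pos h2, if_pos ⟨hb, h1, h2⟩]
      · rw [if_neg h2, if_neg]
        rintro ⟨_, _, h⟩; exact h2 h
    · symm
      apply sum_eq_zero
      intro e _
      rw [if_neg]
      rintro ⟨_, h, _⟩; exact h1 h
  · symm
    apply sum_eq_zero
    intro c _
    apply sum_eq_zero
    intro e _
    rw [if_neg]
    rintro ⟨h, _⟩
    exact hb h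

open Classical in
theorem count_le {d : Fin n → ℕ} (F : (Sym2 (Fin n) → Bool) → ℝ) {x : Sym2 (Fin n) → Bool}
    (hx : x ∈ realB d) :
    ∑ t ∈ tup n, (F x - F (SW t.1 t.2.1 t.2.2.1 t.2.2.2 x)) ^ 2
      ≤ 256 * ∑ y ∈ realB d, if SwitchAdj (ofB x) (ofB y) then (F x - F y) ^ 2 else 0 := by
  have h1 : ∀ t ∈ tup n, (F x - F (SW t.1 t.2.1 t.2.2.1 t.2.2.2 x)) ^ 2
      = ∑ y ∈ realB d, if SW t.1 t.2.1 t.2.2.1 t.2.2.2 x = y then (F x - F y) ^ 2 else 0 := by
    intro t ht
    rw [mem_tup] at ht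
    rw [sum_ite_eq, if_pos]
    exact realB_closed ht.1.symm hx (grel_SW ht.1.symm ht.2.1 ht.2.2 x)
  rw [sum_congr rfl h1, sum_comm, mul_sum]
  apply sum_le_sum
  intro y _
  rw [← sum_filter, sum_const, nsmul_eq_mul]
  by_cases hyx : y = x
  · subst hyx
    simp only [sub_self, ne_eq, OfNat.ofNat_ne_zero, not_false_eq_true, zero_pow, mul_zero]
    split_ifs <;> simp
  rcases (filter (fun t : Fin n × Fin n × Fin n × Fin n =>
      SW t.1 t.2.1 t.2.2.1 t.2.2.2 x = y) (tup n)).eq_empty_or_nonempty with he | hne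
  · rw [he, card_empty, Nat.cast_zero, zero_mul]
    split_ifs <;> positivity
  obtain ⟨t0, ht0⟩ := hne
  rw [mem_filter, mem_tup] at ht0
  obtain ⟨⟨hb0, hc0, hd0⟩, hy0⟩ := ht0
  have hne0 : SW t0.1 t0.2.1 t0.2.2.1 t0.2.2.2 x ≠ x := by rw [hy0]; exact hyx
  have hadj := adj_SW hb0.symm hc0 hd0 hne0
  rw [hy0] at hadj
  rw [if_pos hadj]
  apply mul_le_mul_of_nonneg_right _ (sq_nonneg _)
  have hsub : filter (fun t : Fin n × Fin n × Fin n × Fin n =>
      SW t.1 t.2.1 t.2.2.1 t.2.2.2 x = y) (tup n)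
      ⊆ diffV x y ×ˢ diffV x y ×ˢ diffV x y ×ˢ diffV x y := by
    intro t ht
    rw [mem_filter] at ht
    have hne : SW t.1 t.2.1 t.2.2.1 t.2.2.2 x ≠ x := by rw [ht.2]; exact hyx
    have := mem_diffV_of_ne hne
    rw [ht.2] at this
    simp only [mem_product]
    exact this
  have hcard : (diffV x y).card ≤ 4 := by
    rw [← hy0]; exact card_diffV_le
  have hle := card_le_card hsub
  rw [card_product, card_product, card_product] at hle
  have h4 : (diffV x y).card * ((diffV x y).card * ((diffV x y).card * (diffV x y).card))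
      ≤ 4 * (4 * (4 * 4)) := by
    gcongr
  have : (filter (fun t : Fin n × Fin n × Fin n × Fin n =>
      SW t.1 t.2.1 t.2.2.1 t.2.2.2 x = y) (tup n)).card ≤ 256 := by omega
  exact_mod_cast this

open Classical in
/-- **T11**: the hypothesis of `poincare_of_switchAdj`. -/
theorem switch_poincare (hn : 4 ≤ n)
    (hT1 : ∀ (p q : Fin n → Sym2 (Fin n)) (U : Finset (Fin n)), Set.InjOn p U → Set.InjOn q U →
      (∀ z ∈ U, ∀ w ∈ U, p z ≠ q w) → ∀ f : (Sym2 (Fin n) → Bool) → ℝ,
      ∑ x, (f x - cE (rel p q U) f x) ^ 2 ≤ (1 / 8) * ∑ c ∈ U, ∑ d ∈ U, en p q c d f)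
    (hT9 : ∀ C : Finset (Sym2 (Fin n) → Bool),
      (∀ a b : Fin n, a ≠ b → ∀ x y, x ∈ C → grel a b x y → y ∈ C) →
      (∀ g : (Sym2 (Fin n) → Bool) → ℝ, (∀ a b, a ≠ b → ∀ x y, grel a b x y → g x = g y) →
        ∀ x ∈ C, ∀ y ∈ C, g x = g y) →
      ∀ f : (Sym2 (Fin n) → Bool) → ℝ,
      (C.card : ℝ) * (∑ x ∈ C, f x ^ 2) - (∑ x ∈ C, f x) ^ 2
        ≤ (C.card : ℝ) * ((1 / 2) * ∑ a, ∑ b ∈ univ.erase a, ∑ x ∈ C, hh a b f x ^ 2))
    (hT10 : ∀ g : (Sym2 (Fin n) → Bool) → ℝ,
      (∀ a b, a ≠ b → ∀ x y, grel a b x y → g x = g y) → ∀ x y : Sym2 (Fin n) → Bool,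
      (∀ v, x s(v, v) = y s(v, v)) →
      (∀ v, ∑ w ∈ univ.erase v, (x s(v, w)).toNat = ∑ w ∈ univ.erase v, (y s(v, w)).toNat) →
      g x = g y)
    (d : Fin n → ℕ) (f : Finset (Edge n) → ℝ) :
    ((realizations d).card : ℝ) * (∑ G ∈ realizations d, f G ^ 2) -
            (∑ G ∈ realizations d, f G) ^ 2 ≤
          (n : ℝ) ^ 2 * (realizations d).card *
            ∑ G ∈ realizations d, ∑ G' ∈ realizations d,
              if SwitchAdj G G' then (f G - f G') ^ 2 else 0 := by
  set F : (Sym2 (Fin n) → Bool) → ℝ := fun x => f (ofB x) with hF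
  have h9 := hT9 (realB d) (fun a b hab x y hx h => realB_closed hab hx h)
    (fun g hg x hx y hy => hT10 g hg x y
      (fun v => by rw [(mem_realB.mp hx).1, (mem_realB.mp hy).1])
      (fun v => ((mem_realB.mp hx).2 v).trans ((mem_realB.mp hy).2 v).symm)) F
  rw [card_realB, sum_realB d (fun G => f G ^ 2), sum_realB d f] at h9
  refine h9.trans ?_
  have hS : ∑ x ∈ realB d, ∑ y ∈ realB d,
        (if SwitchAdj (ofB x) (ofB y) then (F x - F y) ^ 2 else 0)
      = ∑ G ∈ realizations d, ∑ G' ∈ realizations d,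
          (if SwitchAdj G G' then (f G - f G') ^ 2 else 0) := by
    rw [← sum_realB d (fun G => ∑ G' ∈ realizations d,
      (if SwitchAdj G G' then (f G - f G') ^ 2 else 0))]
    apply sum_congr rfl
    intro x _
    rw [← sum_realB d (fun G' => (if SwitchAdj (ofB x) G' then (f (ofB x) - f G') ^ 2 else 0))]
  rw [← hS]
  set Sg := ∑ x ∈ realB d, ∑ y ∈ realB d,
        (if SwitchAdj (ofB x) (ofB y) then (F x - F y) ^ 2 else 0) with hSg
  have hSg0 : 0 ≤ Sg := by
    apply sum_nonneg; intro x _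
    apply sum_nonneg; intro y _
    split_ifs <;> positivity
  have hA : ∑ a, ∑ b ∈ univ.erase a, ∑ x ∈ realB d, hh a b F x ^ 2
      ≤ (1 / 8) * (256 * Sg) := by
    calc ∑ a, ∑ b ∈ univ.erase a, ∑ x ∈ realB d, hh a b F x ^ 2
        ≤ ∑ a, ∑ b ∈ univ.erase a, (1 / 8) * ∑ c ∈ cols a b, ∑ e ∈ cols a b,
            ∑ x ∈ realB d, (F x - F (SW a b c e x)) ^ 2 := by
          apply sum_le_sum; intro a _
          apply sum_le_sum; intro b hb
          exact restrict_T1 hT1 (ne_of_mem_erase hb).symm F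
      _ = (1 / 8) * ∑ a, ∑ b ∈ univ.erase a, ∑ c ∈ cols a b, ∑ e ∈ cols a b,
            ∑ x ∈ realB d, (F x - F (SW a b c e x)) ^ 2 := by
          simp only [mul_sum]
      _ = (1 / 8) * ∑ x ∈ realB d, ∑ t ∈ tup n,
            (F x - F (SW t.1 t.2.1 t.2.2.1 t.2.2.2 x)) ^ 2 := by
          rw [sum_tup (fun a b c e => ∑ x ∈ realB d, (F x - F (SW a b c e x)) ^ 2), sum_comm]
      _ ≤ (1 / 8) * ∑ x ∈ realB d, 256 * ∑ y ∈ realB d,
            (if SwitchAdj (ofB x) (ofB y) then (F x - F y) ^ 2 else 0) := by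
          apply mul_le_mul_of_nonneg_left _ (by norm_num)
          apply sum_le_sum
          intro x hx
          exact count_le F hx
      _ = (1 / 8) * (256 * Sg) := by rw [← mul_sum]
  have hn' : (4 : ℝ) ≤ n := by exact_mod_cast hn
  have hcard : (0 : ℝ) ≤ (realizations d).card := Nat.cast_nonneg _
  have hn2 : (16 : ℝ) ≤ (n : ℝ) ^ 2 := by nlinarith
  calc ((realizations d).card : ℝ) * ((1 / 2) * ∑ a, ∑ b ∈ univ.erase a, ∑ x ∈ realB d,
        hh a b F x ^ 2)
      ≤ ((realizations d).card : ℝ) * ((1 / 2) * ((1 / 8) * (256 * Sg))) := by gcongr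
    _ = 16 * ((realizations d).card * Sg) := by ring
    _ ≤ (n : ℝ) ^ 2 * ((realizations d).card * Sg) := by gcongr
    _ = (n : ℝ) ^ 2 * (realizations d).card * Sg := by ring

/-- The Poincaré part of S0453, from T1, T9, T10. -/
theorem final_poincare (hn : 4 ≤ n)
    (hT1 : ∀ (p q : Fin n → Sym2 (Fin n)) (U : Finset (Fin n)), Set.InjOn p U → Set.InjOn q U →
      (∀ z ∈ U, ∀ w ∈ U, p z ≠ q w) → ∀ f : (Sym2 (Fin n) → Bool) → ℝ,
      ∑ x, (f x - cE (rel p q U) f x) ^ 2 ≤ (1 / 8) * ∑ c ∈ U, ∑ d ∈ U, en p q c d f)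
    (hT9 : ∀ C : Finset (Sym2 (Fin n) → Bool),
      (∀ a b : Fin n, a ≠ b → ∀ x y, x ∈ C → grel a b x y → y ∈ C) →
      (∀ g : (Sym2 (Fin n) → Bool) → ℝ, (∀ a b, a ≠ b → ∀ x y, grel a b x y → g x = g y) →
        ∀ x ∈ C, ∀ y ∈ C, g x = g y) →
      ∀ f : (Sym2 (Fin n) → Bool) → ℝ,
      (C.card : ℝ) * (∑ x ∈ C, f x ^ 2) - (∑ x ∈ C, f x) ^ 2
        ≤ (C.card : ℝ) * ((1 / 2) * ∑ a, ∑ b ∈ univ.erase a, ∑ x ∈ C, hh a b f x ^ 2))
    (hT10 : ∀ g : (Sym2 (Fin n) → Bool) → ℝ,
      (∀ a b, a ≠ b → ∀ x y, grel a b x y → g x = g y) → ∀ x y : Sym2 (Fin n) → Bool,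
      (∀ v, x s(v, v) = y s(v, v)) →
      (∀ v, ∑ w ∈ univ.erase v, (x s(v, w)).toNat = ∑ w ∈ univ.erase v, (y s(v, w)).toNat) →
      g x = g y)
    (d : Fin n → ℕ) (f : Finset (Edge n) → ℝ) :
    ((realizations d).card : ℝ) * (∑ G ∈ realizations d, f G ^ 2) -
            (∑ G ∈ realizations d, f G) ^ 2 ≤
          24 * (n : ℝ) ^ 2 * (n.choose 4 : ℝ) * (realizations d).card *
            ∑ G ∈ realizations d,
              f G * (f G - ∑ G' ∈ realizations d, kernel n G G' * f G') :=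
  poincare_of_switchAdj hn d f (switch_poincare hn hT1 hT9 hT10 d f)

/-- **S0453 from T1, T9, T10.** -/
theorem final_S0453 (hn : 4 ≤ n)
    (hT1 : ∀ (p q : Fin n → Sym2 (Fin n)) (U : Finset (Fin n)), Set.InjOn p U → Set.InjOn q U →
      (∀ z ∈ U, ∀ w ∈ U, p z ≠ q w) → ∀ f : (Sym2 (Fin n) → Bool) → ℝ,
      ∑ x, (f x - cE (rel p q U) f x) ^ 2 ≤ (1 / 8) * ∑ c ∈ U, ∑ d ∈ U, en p q c d f)
    (hT9 : ∀ C : Finset (Sym2 (Fin n) → Bool),
      (∀ a b : Fin n, a ≠ b → ∀ x y, x ∈ C → grel a b x y → y ∈ C) →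
      (∀ g : (Sym2 (Fin n) → Bool) → ℝ, (∀ a b, a ≠ b → ∀ x y, grel a b x y → g x = g y) →
        ∀ x ∈ C, ∀ y ∈ C, g x = g y) →
      ∀ f : (Sym2 (Fin n) → Bool) → ℝ,
      (C.card : ℝ) * (∑ x ∈ C, f x ^ 2) - (∑ x ∈ C, f x) ^ 2
        ≤ (C.card : ℝ) * ((1 / 2) * ∑ a, ∑ b ∈ univ.erase a, ∑ x ∈ C, hh a b f x ^ 2))
    (hT10 : ∀ g : (Sym2 (Fin n) → Bool) → ℝ,
      (∀ a b, a ≠ b → ∀ x y, grel a b x y → g x = g y) → ∀ x y : Sym2 (Fin n) → Bool,
      (∀ v, x s(v, v) = y s(v, v)) →
      (∀ v, ∑ w ∈ univ.erase v, (x s(v, w)).toNat = ∑ w ∈ univ.erase v, (y s(v, w)).toNat) →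
      g x = g y)
    (d : Fin n → ℕ) :
    (∃ t : ℕ, t ≤ 2 * n ^ 8 ∧ ∀ G ∈ Crest.SwitchChain.realizations d,
        Crest.SwitchChain.tvDist (fun G' => (Crest.SwitchChain.kernel n ^ t) G G')
          (Crest.SwitchChain.unifOn (Crest.SwitchChain.realizations d)) ≤ 1 / 4) ∧
      ∀ f : Finset (Crest.SwitchChain.Edge n) → ℝ,
        ((Crest.SwitchChain.realizations d).card : ℝ) *
              (∑ G ∈ Crest.SwitchChain.realizations d, f G ^ 2) -
            (∑ G ∈ Crest.SwitchChain.realizations d, f G) ^ 2 ≤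
          24 * (n : ℝ) ^ 2 * (n.choose 4 : ℝ) * (Crest.SwitchChain.realizations d).card *
            ∑ G ∈ Crest.SwitchChain.realizations d,
              f G * (f G - ∑ G' ∈ Crest.SwitchChain.realizations d,
                Crest.SwitchChain.kernel n G G' * f G') := by
  refine ⟨⟨2 * n ^ 8, le_refl _, fun G hG => ?_⟩, fun f => final_poincare hn hT1 hT9 hT10 d f⟩
  exact tv_of_poincare hn d (fun f => final_poincare hn hT1 hT9 hT10 d f) G hG

end Crest.Agent.R299
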