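import Mathlib
import Crest.Agent.R299.Defs
import Crest.Agent.R299.ClassParam
import Crest.Agent.R299.Spectral

-- ▼ part R299/Main
section

/-!
Row 299, T8: assembly of the main inequality.
-/

set_option autoImplicit false
open Finset

namespace Crest.Agent.R299

section graph

variable {V : Type*} [Fintype V] [DecidableEq V]

theorem cols_comm (a b : V) : cols a b = cols b a := by
  unfold cols
  exact erase_right_comm

theorem mem_cols {a b z : V} : z ∈ cols a b ↔ z ≠ a ∧ z ≠ b := by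
  unfold cols
  simp [and_comm]

theorem grel_comm (a b : V) : grel a b = grel b a := by
  apply Setoid.ext
  intro x y
  -- the row sums of the other row are determined by the column sums
  have key : ∀ a b : V, ∀ x y : Sym2 V → Bool, grel a b x y → grel b a x y := by
    intro a b x y h
    obtain ⟨h1, h2, h3⟩ := (rel_iff (p := fun z => s(a, z)) (q := fun z => s(b, z))
      (U := cols a b)).mp h
    refine (rel_iff (p := fun z => s(b, z)) (q := fun z => s(a, z)) (U := cols b a)).mpr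
      ⟨?_, ?_, ?_⟩
    · intro e he
      apply h1
      intro z hz
      have := he z (by rw [cols_comm]; exact hz)
      exact ⟨this.2, this.1⟩
    · intro z hz
      have := h2 z (by rw [cols_comm]; exact hz)
      omega
    · rw [cols_comm b a]
      have hs : ∑ z ∈ cols a b, ((x s(a, z)).toNat + (x s(b, z)).toNat)
          = ∑ z ∈ cols a b, ((y s(a, z)).toNat + (y s(b, z)).toNat) :=
        sum_congr rfl fun z hz => h2 z hz
      rw [sum_add_distrib, sum_add_distrib] at hs
      have h3' : ∑ z ∈ cols a b, (x s(a, z)).toNat = ∑ z ∈ cols a b, (y s(a, z)).toNat := h3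
      show ∑ z ∈ cols a b, (x s(b, z)).toNat = ∑ z ∈ cols a b, (y s(b, z)).toNat
      omega
  exact ⟨key a b x y, key b a x y⟩

theorem hh_comm (a b : V) (f : (Sym2 V → Bool) → ℝ) : hh a b f = hh b a f := by
  funext x
  unfold hh
  rw [grel_comm]

/-- split a sum over all vertices -/
theorem sum_split2 (a b : V) (hab : a ≠ b) (φ : V → ℝ) :
    ∑ c, φ c = φ a + φ b + ∑ c ∈ cols a b, φ c := by
  unfold cols
  rw [← add_sum_erase univ φ (mem_univ a), ← add_sum_erase (univ.erase a) φ (a := b)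
    (by simp [hab.symm])]
  ring

theorem sum_erase_eq' (s : Finset V) (φ : V → ℝ) (c : V) (hc : c ∈ s) :
    ∑ d ∈ s.erase c, φ d = ∑ d ∈ s, φ d - φ c := by
  rw [← add_sum_erase s φ hc]; ring

theorem sum_pairs_main (a b : V) (hab : a ≠ b) (G : V → V → ℝ) :
    ∑ c, ∑ d ∈ univ.erase c, G c d = G a b + G b a
      + ∑ d ∈ cols a b, G a d + ∑ d ∈ cols a b, G b d
      + ∑ c ∈ cols a b, G c a + ∑ c ∈ cols a b, G c b
      + ∑ c ∈ cols a b, ∑ d ∈ (cols a b).erase c, G c d := by
  have e1 : ∀ c, ∑ d ∈ univ.erase c, G c d = ∑ d, G c d - G c c := fun c =>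
    sum_erase_eq' univ (G c) c (mem_univ c)
  have e2 : ∀ c ∈ cols a b, ∑ d ∈ (cols a b).erase c, G c d
      = ∑ d ∈ cols a b, G c d - G c c := fun c hc => sum_erase_eq' _ (G c) c hc
  rw [sum_congr rfl fun c _ => e1 c, sum_congr rfl e2, sum_sub_distrib, sum_sub_distrib,
    sum_split2 a b hab (fun c => ∑ d, G c d), sum_split2 a b hab (fun c => G c c),
    sum_split2 a b hab (G a), sum_split2 a b hab (G b),
    sum_congr rfl fun c _ => sum_split2 a b hab (G c)]
  simp only [sum_add_distrib]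
  ring

theorem sum_erase_ite (a : V) (φ : V → ℝ) :
    ∑ b ∈ univ.erase a, φ b = ∑ b, if a ≠ b then φ b else 0 := by
  rw [← sum_filter]
  apply sum_congr _ fun _ _ => rfl
  ext b; simp [eq_comm]

theorem sum_cols_ite (a b : V) (φ : V → ℝ) :
    ∑ c ∈ cols a b, φ c = ∑ c, if c ≠ a ∧ c ≠ b then φ c else 0 := by
  rw [← sum_filter]
  apply sum_congr _ fun _ _ => rfl
  ext c; simp [mem_cols]

theorem sum_cols_erase_ite (a b c : V) (φ : V → ℝ) :
    ∑ d ∈ (cols a b).erase c, φ d = ∑ d, if d ≠ a ∧ d ≠ b ∧ d ≠ c then φ d else 0 := by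
  rw [← sum_filter]
  apply sum_congr _ fun _ _ => rfl
  ext d; simp [mem_cols]; tauto

/-- sum over ordered triples of distinct vertices -/
theorem sum3_ite (φ : V → V → V → ℝ) :
    ∑ a, ∑ b ∈ univ.erase a, ∑ c ∈ cols a b, φ a b c
      = ∑ a, ∑ b, ∑ c, if a ≠ b ∧ c ≠ a ∧ c ≠ b then φ a b c else 0 := by
  apply sum_congr rfl; intro a _
  rw [sum_erase_ite]
  apply sum_congr rfl; intro b _
  by_cases hab : a ≠ b
  · rw [if_pos hab, sum_cols_ite]
    apply sum_congr rfl; intro c _
    by_cases h : c ≠ a ∧ c ≠ b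
    · rw [if_pos h, if_pos ⟨hab, h⟩]
    · rw [if_neg h, if_neg (fun h' => h h'.2)]
  · rw [if_neg hab]
    symm
    apply sum_eq_zero; intro c _
    rw [if_neg (fun h' => hab h'.1)]

/-- sum over ordered quadruples of distinct vertices -/
theorem sum4_ite (φ : V → V → V → V → ℝ) :
    ∑ a, ∑ b ∈ univ.erase a, ∑ c ∈ cols a b, ∑ d ∈ (cols a b).erase c, φ a b c d
      = ∑ a, ∑ b, ∑ c, ∑ d, if (a ≠ b ∧ a ≠ c ∧ a ≠ d ∧ b ≠ c ∧ b ≠ d ∧ c ≠ d) then φ a b c d
        else 0 := by
  rw [sum3_ite]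
  apply sum_congr rfl; intro a _
  apply sum_congr rfl; intro b _
  apply sum_congr rfl; intro c _
  by_cases h : a ≠ b ∧ c ≠ a ∧ c ≠ b
  · rw [if_pos h, sum_cols_erase_ite]
    apply sum_congr rfl; intro d _
    by_cases h' : d ≠ a ∧ d ≠ b ∧ d ≠ c
    · rw [if_pos h', if_pos ⟨h.1, h.2.1.symm, h'.1.symm, h.2.2.symm, h'.2.1.symm, h'.2.2.symm⟩]
    · rw [if_neg h', if_neg]
      rintro ⟨_, _, h3, _, h5, h6⟩
      exact h' ⟨h3.symm, h5.symm, h6.symm⟩
  · rw [if_neg h]
    symm
    apply sum_eq_zero; intro d _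
    rw [if_neg]
    rintro ⟨h1, h2, _, h4, _, _⟩
    exact h ⟨h1, h2.symm, h4.symm⟩

theorem en_self {κ S : Type*} [DecidableEq κ] [DecidableEq S] [Fintype S] (p q : κ → S) (c : κ)
    (f : (S → Bool) → ℝ) : en p q c c f = 0 := by
  unfold en
  apply sum_eq_zero
  intro x _
  have : sw p q c c x = x := by
    funext e
    unfold sw
    rw [if_neg]
    rintro ⟨h, _⟩
    exact h.2.2 rfl
  rw [this]; simp

theorem main_ineq
    (hT : ∀ (a b c : V), a ≠ b → b ≠ c → c ≠ a → ∀ f : (Sym2 V → Bool) → ℝ,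
      0 ≤ ∑ x, (hh a b f x * hh b c f x + hh b c f x * hh c a f x + hh c a f x * hh a b f x))
    (hW : ∀ (a b c d : V), a ≠ b → a ≠ c → a ≠ d → b ≠ c → b ≠ d → c ≠ d →
      ∀ f : (Sym2 V → Bool) → ℝ,
      (1 / 2) * en (fun z => s(a, z)) (fun z => s(b, z)) c d f
      - ∑ x, (if Osep (fun z => s(a, z)) (fun z => s(b, z)) c d x then
          (avO (grel a b) (fun z => s(a, z)) (fun z => s(b, z)) c d f x
            - cE (grel a b) f x) ^ 2 else 0)
      - ∑ x, (if Osep (fun z => s(c, z)) (fun z => s(d, z)) a b x then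
          (avO (grel c d) (fun z => s(c, z)) (fun z => s(d, z)) a b f x
            - cE (grel c d) f x) ^ 2 else 0)
      ≤ 2 * ∑ x, hh a b f x * hh c d f x)
    (hJ : ∀ (a b : V), a ≠ b → ∀ f : (Sym2 V → Bool) → ℝ,
      ∑ c ∈ cols a b, ∑ d ∈ cols a b, ∑ x,
        (if Osep (fun z => s(a, z)) (fun z => s(b, z)) c d x then
          (avO (grel a b) (fun z => s(a, z)) (fun z => s(b, z)) c d f x
            - cE (grel a b) f x) ^ 2 else 0)
      ≤ (1 / 4) * ∑ c ∈ cols a b, ∑ d ∈ cols a b,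
          en (fun z => s(a, z)) (fun z => s(b, z)) c d f)
    (f : (Sym2 V → Bool) → ℝ) :
    2 * ∑ a, ∑ b ∈ univ.erase a, ∑ x, hh a b f x ^ 2
      ≤ ∑ x, (∑ a, ∑ b ∈ univ.erase a, hh a b f x) ^ 2 := by
  -- the Gram function
  set F : V → V → V → V → ℝ := fun a b c d => ∑ x, hh a b f x * hh c d f x with hF
  have F1 : ∀ a b c d, F a b c d = F b a c d := by
    intro a b c d; simp only [hF, hh_comm a b]
  have F2 : ∀ a b c d, F a b c d = F a b d c := by
    intro a b c d; simp only [hF, hh_comm c d]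
  -- expansion of the square
  have hsq : ∑ x, (∑ a, ∑ b ∈ univ.erase a, hh a b f x) ^ 2
      = ∑ a, ∑ b ∈ univ.erase a, ∑ c, ∑ d ∈ univ.erase c, F a b c d := by
    have e : ∀ x, (∑ a, ∑ b ∈ univ.erase a, hh a b f x) ^ 2
        = ∑ a, ∑ b ∈ univ.erase a, ∑ c, ∑ d ∈ univ.erase c, hh a b f x * hh c d f x := by
      intro x
      rw [sq, sum_mul]
      apply sum_congr rfl; intro a _
      rw [sum_mul]
      apply sum_congr rfl; intro b _
      rw [mul_sum]
      apply sum_congr rfl; intro c _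
      rw [mul_sum]
    rw [sum_congr rfl fun x _ => e x, sum_comm]
    apply sum_congr rfl; intro a _
    rw [sum_comm]
    apply sum_congr rfl; intro b _
    rw [sum_comm]
    apply sum_congr rfl; intro c _
    rw [sum_comm]
  -- split according to coincidences
  have hsplit : ∑ a, ∑ b ∈ univ.erase a, ∑ c, ∑ d ∈ univ.erase c, F a b c d
      = 2 * ∑ a, ∑ b ∈ univ.erase a, F a b a b
        + (2 * ∑ a, ∑ b ∈ univ.erase a, ∑ c ∈ cols a b, F a b a c
        + 2 * ∑ a, ∑ b ∈ univ.erase a, ∑ c ∈ cols a b, F a b b c)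
        + ∑ a, ∑ b ∈ univ.erase a, ∑ c ∈ cols a b, ∑ d ∈ (cols a b).erase c, F a b c d := by
    have key : ∀ a, ∀ b ∈ univ.erase a, ∑ c, ∑ d ∈ univ.erase c, F a b c d
        = 2 * F a b a b + (2 * ∑ c ∈ cols a b, F a b a c + 2 * ∑ c ∈ cols a b, F a b b c)
          + ∑ c ∈ cols a b, ∑ d ∈ (cols a b).erase c, F a b c d := by
      intro a b hb
      have hab : a ≠ b := by
        rw [mem_erase] at hb; exact hb.1.symm
      rw [sum_pairs_main a b hab (F a b)]
      have e1 : ∑ c ∈ cols a b, F a b c a = ∑ c ∈ cols a b, F a b a c :=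
        sum_congr rfl fun c _ => F2 _ _ _ _
      have e2 : ∑ c ∈ cols a b, F a b c b = ∑ c ∈ cols a b, F a b b c :=
        sum_congr rfl fun c _ => F2 _ _ _ _
      rw [e1, e2, F2 a b b a]
      ring
    rw [sum_congr rfl fun a _ => sum_congr rfl (key a)]
    simp only [sum_add_distrib, ← mul_sum]
  -- the sharing part
  have hshare1 : ∑ a, ∑ b ∈ univ.erase a, ∑ c ∈ cols a b, F a b a c
      = ∑ a, ∑ b ∈ univ.erase a, ∑ c ∈ cols a b, F a b b c := by
    rw [sum3_ite, sum3_ite, sum_comm]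
    apply sum_congr rfl; intro a _
    apply sum_congr rfl; intro b _
    apply sum_congr rfl; intro c _
    rw [F1 b a b c]
    congr 1
    apply propext
    constructor
    · rintro ⟨h1, h2, h3⟩; exact ⟨h1.symm, h3, h2⟩
    · rintro ⟨h1, h2, h3⟩; exact ⟨h1.symm, h3, h2⟩
  have hshare : 0 ≤ ∑ a, ∑ b ∈ univ.erase a, ∑ c ∈ cols a b, F a b b c := by
    have h3 : 0 ≤ ∑ a, ∑ b ∈ univ.erase a, ∑ c ∈ cols a b,
        (F a b b c + F b c c a + F c a a b) := by
      apply sum_nonneg; intro a _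
      apply sum_nonneg; intro b hb
      apply sum_nonneg; intro c hc
      rw [mem_erase] at hb
      rw [mem_cols] at hc
      have := hT a b c hb.1.symm hc.2.symm hc.1 f
      simp only [hF, ← sum_add_distrib]
      exact this
    have r1 : ∑ a, ∑ b ∈ univ.erase a, ∑ c ∈ cols a b, F b c c a
        = ∑ a, ∑ b ∈ univ.erase a, ∑ c ∈ cols a b, F a b b c := by
      rw [sum3_ite, sum3_ite, sum_comm]
      -- now: sum over b, a, c of F b c c a; rename to (a := b, b := c, c := a)
      apply sum_congr rfl; intro b _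
      rw [sum_comm]
      apply sum_congr rfl; intro c _
      apply sum_congr rfl; intro a _
      congr 1
      apply propext
      constructor
      · rintro ⟨h1, h2, h3⟩; exact ⟨h3.symm, h1, h2.symm⟩
      · rintro ⟨h1, h2, h3⟩; exact ⟨h2, h3.symm, h1.symm⟩
    have r2 : ∑ a, ∑ b ∈ univ.erase a, ∑ c ∈ cols a b, F c a a b
        = ∑ a, ∑ b ∈ univ.erase a, ∑ c ∈ cols a b, F a b b c := by
      rw [sum3_ite, sum3_ite]
      have : ∀ a : V, (∑ b, ∑ c, if a ≠ b ∧ c ≠ a ∧ c ≠ b then F c a a b else 0)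
          = ∑ c, ∑ b, if a ≠ b ∧ c ≠ a ∧ c ≠ b then F c a a b else 0 := fun a => sum_comm
      rw [sum_congr rfl fun a _ => this a, sum_comm]
      apply sum_congr rfl; intro c _
      apply sum_congr rfl; intro a _
      apply sum_congr rfl; intro b _
      congr 1
      apply propext
      constructor
      · rintro ⟨h1, h2, h3⟩; exact ⟨h2, h3.symm, h1.symm⟩
      · rintro ⟨h1, h2, h3⟩; exact ⟨h3.symm, h1, h2.symm⟩
    simp only [sum_add_distrib] at h3
    rw [r1, r2] at h3
    linarith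
  -- the disjoint part
  have hdisj : 0 ≤ ∑ a, ∑ b ∈ univ.erase a, ∑ c ∈ cols a b, ∑ d ∈ (cols a b).erase c,
      F a b c d := by
    set E : V → V → V → V → ℝ := fun a b c d =>
      en (fun z => s(a, z)) (fun z => s(b, z)) c d f with hE
    set S : V → V → V → V → ℝ := fun a b c d =>
      ∑ x, (if Osep (fun z => s(a, z)) (fun z => s(b, z)) c d x then
          (avO (grel a b) (fun z => s(a, z)) (fun z => s(b, z)) c d f x
            - cE (grel a b) f x) ^ 2 else 0) with hS
    have hEself : ∀ a b c, E a b c c = 0 := fun a b c => en_self _ _ _ _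
    have hSself : ∀ a b c, S a b c c = 0 := by
      intro a b c
      simp only [hS]
      apply sum_eq_zero; intro x _
      rw [if_neg]
      intro h; exact h.2.2 rfl
    have hJ' : ∑ a, ∑ b ∈ univ.erase a, ∑ c ∈ cols a b, ∑ d ∈ (cols a b).erase c, S a b c d
        ≤ (1 / 4) * ∑ a, ∑ b ∈ univ.erase a, ∑ c ∈ cols a b, ∑ d ∈ (cols a b).erase c,
          E a b c d := by
      rw [mul_sum]
      apply sum_le_sum; intro a _
      rw [mul_sum]
      apply sum_le_sum; intro b hb
      have hab : a ≠ b := by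
        rw [mem_erase] at hb; exact hb.1.symm
      have := hJ a b hab f
      have e1 : ∑ c ∈ cols a b, ∑ d ∈ (cols a b).erase c, S a b c d
          = ∑ c ∈ cols a b, ∑ d ∈ cols a b, S a b c d := by
        apply sum_congr rfl; intro c hc
        rw [sum_erase_eq' _ (S a b c) c hc, hSself, sub_zero]
      have e2 : ∑ c ∈ cols a b, ∑ d ∈ (cols a b).erase c, E a b c d
          = ∑ c ∈ cols a b, ∑ d ∈ cols a b, E a b c d := by
        apply sum_congr rfl; intro c hc
        rw [sum_erase_eq' _ (E a b c) c hc, hEself, sub_zero]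
      rw [e1, e2]
      exact this
    have hswap : ∑ a, ∑ b ∈ univ.erase a, ∑ c ∈ cols a b, ∑ d ∈ (cols a b).erase c, S c d a b
        = ∑ a, ∑ b ∈ univ.erase a, ∑ c ∈ cols a b, ∑ d ∈ (cols a b).erase c, S a b c d := by
      rw [sum4_ite, sum4_ite]
      have step : ∀ G : V → V → V → V → ℝ, ∑ a, ∑ b, ∑ c, ∑ d, G a b c d
          = ∑ a, ∑ b, ∑ c, ∑ d, G c d a b := by
        intro G
        have h1 : ∑ a, ∑ b, ∑ c, ∑ d, G a b c d = ∑ p : V × V, ∑ q : V × V, G p.1 p.2 q.1 q.2 := by
          rw [Fintype.sum_prod_type]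
          apply sum_congr rfl; intro a _
          apply sum_congr rfl; intro b _
          rw [Fintype.sum_prod_type]
        have h2 : ∑ a, ∑ b, ∑ c, ∑ d, G c d a b = ∑ p : V × V, ∑ q : V × V, G q.1 q.2 p.1 p.2 := by
          rw [Fintype.sum_prod_type]
          apply sum_congr rfl; intro a _
          apply sum_congr rfl; intro b _
          rw [Fintype.sum_prod_type]
        rw [h1, h2, sum_comm]
      rw [step]
      apply sum_congr rfl; intro a _
      apply sum_congr rfl; intro b _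
      apply sum_congr rfl; intro c _
      apply sum_congr rfl; intro d _
      congr 1
      apply propext
      constructor
      · rintro ⟨h1, h2, h3, h4, h5, h6⟩
        exact ⟨h6, h2.symm, h4.symm, h3.symm, h5.symm, h1⟩
      · rintro ⟨h1, h2, h3, h4, h5, h6⟩
        exact ⟨h6, h2.symm, h4.symm, h3.symm, h5.symm, h1⟩
    have hW' : ∑ a, ∑ b ∈ univ.erase a, ∑ c ∈ cols a b, ∑ d ∈ (cols a b).erase c,
        ((1 / 2) * E a b c d - S a b c d - S c d a b)
        ≤ ∑ a, ∑ b ∈ univ.erase a, ∑ c ∈ cols a b, ∑ d ∈ (cols a b).erase c,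
          2 * F a b c d := by
      apply sum_le_sum; intro a _
      apply sum_le_sum; intro b hb
      apply sum_le_sum; intro c hc
      apply sum_le_sum; intro d hd
      rw [mem_erase] at hb hd
      rw [mem_cols] at hc hd
      exact hW a b c d hb.1.symm hc.1.symm hd.2.1.symm hc.2.symm hd.2.2.symm hd.1.symm f
    simp only [sum_sub_distrib, ← mul_sum] at hW'
    rw [hswap] at hW'
    linarith
  rw [hsq, hsplit, hshare1]
  have hdiag : ∑ a, ∑ b ∈ univ.erase a, F a b a b
      = ∑ a, ∑ b ∈ univ.erase a, ∑ x, hh a b f x ^ 2 := by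
    apply sum_congr rfl; intro a _
    apply sum_congr rfl; intro b _
    simp only [hF, sq]
  rw [hdiag]
  linarith

end graph

end Crest.Agent.R299
end

-- ▼ part R299/TwoRowPoincare
section

/-!
Row 299, task T1: Poincaré inequality for the two-row (Johnson) relation, by induction on columns.
-/

set_option autoImplicit false
set_option linter.unusedSectionVars false
open Finset

namespace Crest.Agent.R299

namespace T1

variable {κ S : Type*} [DecidableEq κ] [DecidableEq S]

theorem rel_insert_iff {p q : κ → S} {U : Finset κ} {c : κ} (hc : c ∉ U)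
    (hp : Set.InjOn p (insert c U : Finset κ)) (hq : Set.InjOn q (insert c U : Finset κ))
    (hpq : ∀ z ∈ insert c U, ∀ w ∈ insert c U, p z ≠ q w) {x y : S → Bool} :
    rel p q U x y ↔ (rel p q (insert c U) x y ∧ x (p c) = y (p c)) := by
  have hcU : c ∈ insert c U := mem_insert_self c U
  have hpc : ∀ z ∈ U, p c ≠ p z ∧ p c ≠ q z := by
    intro z hz
    refine ⟨fun h => hc ?_, hpq c hcU z (mem_insert_of_mem hz)⟩
    rw [hp (by simp) (by simp [hz]) h]; exact hz
  have hqc : ∀ z ∈ U, q c ≠ p z ∧ q c ≠ q z := by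
    intro z hz
    refine ⟨fun h => hpq z (mem_insert_of_mem hz) c hcU h.symm, fun h => hc ?_⟩
    rw [hq (by simp) (by simp [hz]) h]; exact hz
  rw [rel_iff, rel_iff]
  constructor
  · rintro ⟨h1, h2, h3⟩
    have e1 : x (p c) = y (p c) := h1 _ hpc
    have e2 : x (q c) = y (q c) := h1 _ hqc
    refine ⟨⟨?_, ?_, ?_⟩, e1⟩
    · intro e he
      exact h1 e fun z hz => he z (mem_insert_of_mem hz)
    · intro z hz
      rcases mem_insert.mp hz with rfl | hz
      · rw [e1, e2]
      · exact h2 z hz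
    · rw [sum_insert hc, sum_insert hc, e1, h3]
  · rintro ⟨⟨h1, h2, h3⟩, e1⟩
    have e2 : x (q c) = y (q c) := by
      have := h2 c hcU
      rw [e1] at this
      have h' : (x (q c)).toNat = (y (q c)).toNat := by omega
      cases hx : x (q c) <;> cases hy : y (q c) <;> simp_all
    refine ⟨?_, ?_, ?_⟩
    · intro e he
      by_cases h : e = p c
      · rw [h, e1]
      by_cases h' : e = q c
      · rw [h', e2]
      apply h1
      intro z hz
      rcases mem_insert.mp hz with rfl | hz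
      · exact ⟨h, h'⟩
      · exact he z hz
    · intro z hz
      exact h2 z (mem_insert_of_mem hz)
    · rw [sum_insert hc, sum_insert hc, e1] at h3
      omega

theorem rel_le_insert {p q : κ → S} {U : Finset κ} {c : κ} (hc : c ∉ U)
    (hp : Set.InjOn p (insert c U : Finset κ)) (hq : Set.InjOn q (insert c U : Finset κ))
    (hpq : ∀ z ∈ insert c U, ∀ w ∈ insert c U, p z ≠ q w) :
    rel p q U ≤ rel p q (insert c U) := by
  intro x y h
  exact ((rel_insert_iff hc hp hq hpq).mp h).1

/-- slots of two different columns are all distinct -/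
structure Dist (p q : κ → S) (c d : κ) : Prop where
  pcpd : p c ≠ p d
  pcqc : p c ≠ q c
  pcqd : p c ≠ q d
  pdqc : p d ≠ q c
  pdqd : p d ≠ q d
  qcqd : q c ≠ q d

theorem dist_of {p q : κ → S} {W : Finset κ} (hp : Set.InjOn p W) (hq : Set.InjOn q W)
    (hpq : ∀ z ∈ W, ∀ w ∈ W, p z ≠ q w) {c d : κ} (hc : c ∈ W) (hd : d ∈ W) (hcd : c ≠ d) :
    Dist p q c d where
  pcpd := fun h => hcd (hp hc hd h)
  pcqc := hpq c hc c hc
  pcqd := hpq c hc d hd
  pdqc := hpq d hd c hc
  pdqd := hpq d hd d hd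
  qcqd := fun h => hcd (hq hc hd h)

theorem sw_of_not {p q : κ → S} {c d : κ} {x : S → Bool} (h : ¬ Osep p q c d x) :
    sw p q c d x = x := by
  funext e; simp [sw, h]

theorem sw_pc {p q : κ → S} {c d : κ} {x : S → Bool} (h : Osep p q c d x) :
    sw p q c d x (p c) = !(x (p c)) := by simp [sw, h]
theorem sw_pd {p q : κ → S} {c d : κ} {x : S → Bool} (h : Osep p q c d x) :
    sw p q c d x (p d) = !(x (p d)) := by simp [sw, h]
theorem sw_qc {p q : κ → S} {c d : κ} {x : S → Bool} (h : Osep p q c d x) :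
    sw p q c d x (q c) = !(x (q c)) := by simp [sw, h]
theorem sw_qd {p q : κ → S} {c d : κ} {x : S → Bool} (h : Osep p q c d x) :
    sw p q c d x (q d) = !(x (q d)) := by simp [sw, h]
theorem sw_off {p q : κ → S} {c d : κ} {x : S → Bool} {e : S} (h1 : e ≠ p c) (h2 : e ≠ p d)
    (h3 : e ≠ q c) (h4 : e ≠ q d) : sw p q c d x e = x e := by simp [sw, h1, h2, h3, h4]

theorem Osep_sw {p q : κ → S} {c d : κ} {x : S → Bool} (h : Osep p q c d x) :
    Osep p q c d (sw p q c d x) := by
  unfold Osep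
  rw [sw_pc h, sw_pd h, sw_qc h, sw_qd h]
  obtain ⟨h1, h2, h3⟩ := h
  refine ⟨by rw [h1], by rw [h2], fun h => h3 (by simpa using h)⟩

theorem sw_sw {p q : κ → S} {c d : κ} {x : S → Bool} :
    sw p q c d (sw p q c d x) = x := by
  by_cases h : Osep p q c d x
  · have h' := Osep_sw h
    funext e
    by_cases he : e = p c ∨ e = p d ∨ e = q c ∨ e = q d
    · simp only [sw] at h' ⊢
      simp [h, h', he]
    · simp [sw, he]
  · rw [sw_of_not h, sw_of_not h]

/-- a switch inside `W` preserves the relation -/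
theorem rel_sw {p q : κ → S} {W : Finset κ} (hp : Set.InjOn p W) (hq : Set.InjOn q W)
    (hpq : ∀ z ∈ W, ∀ w ∈ W, p z ≠ q w) {c d : κ} (hc : c ∈ W) (hd : d ∈ W) (hcd : c ≠ d)
    (x : S → Bool) : rel p q W x (sw p q c d x) := by
  by_cases h : Osep p q c d x
  swap
  · rw [sw_of_not h]
  have D := dist_of hp hq hpq hc hd hcd
  have hoff : ∀ z ∈ W, z ≠ c → z ≠ d →
      sw p q c d x (p z) = x (p z) ∧ sw p q c d x (q z) = x (q z) := by
    intro z hz hzc hzd
    constructor
    · exact sw_off (fun h => hzc (hp hz hc h)) (fun h => hzd (hp hz hd h)) (hpq z hz c hc)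
        (hpq z hz d hd)
    · exact sw_off (hpq c hc z hz).symm (hpq d hd z hz).symm (fun h => hzc (hq hz hc h))
        (fun h => hzd (hq hz hd h))
  rw [rel_iff]
  refine ⟨?_, ?_, ?_⟩
  · intro e he
    rw [sw_off (he c hc).1 (he d hd).1 (he c hc).2 (he d hd).2]
  · intro z hz
    by_cases hzc : z = c
    · subst hzc
      rw [sw_pc h, sw_qc h]
      obtain ⟨h1, h2, h3⟩ := h
      rw [← h2]
      cases hx : x (p z) <;> cases hy : x (p d) <;> simp_all
    by_cases hzd : z = d
    · subst hzd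
      rw [sw_pd h, sw_qd h]
      obtain ⟨h1, h2, h3⟩ := h
      rw [← h1]
      cases hx : x (p c) <;> cases hy : x (p z) <;> simp_all
    rw [(hoff z hz hzc hzd).1, (hoff z hz hzc hzd).2]
  · have hdW : d ∈ W.erase c := mem_erase.mpr ⟨hcd.symm, hd⟩
    rw [← add_sum_erase W _ hc, ← add_sum_erase _ _ hdW, ← add_sum_erase W _ hc,
      ← add_sum_erase _ _ hdW]
    have : ∑ z ∈ (W.erase c).erase d, (sw p q c d x (p z)).toNat
        = ∑ z ∈ (W.erase c).erase d, (x (p z)).toNat := by
      apply sum_congr rfl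
      intro z hz
      rw [mem_erase, mem_erase] at hz
      rw [(hoff z hz.2.2 hz.2.1 hz.1).1]
    rw [this, sw_pc h, sw_pd h]
    obtain ⟨h1, h2, h3⟩ := h
    cases hx : x (p c) <;> cases hy : x (p d) <;> simp_all

theorem johnson_numeric {N1 N0 a b S1 S0 E : ℝ} (hN1 : 0 < N1) (hN0 : 0 < N0) (ha : 1 ≤ a)
    (hb : 1 ≤ b) (hab : a * N1 = b * N0) (hE : 0 ≤ E) (h : (a * S1 - b * S0) ^ 2 ≤ (a * N1) * E) :
    N1 * (S1 / N1 - (S1 + S0) / (N1 + N0)) ^ 2 + N0 * (S0 / N0 - (S1 + S0) / (N1 + N0)) ^ 2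
      ≤ E / 2 := by
  have ha0 : 0 < a := by linarith
  have e1 : N1 * (S1 / N1 - (S1 + S0) / (N1 + N0)) ^ 2 +
      N0 * (S0 / N0 - (S1 + S0) / (N1 + N0)) ^ 2
      = (N0 * S1 - N1 * S0) ^ 2 / (N1 * N0 * (N1 + N0)) := by
    have : N1 + N0 ≠ 0 := by positivity
    field_simp
    ring
  have e2 : N0 * S1 - N1 * S0 = N0 * (a * S1 - b * S0) / a := by
    rw [eq_div_iff ha0.ne']
    have : a * N1 * S0 = b * N0 * S0 := by rw [hab]
    nlinarith [this]
  rw [e1, e2]
  have e3 : (N0 * (a * S1 - b * S0) / a) ^ 2 / (N1 * N0 * (N1 + N0))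
      = (a * S1 - b * S0) ^ 2 * (N0 / (a ^ 2 * N1 * (N1 + N0))) := by
    have : N1 + N0 ≠ 0 := by positivity
    field_simp
  rw [e3]
  calc (a * S1 - b * S0) ^ 2 * (N0 / (a ^ 2 * N1 * (N1 + N0)))
      ≤ ((a * N1) * E) * (N0 / (a ^ 2 * N1 * (N1 + N0))) := by
        apply mul_le_mul_of_nonneg_right h (by positivity)
    _ = E * (N0 / (a * N1 + a * N0)) := by
        have : N1 + N0 ≠ 0 := by positivity
        field_simp
    _ = E * (1 / (a + b)) := by
        rw [hab]
        have : a + b ≠ 0 := by positivity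
        have h2 : b * N0 + a * N0 ≠ 0 := by positivity
        field_simp
        ring
    _ ≤ E * (1 / 2) := by
        apply mul_le_mul_of_nonneg_left _ hE
        apply one_div_le_one_div_of_le (by norm_num); linarith
    _ = E / 2 := by ring


section step

variable [Fintype S]

/-- the two halves of a class -/
noncomputable def half (p q : κ → S) (U : Finset κ) (c : κ) (x : S → Bool) (b : Bool) :
    Finset (S → Bool) := (cls (rel p q (insert c U)) x).filter fun y => y (p c) = b

theorem mem_half {p q : κ → S} {U : Finset κ} {c : κ} {x y : S → Bool} {b : Bool} :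
    y ∈ half p q U c x b ↔ rel p q (insert c U) x y ∧ y (p c) = b := by
  simp [half]

theorem cls_eq_half {p q : κ → S} {U : Finset κ} {c : κ} (hc : c ∉ U)
    (hp : Set.InjOn p (insert c U : Finset κ)) (hq : Set.InjOn q (insert c U : Finset κ))
    (hpq : ∀ z ∈ insert c U, ∀ w ∈ insert c U, p z ≠ q w) {x y : S → Bool} {b : Bool}
    (hy : y ∈ half p q U c x b) : cls (rel p q U) y = half p q U c x b := by
  rw [mem_half] at hy
  ext z
  rw [mem_cls, mem_half, rel_insert_iff hc hp hq hpq]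
  constructor
  · rintro ⟨h1, h2⟩
    exact ⟨(rel p q (insert c U)).trans' hy.1 h1, by rw [← h2, hy.2]⟩
  · rintro ⟨h1, h2⟩
    exact ⟨(rel p q (insert c U)).trans' ((rel p q (insert c U)).symm' hy.1) h1, by
      rw [h2, hy.2]⟩

theorem cls_split {M : Type*} [AddCommMonoid M] {p q : κ → S} {U : Finset κ} {c : κ}
    (x : S → Bool) (F : (S → Bool) → M) :
    ∑ y ∈ cls (rel p q (insert c U)) x, F y
      = ∑ y ∈ half p q U c x true, F y + ∑ y ∈ half p q U c x false, F y := by
  classical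
  unfold half
  rw [← sum_filter_add_sum_filter_not _ (fun y => y (p c) = true)]
  congr 1
  apply sum_congr _ fun _ _ => rfl
  ext y; simp

theorem card_cls_split {p q : κ → S} {U : Finset κ} {c : κ}
    (x : S → Bool) :
    (cls (rel p q (insert c U)) x).card
      = (half p q U c x true).card + (half p q U c x false).card := by
  have := cls_split (p := p) (q := q) (U := U) (c := c) x (fun _ => (1 : ℕ))
  simpa using this

/-- columns of `U` separated from `c` -/
def sep (p q : κ → S) (U : Finset κ) (c : κ) (y : S → Bool) : Finset κ :=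
  U.filter fun d => Osep p q c d y

/-- The state has a constant number of columns separated from `c` on each half -/
theorem card_sep_true {p q : κ → S} {U : Finset κ} {c : κ} {y : S → Bool}
    (h1 : y (p c) = true) (h2 : y (q c) = false) :
    (sep p q U c y).card + ∑ z ∈ U, (y (p z)).toNat
      = ∑ z ∈ U, min ((y (p z)).toNat + (y (q z)).toNat) 1 := by
  unfold sep
  rw [card_filter, ← sum_add_distrib]
  apply sum_congr rfl
  intro z _
  have hO : Osep p q c z y ↔ (y (p z) = false ∧ y (q z) = true) := by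
    unfold Osep
    rw [h1, h2]
    cases y (p z) <;> cases y (q z) <;> simp
  rw [if_congr hO rfl rfl]
  cases y (p z) <;> cases y (q z) <;> simp

theorem card_sep_false {p q : κ → S} {U : Finset κ} {c : κ} {y : S → Bool}
    (h1 : y (p c) = false) (h2 : y (q c) = true) :
    (sep p q U c y).card + ∑ z ∈ U, ((y (p z)).toNat + (y (q z)).toNat - 1)
      = ∑ z ∈ U, (y (p z)).toNat := by
  unfold sep
  rw [card_filter, ← sum_add_distrib]
  apply sum_congr rfl
  intro z _
  have hO : Osep p q c z y ↔ (y (p z) = true ∧ y (q z) = false) := by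
    unfold Osep
    rw [h1, h2]
    cases y (p z) <;> cases y (q z) <;> simp
  rw [if_congr hO rfl rfl]
  cases y (p z) <;> cases y (q z) <;> simp

theorem sum_congr_col {p q : κ → S} {U : Finset κ} {x y : S → Bool} (h : rel p q U x y)
    (F : ℕ → ℕ) : ∑ z ∈ U, F ((x (p z)).toNat + (x (q z)).toNat)
      = ∑ z ∈ U, F ((y (p z)).toNat + (y (q z)).toNat) := by
  apply sum_congr rfl
  intro z hz
  rw [(rel_iff.mp h).2.1 z hz]

/-- pointwise (class-wise) inequality -/
theorem step_pointwise {p q : κ → S} {U : Finset κ} {c : κ} (hc : c ∉ U)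
    (hp : Set.InjOn p (insert c U : Finset κ)) (hq : Set.InjOn q (insert c U : Finset κ))
    (hpq : ∀ z ∈ insert c U, ∀ w ∈ insert c U, p z ≠ q w) (f : (S → Bool) → ℝ) (x : S → Bool) :
    ∑ y ∈ cls (rel p q (insert c U)) x, (cE (rel p q U) f y - cE (rel p q (insert c U)) f y) ^ 2
      ≤ (1 / 4) * ∑ y ∈ cls (rel p q (insert c U)) x, ∑ d ∈ U, (f y - f (sw p q c d y)) ^ 2 := by
  classical
  set r := rel p q U with hr
  set r' := rel p q (insert c U) with hr'
  set Φ1 := half p q U c x true with hΦ1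
  set Φ0 := half p q U c x false with hΦ0
  have hcW : c ∈ insert c U := mem_insert_self c U
  have hdc : ∀ d ∈ U, c ≠ d := fun d hd h => hc (h ▸ hd)
  have hE' : ∀ y ∈ cls r' x, cE r' f y = (∑ z ∈ cls r' x, f z) / ((cls r' x).card : ℝ) := by
    intro y hy
    rw [← cE_congr (mem_cls.mp hy)]; rfl
  have hE1 : ∀ y ∈ Φ1, cE r f y = (∑ z ∈ Φ1, f z) / (Φ1.card : ℝ) := by
    intro y hy
    unfold cE
    rw [cls_eq_half hc hp hq hpq hy]
  have hE0 : ∀ y ∈ Φ0, cE r f y = (∑ z ∈ Φ0, f z) / (Φ0.card : ℝ) := by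
    intro y hy
    unfold cE
    rw [cls_eq_half hc hp hq hpq hy]
  have hcls1 : ∀ y ∈ Φ1, y ∈ cls r' x := fun y hy => mem_cls.mpr (mem_half.mp hy).1
  have hcls0 : ∀ y ∈ Φ0, y ∈ cls r' x := fun y hy => mem_cls.mpr (mem_half.mp hy).1
  have hR : 0 ≤ (1 / 4 : ℝ) * ∑ y ∈ cls r' x, ∑ d ∈ U, (f y - f (sw p q c d y)) ^ 2 := by
    positivity
  rcases eq_empty_or_nonempty Φ1 with hem1 | ⟨y1, hy1⟩
  · -- only `Φ0`
    have : cls r' x = Φ0 := by
      ext y
      constructor
      · intro hy
        rw [hΦ0, mem_half]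
        refine ⟨mem_cls.mp hy, ?_⟩
        by_contra hne
        have : y ∈ Φ1 := by
          rw [hΦ1, mem_half]; exact ⟨mem_cls.mp hy, by simpa using hne⟩
        rw [hem1] at this; simp at this
      · exact hcls0 y
    refine le_trans (le_of_eq ?_) hR
    apply sum_eq_zero
    intro y hy
    rw [hE' y hy, this, hE0 y (this ▸ hy), sub_self]; simp
  rcases eq_empty_or_nonempty Φ0 with hem0 | ⟨y0, hy0⟩
  · have : cls r' x = Φ1 := by
      ext y
      constructor
      · intro hy
        rw [hΦ1, mem_half]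
        refine ⟨mem_cls.mp hy, ?_⟩
        by_contra hne
        have : y ∈ Φ0 := by
          rw [hΦ0, mem_half]; exact ⟨mem_cls.mp hy, by simpa using hne⟩
        rw [hem0] at this; simp at this
      · exact hcls1 y
    refine le_trans (le_of_eq ?_) hR
    apply sum_eq_zero
    intro y hy
    rw [hE' y hy, this, hE1 y (this ▸ hy), sub_self]; simp
  -- both halves nonempty
  have hy1' := mem_half.mp hy1
  have hy0' := mem_half.mp hy0
  have hrel10 : r' y1 y0 := r'.trans' (r'.symm' hy1'.1) hy0'.1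
  have hq1 : ∀ y ∈ Φ1, y (q c) = false := by
    intro y hy
    have hy' := mem_half.mp hy
    have h := (rel_iff.mp (r'.trans' (r'.symm' hy'.1) hy0'.1)).2.1 c hcW
    rw [hy'.2, hy0'.2] at h
    cases hh : y (q c)
    · rfl
    · rw [hh] at h
      cases h2 : y0 (q c) <;> rw [h2] at h <;> simp at h
  have hq0 : ∀ y ∈ Φ0, y (q c) = true := by
    intro y hy
    have hy' := mem_half.mp hy
    have h := (rel_iff.mp (r'.trans' (r'.symm' hy'.1) hy1'.1)).2.1 c hcW
    rw [hy'.2, hy1'.2, hq1 y1 hy1] at h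
    cases hh : y (q c)
    · rw [hh] at h; simp at h
    · rfl
  -- constants `a`, `b`
  set a := (sep p q U c y1).card with ha
  set b := (sep p q U c y0).card with hb
  have hrel1 : ∀ y ∈ Φ1, r y1 y := by
    intro y hy
    rw [← mem_cls, cls_eq_half hc hp hq hpq hy1]; exact hy
  have hrel0 : ∀ y ∈ Φ0, r y0 y := by
    intro y hy
    rw [← mem_cls, cls_eq_half hc hp hq hpq hy0]; exact hy
  have hca : ∀ y ∈ Φ1, (sep p q U c y).card = a := by
    intro y hy
    have h1 := card_sep_true (U := U) (mem_half.mp hy).2 (hq1 y hy)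
    have h2 := card_sep_true (U := U) (mem_half.mp hy1).2 (hq1 y1 hy1)
    have h3 := sum_congr_col (hrel1 y hy) (fun n => min n 1)
    have h4 := (rel_iff.mp (hrel1 y hy)).2.2
    omega
  have hcb : ∀ y ∈ Φ0, (sep p q U c y).card = b := by
    intro y hy
    have h1 := card_sep_false (U := U) (mem_half.mp hy).2 (hq0 y hy)
    have h2 := card_sep_false (U := U) (mem_half.mp hy0).2 (hq0 y0 hy0)
    have h3 := sum_congr_col (hrel0 y hy) (fun n => n - 1)
    have h4 := (rel_iff.mp (hrel0 y hy)).2.2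
    omega
  -- `a, b ≥ 1`
  have hrow : ∑ z ∈ U, (y1 (p z)).toNat + 1 = ∑ z ∈ U, (y0 (p z)).toNat := by
    have h := (rel_iff.mp hrel10).2.2
    rw [sum_insert hc, sum_insert hc, hy1'.2, hy0'.2] at h
    simp at h
    omega
  have hex : ∃ d ∈ U, y1 (p d) = false ∧ y0 (p d) = true := by
    by_contra hne
    push Not at hne
    have : ∑ z ∈ U, (y0 (p z)).toNat ≤ ∑ z ∈ U, (y1 (p z)).toNat := by
      apply sum_le_sum
      intro z hz
      have := hne z hz
      cases h1 : y1 (p z) <;> cases h0 : y0 (p z) <;> simp_all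
    omega
  obtain ⟨d0, hd0, hd1, hd2⟩ := hex
  have hcol0 := (rel_iff.mp hrel10).2.1 d0 (mem_insert_of_mem hd0)
  have ha1 : 1 ≤ a := by
    rw [ha, Nat.one_le_iff_ne_zero, Ne, card_eq_zero]
    intro h
    have : d0 ∈ sep p q U c y1 := by
      refine mem_filter.mpr ⟨hd0, ?_⟩
      unfold Osep
      rw [hy1'.2, hq1 y1 hy1, hd1]
      refine ⟨?_, rfl, by simp⟩
      rw [hd1, hd2] at hcol0
      cases h1 : y1 (q d0) <;> cases h0 : y0 (q d0) <;> rw [h1, h0] at hcol0 <;> simp at hcol0 ⊢
    rw [h] at this; simp at this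
  have hb1 : 1 ≤ b := by
    rw [hb, Nat.one_le_iff_ne_zero, Ne, card_eq_zero]
    intro h
    have : d0 ∈ sep p q U c y0 := by
      refine mem_filter.mpr ⟨hd0, ?_⟩
      unfold Osep
      rw [hy0'.2, hq0 y0 hy0, hd2]
      refine ⟨?_, rfl, by simp⟩
      rw [hd1, hd2] at hcol0
      cases h1 : y1 (q d0) <;> cases h0 : y0 (q d0) <;> rw [h1, h0] at hcol0 <;> simp at hcol0 ⊢
    rw [h] at this; simp at this
  -- the bijection
  have hswmem : ∀ (β : Bool), ∀ y ∈ half p q U c x β, ∀ d ∈ sep p q U c y,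
      sw p q c d y ∈ half p q U c x (!β) ∧ d ∈ sep p q U c (sw p q c d y) := by
    intro β y hy d hd
    have hd' := mem_filter.mp hd
    have hy' := mem_half.mp hy
    refine ⟨mem_half.mpr ⟨r'.trans' hy'.1
      (rel_sw hp hq hpq hcW (mem_insert_of_mem hd'.1) (hdc d hd'.1) y), ?_⟩, ?_⟩
    · rw [sw_pc hd'.2, hy'.2]
    · exact mem_filter.mpr ⟨hd'.1, Osep_sw hd'.2⟩
  have hbij : ∀ F : (S → Bool) → κ → ℝ,
      ∑ y ∈ Φ1, ∑ d ∈ sep p q U c y, F (sw p q c d y) d
        = ∑ y ∈ Φ0, ∑ d ∈ sep p q U c y, F y d := by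
    intro F
    rw [sum_sigma', sum_sigma']
    refine sum_bij' (fun (z : (_ : S → Bool) × κ) _ => ⟨sw p q c z.2 z.1, z.2⟩)
      (fun (z : (_ : S → Bool) × κ) _ => ⟨sw p q c z.2 z.1, z.2⟩) ?_ ?_ ?_ ?_ ?_
    · rintro ⟨y, d⟩ hz
      rw [mem_sigma] at hz ⊢
      exact hswmem true y hz.1 d hz.2
    · rintro ⟨y, d⟩ hz
      rw [mem_sigma] at hz ⊢
      exact hswmem false y hz.1 d hz.2
    · rintro ⟨y, d⟩ _
      simp [sw_sw]
    · rintro ⟨y, d⟩ _
      simp [sw_sw]
    · rintro ⟨y, d⟩ _
      rfl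
  have hcount : (a : ℝ) * Φ1.card = b * Φ0.card := by
    have h := hbij (fun _ _ => 1)
    simp only [sum_const, nsmul_eq_mul, mul_one] at h
    rw [sum_congr rfl fun y hy => by rw [hca y hy], sum_const, nsmul_eq_mul] at h
    rw [sum_congr (s₁ := Φ0) rfl fun y hy => by rw [hcb y hy], sum_const, nsmul_eq_mul] at h
    linarith
  have hS1 : ∑ y ∈ Φ1, ∑ d ∈ sep p q U c y, f y = a * ∑ y ∈ Φ1, f y := by
    rw [mul_sum]
    apply sum_congr rfl
    intro y hy
    rw [sum_const, hca y hy, nsmul_eq_mul]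
  have hS0 : ∑ y ∈ Φ1, ∑ d ∈ sep p q U c y, f (sw p q c d y) = b * ∑ y ∈ Φ0, f y := by
    rw [hbij (fun y _ => f y), mul_sum]
    apply sum_congr rfl
    intro y hy
    rw [sum_const, hcb y hy, nsmul_eq_mul]
  have hdrop : ∀ y, ∑ d ∈ U, (f y - f (sw p q c d y)) ^ 2
      = ∑ d ∈ sep p q U c y, (f y - f (sw p q c d y)) ^ 2 := by
    intro y
    unfold sep
    rw [sum_filter]
    apply sum_congr rfl
    intro d _
    split_ifs with h
    · rfl
    · rw [sw_of_not h]; simp
  set E1 := ∑ y ∈ Φ1, ∑ d ∈ U, (f y - f (sw p q c d y)) ^ 2 with hE1'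
  have hE01 : ∑ y ∈ Φ0, ∑ d ∈ U, (f y - f (sw p q c d y)) ^ 2 = E1 := by
    rw [hE1', sum_congr rfl fun y _ => hdrop y, sum_congr (s₁ := Φ1) rfl fun y _ => hdrop y,
      ← hbij (fun y d => (f y - f (sw p q c d y)) ^ 2)]
    apply sum_congr rfl
    intro y _
    apply sum_congr rfl
    intro d _
    rw [sw_sw]; ring
  have hCS : (a * ∑ y ∈ Φ1, f y - b * ∑ y ∈ Φ0, f y) ^ 2 ≤ (a * (Φ1.card : ℝ)) * E1 := by
    rw [← hS1, ← hS0, ← sum_sub_distrib, hE1', sum_congr (s₁ := Φ1) rfl fun y _ => hdrop y]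
    simp only [← sum_sub_distrib]
    rw [sum_sigma', sum_sigma']
    refine le_trans sq_sum_le_card_mul_sum_sq (le_of_eq ?_)
    congr 1
    rw [card_sigma, Nat.cast_sum, sum_congr rfl fun y hy => by rw [hca y hy], sum_const,
      nsmul_eq_mul, mul_comm]
  have hnum := johnson_numeric (N1 := Φ1.card) (N0 := Φ0.card) (a := a) (b := b)
    (S1 := ∑ y ∈ Φ1, f y) (S0 := ∑ y ∈ Φ0, f y) (E := E1)
    (by exact_mod_cast card_pos.mpr ⟨y1, hy1⟩) (by exact_mod_cast card_pos.mpr ⟨y0, hy0⟩)
    (by exact_mod_cast ha1) (by exact_mod_cast hb1) hcount (by positivity) hCS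
  rw [hr', cls_split x, cls_split x, ← hr', ← hΦ1, ← hΦ0, hE01, ← hE1']
  have hcl : (∑ z ∈ cls r' x, f z) / ((cls r' x).card : ℝ)
      = (∑ y ∈ Φ1, f y + ∑ y ∈ Φ0, f y) / ((Φ1.card : ℝ) + Φ0.card) := by
    rw [hr', cls_split x, card_cls_split x, Nat.cast_add]
  have hl1 : ∑ y ∈ Φ1, (cE r f y - cE r' f y) ^ 2
      = Φ1.card * ((∑ y ∈ Φ1, f y) / Φ1.card
        - (∑ y ∈ Φ1, f y + ∑ y ∈ Φ0, f y) / ((Φ1.card : ℝ) + Φ0.card)) ^ 2 := by
    rw [sum_congr rfl fun y hy => by rw [hE1 y hy, hE' y (hcls1 y hy), hcl], sum_const,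
      nsmul_eq_mul]
  have hl0 : ∑ y ∈ Φ0, (cE r f y - cE r' f y) ^ 2
      = Φ0.card * ((∑ y ∈ Φ0, f y) / Φ0.card
        - (∑ y ∈ Φ1, f y + ∑ y ∈ Φ0, f y) / ((Φ1.card : ℝ) + Φ0.card)) ^ 2 := by
    rw [sum_congr rfl fun y hy => by rw [hE0 y hy, hE' y (hcls0 y hy), hcl], sum_const,
      nsmul_eq_mul]
  rw [hl1, hl0]
  linarith

theorem step {p q : κ → S} {U : Finset κ} {c : κ} (hc : c ∉ U)
    (hp : Set.InjOn p (insert c U : Finset κ)) (hq : Set.InjOn q (insert c U : Finset κ))
    (hpq : ∀ z ∈ insert c U, ∀ w ∈ insert c U, p z ≠ q w) (f : (S → Bool) → ℝ) :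
    ∑ y, (cE (rel p q U) f y - cE (rel p q (insert c U)) f y) ^ 2
      ≤ (1 / 4) * ∑ d ∈ U, en p q c d f := by
  rw [← sum_cE (rel p q (insert c U))
    (fun y => (cE (rel p q U) f y - cE (rel p q (insert c U)) f y) ^ 2)]
  have h2 : ∑ d ∈ U, en p q c d f
      = ∑ x, cE (rel p q (insert c U)) (fun y => ∑ d ∈ U, (f y - f (sw p q c d y)) ^ 2) x := by
    rw [sum_cE, sum_comm]
    rfl
  rw [h2, mul_sum]
  apply sum_le_sum
  intro x _
  unfold cE
  rw [← mul_div_assoc]
  apply div_le_div_of_nonneg_right _ (by positivity)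
  exact step_pointwise hc hp hq hpq f x

end step

end T1

theorem en_comm_col {κ S : Type*} [DecidableEq κ] [DecidableEq S] [Fintype S] (p q : κ → S)
    (c d : κ) (f : (S → Bool) → ℝ) : en p q c d f = en p q d c f := by
  unfold en
  apply sum_congr rfl
  intro x _
  have h : Osep p q c d x ↔ Osep p q d c x := by
    unfold Osep
    constructor
    · rintro ⟨h1, h2, h3⟩; exact ⟨h2, h1, h3.symm⟩
    · rintro ⟨h1, h2, h3⟩; exact ⟨h2, h1, h3.symm⟩
  have : sw p q c d x = sw p q d c x := by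
    funext e
    unfold sw
    have h2 : (Osep p q c d x ∧ (e = p c ∨ e = p d ∨ e = q c ∨ e = q d)) ↔
        (Osep p q d c x ∧ (e = p d ∨ e = p c ∨ e = q d ∨ e = q c)) := by
      rw [h]; tauto
    simp only [h2]
  rw [this]

theorem en_self_col {κ S : Type*} [DecidableEq κ] [DecidableEq S] [Fintype S] (p q : κ → S)
    (c : κ) (f : (S → Bool) → ℝ) : en p q c c f = 0 := by
  unfold en
  apply sum_eq_zero
  intro x _
  have h : ¬ Osep p q c c x := by
    unfold Osep
    rintro ⟨_, _, h3⟩; exact h3 rfl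
  rw [T1.sw_of_not h]; simp

/-- **T1**: Johnson gap at least two. -/
theorem twoRow_poincare {κ S : Type*} [DecidableEq κ] [DecidableEq S] [Fintype S]
    (p q : κ → S) (U : Finset κ) (hp : Set.InjOn p U)
    (hq : Set.InjOn q U) (hpq : ∀ z ∈ U, ∀ w ∈ U, p z ≠ q w) (f : (S → Bool) → ℝ) :
    ∑ x, (f x - cE (rel p q U) f x) ^ 2 ≤ (1 / 8) * ∑ c ∈ U, ∑ d ∈ U, en p q c d f := by
  classical
  induction U using Finset.induction_on with
  | empty =>
    have : ∀ x, cE (rel p q ∅) f x = f x := by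
      intro x
      apply cE_of_inv
      intro y hy
      have : x = y := by
        funext e
        exact (rel_iff.mp hy).1 e (by simp)
      rw [this]
    simp [this]
  | insert c U hc ih =>
    have ih' := ih (hp.mono (by simp)) (hq.mono (by simp))
      (fun z hz w hw => hpq z (mem_insert_of_mem hz) w (mem_insert_of_mem hw))
    have hst := T1.step hc hp hq hpq f
    have hle := T1.rel_le_insert hc hp hq hpq
    have e1 := sum_sq_sub_cE (rel p q (insert c U)) f
    have e2 := sum_sq_sub_cE (rel p q U) f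
    have e3 := sum_sq_sub_cE (rel p q (insert c U)) (cE (rel p q U) f)
    rw [cE_cE_of_ge hle f] at e3
    have e4 : ∑ c' ∈ insert c U, ∑ d ∈ insert c U, en p q c' d f
        = ∑ c' ∈ U, ∑ d ∈ U, en p q c' d f + 2 * ∑ d ∈ U, en p q c d f := by
      rw [sum_insert hc, sum_insert hc, en_self_col]
      have : ∑ c' ∈ U, ∑ d ∈ insert c U, en p q c' d f
          = ∑ c' ∈ U, (en p q c c' f + ∑ d ∈ U, en p q c' d f) := by
        apply sum_congr rfl
        intro c' _
        rw [sum_insert hc, en_comm_col p q c' c]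
      rw [this, sum_add_distrib]
      ring
    rw [e4]
    linarith

end Crest.Agent.R299
end

-- ▼ part R299/Coupling
section

/-! # T3b: averaging coupling (row 299) -/

set_option autoImplicit false
open Finset

namespace Crest.Agent.R299

variable {κ : Type*} [DecidableEq κ]

theorem sum_powersetCard_insert (n : ℕ) (a : κ) (s : Finset κ) (ha : a ∉ s) (g : Finset κ → ℝ) :
    ∑ B ∈ powersetCard (n + 1) (insert a s), g B =
      ∑ B ∈ powersetCard (n + 1) s, g B + ∑ B ∈ powersetCard n s, g (insert a B) := by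
  rw [powersetCard_succ_insert ha, sum_union, sum_image]
  · intro A hA B hB hAB
    have hA' := (mem_powersetCard.mp hA).1
    have hB' := (mem_powersetCard.mp hB).1
    have h1 : a ∉ A := fun h => ha (hA' h)
    have h2 : a ∉ B := fun h => ha (hB' h)
    rw [← erase_insert h1, ← erase_insert h2, hAB]
  · rw [disjoint_left]
    intro A hA hA2
    rw [mem_image] at hA2
    obtain ⟨B, _, rfl⟩ := hA2
    exact ha ((mem_powersetCard.mp hA).1 (mem_insert_self _ _))

theorem sum_pairs (M : Finset κ) (x : ℕ) (F : Finset κ → κ → ℝ) :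
    ∑ A ∈ powersetCard x M, ∑ e ∈ M \ A, F A e =
      ∑ B ∈ powersetCard (x + 1) M, ∑ e ∈ B, F (B.erase e) e := by
  rw [sum_sigma', sum_sigma']
  refine sum_bij' (fun p _ => ⟨insert p.2 p.1, p.2⟩) (fun p _ => ⟨p.1.erase p.2, p.2⟩) ?_ ?_ ?_ ?_ ?_
  · rintro ⟨A, e⟩ h
    simp only [mem_sigma, mem_powersetCard, mem_sdiff] at h ⊢
    obtain ⟨⟨h1, h2⟩, h3, h4⟩ := h
    exact ⟨⟨insert_subset h3 h1, by rw [card_insert_of_notMem h4, h2]⟩, mem_insert_self _ _⟩
  · rintro ⟨B, e⟩ h
    simp only [mem_sigma, mem_powersetCard, mem_sdiff] at h ⊢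
    obtain ⟨⟨h1, h2⟩, h3⟩ := h
    exact ⟨⟨(erase_subset _ _).trans h1, by rw [card_erase_of_mem h3, h2]; rfl⟩, h1 h3,
      notMem_erase _ _⟩
  · rintro ⟨A, e⟩ h
    simp only [mem_sigma, mem_powersetCard, mem_sdiff] at h
    simp [erase_insert h.2.2]
  · rintro ⟨B, e⟩ h
    simp only [mem_sigma, mem_powersetCard] at h
    simp [insert_erase h.2]
  · rintro ⟨A, e⟩ h
    simp only [mem_sigma, mem_powersetCard, mem_sdiff] at h
    simp [erase_insert h.2.2]

theorem avg_coupling (M : Finset κ) (j k : κ) (hj : j ∉ M) (hk : k ∉ M) (hjk : j ≠ k)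
    (x : ℕ) (hx : x ≤ M.card) (g h : Finset κ → ℝ) (b : ℝ)
    (h1 : ∀ A ∈ powersetCard x M, |g (insert j A) - h A| ≤ b)
    (h2 : ∀ A ∈ powersetCard x M, |g (insert k A) - h A| ≤ b)
    (h3 : ∀ A ∈ powersetCard x M, ∀ e ∈ A, |g (insert j (insert k (A.erase e))) - h A| ≤ b)
    (h4 : ∀ A ∈ powersetCard x M, ∀ e ∈ M \ A, |g (insert e A) - h A| ≤ b) :
    |(∑ B ∈ powersetCard (x + 1) (insert j (insert k M)), g B) /
        (((M.card + 2).choose (x + 1) : ℕ) : ℝ) -
      (∑ A ∈ powersetCard x M, h A) / ((M.card.choose x : ℕ) : ℝ)| ≤ b := by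
  set m := M.card with hm
  have hjk' : j ∉ insert k M := by simp [hj, hjk]
  set D : ℝ := ((m.choose x : ℕ) : ℝ) with hD
  have hDpos : 0 < D := by
    rw [hD]; exact_mod_cast Nat.choose_pos hx
  set N : ℝ := (((m + 2).choose (x + 1) : ℕ) : ℝ) with hN
  have hNpos : 0 < N := by
    rw [hN]; exact_mod_cast Nat.choose_pos (by omega)
  have hcardP : ((powersetCard x M).card : ℝ) = D := by rw [card_powersetCard]
  -- weights
  set α : ℝ := 1 / ((m : ℝ) - x + 1) with hα
  set β : ℝ := 1 / ((x : ℝ) + 1) with hβ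
  have hmx : (0 : ℝ) < (m : ℝ) - x + 1 := by
    have : (x : ℝ) ≤ m := by exact_mod_cast hx
    linarith
  have hx1 : (0 : ℝ) < (x : ℝ) + 1 := by positivity
  have hα0 : 0 ≤ α := by rw [hα]; positivity
  have hβ0 : 0 ≤ β := by rw [hβ]; positivity
  -- the decomposition of the sum over `B`
  have e4 : ∑ B ∈ powersetCard (x + 1) M, g B =
      ∑ A ∈ powersetCard x M, β * ∑ e ∈ M \ A, g (insert e A) := by
    rw [← mul_sum, sum_pairs M x (fun A e => g (insert e A)), mul_sum]
    apply sum_congr rfl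
    intro B hB
    have : ∑ e ∈ B, g (insert e (B.erase e)) = ((x : ℝ) + 1) * g B := by
      rw [sum_congr rfl (fun e he => by rw [insert_erase he]), sum_const,
        (mem_powersetCard.mp hB).2, nsmul_eq_mul]
      push_cast; ring
    rw [this, hβ]
    field_simp
  have e3 : ∑ B ∈ powersetCard (x + 1) (insert j (insert k M)), g B =
      ∑ A ∈ powersetCard x M, (g (insert j A) + g (insert k A) +
        α * (∑ e ∈ A, g (insert j (insert k (A.erase e)))) +
        β * ∑ e ∈ M \ A, g (insert e A)) := by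
    rw [sum_powersetCard_insert x j _ hjk', sum_powersetCard_insert x k M hk, e4]
    simp only [sum_add_distrib]
    have key : ∑ B ∈ powersetCard x (insert k M), g (insert j B) =
        ∑ A ∈ powersetCard x M, g (insert j A) +
          ∑ A ∈ powersetCard x M, α * ∑ e ∈ A, g (insert j (insert k (A.erase e))) := by
      rcases x with _ | y
      · simp
      · rw [sum_powersetCard_insert y k M hk (fun B => g (insert j B)), ← mul_sum]
        congr 1
        have := sum_pairs M y (fun A _ => g (insert j (insert k A)))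
        rw [← this, mul_sum]
        apply sum_congr rfl
        intro A hA
        rw [sum_const, nsmul_eq_mul, card_sdiff_of_subset (mem_powersetCard.mp hA).1,
          (mem_powersetCard.mp hA).2, ← hm, hα]
        rw [Nat.cast_sub (by omega)]
        have : ((m : ℝ) - (y + 1 : ℕ) + 1) = (m : ℝ) - y := by push_cast; ring
        rw [this]
        rw [this] at hmx
        field_simp
    rw [key]
    ring
  -- the weight identity
  have hW : N = D * (2 + α * x + β * (m - x)) := by
    have c1 : ((m + 2).choose (x + 1) : ℕ) = m.choose (x+1) + 2 * m.choose x +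
        (if x = 0 then 0 else m.choose (x - 1)) := by
      rcases x with _ | y
      · simp
      · rw [if_neg (by omega), Nat.choose_succ_succ' (m+1) (y+1), Nat.choose_succ_succ' m (y+1),
          Nat.choose_succ_succ' m y]
        simp; ring
    have c2 : ((m.choose (x+1) : ℕ) : ℝ) * ((x : ℝ) + 1) = D * ((m : ℝ) - x) := by
      have := Nat.choose_succ_right_eq m x
      rw [hD, ← Nat.cast_sub hx]
      exact_mod_cast this
    have c3 : ((if x = 0 then 0 else m.choose (x - 1) : ℕ) : ℝ) * ((m : ℝ) - x + 1) = D * x := by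
      rcases x with _ | y
      · simp
      · rw [if_neg (by omega), hD]
        have := Nat.choose_succ_right_eq m y
        have h5 : ((m.choose (y+1) : ℕ) : ℝ) * ((y : ℝ) + 1) = (m.choose y : ℝ) * ((m : ℝ) - y) := by
          rw [← Nat.cast_sub (by omega)]
          exact_mod_cast this
        simp only [Nat.add_sub_cancel]
        push_cast
        linear_combination -h5
    rw [hN, c1]
    push_cast at c3 ⊢
    rw [hα, hβ]
    have c2' : ((m.choose (x+1) : ℕ) : ℝ) = D * ((m : ℝ) - x) * (1 / ((x:ℝ) + 1)) := by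
      field_simp; exact c2
    have c3' : (if x = 0 then (0:ℝ) else (m.choose (x - 1) : ℝ)) =
        D * x * (1 / ((m : ℝ) - x + 1)) := by
      field_simp; exact c3
    rw [c2', c3', ← hD]
    ring
  have hWpos : 0 < 2 + α * x + β * (m - x) := by
    have : (0:ℝ) ≤ (m : ℝ) - x := by
      have : (x : ℝ) ≤ m := by exact_mod_cast hx
      linarith
    positivity
  have hsum : |(∑ B ∈ powersetCard (x + 1) (insert j (insert k M)), g B) -
      (2 + α * x + β * (m - x)) * ∑ A ∈ powersetCard x M, h A| ≤ N * b := by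
    rw [e3, mul_sum, ← sum_sub_distrib]
    refine (abs_sum_le_sum_abs _ _).trans ?_
    have : N * b = ∑ A ∈ powersetCard x M, (2 + α * x + β * (m - x)) * b := by
      rw [sum_const, nsmul_eq_mul, hcardP, hW]; ring
    rw [this]
    apply sum_le_sum
    intro A hA
    have hcA := (mem_powersetCard.mp hA).2
    have hsA := (mem_powersetCard.mp hA).1
    have s3 : |∑ e ∈ A, (g (insert j (insert k (A.erase e))) - h A)| ≤ x * b := by
      refine (abs_sum_le_sum_abs _ _).trans ((sum_le_sum (h3 A hA)).trans ?_)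
      rw [sum_const, hcA, nsmul_eq_mul]
    have s4 : |∑ e ∈ M \ A, (g (insert e A) - h A)| ≤ (m - x) * b := by
      refine (abs_sum_le_sum_abs _ _).trans ((sum_le_sum (h4 A hA)).trans ?_)
      rw [sum_const, card_sdiff_of_subset hsA, hcA, nsmul_eq_mul, Nat.cast_sub hx]
    have r3 : ∑ e ∈ A, (g (insert j (insert k (A.erase e))) - h A) =
        (∑ e ∈ A, g (insert j (insert k (A.erase e)))) - x * h A := by
      rw [sum_sub_distrib, sum_const, hcA, nsmul_eq_mul]
    have r4 : ∑ e ∈ M \ A, (g (insert e A) - h A) =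
        (∑ e ∈ M \ A, g (insert e A)) - (m - x) * h A := by
      rw [sum_sub_distrib, sum_const, card_sdiff_of_subset hsA, hcA, nsmul_eq_mul,
        Nat.cast_sub hx]
    have e5 : g (insert j A) + g (insert k A) +
        α * (∑ e ∈ A, g (insert j (insert k (A.erase e)))) +
        β * ∑ e ∈ M \ A, g (insert e A) - (2 + α * x + β * (m - x)) * h A =
        (g (insert j A) - h A) + (g (insert k A) - h A) +
        α * (∑ e ∈ A, (g (insert j (insert k (A.erase e))) - h A)) +
        β * (∑ e ∈ M \ A, (g (insert e A) - h A)) := by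
      rw [r3, r4]; ring
    rw [e5]
    have t1 := h1 A hA
    have t2 := h2 A hA
    have t3 : |α * (∑ e ∈ A, (g (insert j (insert k (A.erase e))) - h A))| ≤ α * (x * b) := by
      rw [abs_mul, abs_of_nonneg hα0]
      exact mul_le_mul_of_nonneg_left s3 hα0
    have t4 : |β * (∑ e ∈ M \ A, (g (insert e A) - h A))| ≤ β * ((m - x) * b) := by
      rw [abs_mul, abs_of_nonneg hβ0]
      exact mul_le_mul_of_nonneg_left s4 hβ0
    calc _ ≤ |g (insert j A) - h A| + |g (insert k A) - h A| +
        |α * (∑ e ∈ A, (g (insert j (insert k (A.erase e))) - h A))| +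
        |β * (∑ e ∈ M \ A, (g (insert e A) - h A))| := by
          refine (abs_add_le _ _).trans (add_le_add ?_ le_rfl)
          refine (abs_add_le _ _).trans (add_le_add ?_ le_rfl)
          exact abs_add_le _ _
      _ ≤ b + b + α * (x * b) + β * ((m - x) * b) := by linarith
      _ = _ := by ring
  have e6 : (∑ B ∈ powersetCard (x + 1) (insert j (insert k M)), g B) / N -
      (∑ A ∈ powersetCard x M, h A) / D =
      ((∑ B ∈ powersetCard (x + 1) (insert j (insert k M)), g B) -
      (2 + α * x + β * (m - x)) * ∑ A ∈ powersetCard x M, h A) / N := by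
    rw [hW]
    field_simp
  rw [e6, abs_div, abs_of_pos hNpos, div_le_iff₀ hNpos, mul_comm b N]
  exact hsum

end Crest.Agent.R299
end

-- ▼ part R299/ThreeRow
section

/-! # T3c : the three-row lemma -/

set_option autoImplicit false
set_option linter.unusedSectionVars false
set_option linter.unusedSimpArgs false
open Finset

namespace Crest.Agent.R299

namespace TR

/-! ### the maximum principle -/

theorem max_principle {α : Type*} [Fintype α] (R : α → α → Prop) (f : α → ℝ) (lam : ℝ)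
    (hl : 2 < lam)
    (h : ∀ b : ℝ, (∀ x y, R x y → |f x - f y| ≤ b) → ∀ x y, R x y → lam * |f x - f y| ≤ 2 * b) :
    ∀ x y, R x y → f x = f y := by
  classical
  intro x y hxy
  set T : Finset (α × α) := univ.filter fun t => R t.1 t.2 with hT
  have hmem : ∀ u v, R u v ↔ (u, v) ∈ T := by intro u v; simp [hT]
  obtain ⟨t, htT, ht⟩ := T.exists_max_image (fun t => |f t.1 - f t.2|) ⟨(x, y), (hmem x y).1 hxy⟩
  have hR : R t.1 t.2 := (hmem _ _).2 htT
  have h1 := h |f t.1 - f t.2| (fun u v huv => ht (u, v) ((hmem u v).1 huv)) t.1 t.2 hR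
  have h2 : |f t.1 - f t.2| ≤ 0 := by nlinarith [abs_nonneg (f t.1 - f t.2)]
  have h3 := ht (x, y) ((hmem x y).1 hxy)
  have h4 : |f x - f y| ≤ 0 := le_trans h3 h2
  have h5 : |f x - f y| = 0 := le_antisymm h4 (abs_nonneg _)
  have h6 := abs_eq_zero.1 h5
  linarith

theorem cE_abs_le {α : Type*} [Fintype α] (r : Setoid α) (g : α → ℝ) (x : α) (b : ℝ)
    (h : ∀ y, r x y → |g y| ≤ b) : |cE r g x| ≤ b := by
  unfold cE
  have hc : (0 : ℝ) < ((cls r x).card : ℝ) := by exact_mod_cast card_cls_pos r x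
  rw [abs_div, abs_of_pos hc, div_le_iff₀ hc]
  calc |∑ y ∈ cls r x, g y| ≤ ∑ y ∈ cls r x, |g y| := abs_sum_le_sum_abs _ _
    _ ≤ ∑ _y ∈ cls r x, b := sum_le_sum fun y hy => h y (mem_cls.1 hy)
    _ = b * ((cls r x).card : ℝ) := by rw [sum_const, nsmul_eq_mul, mul_comm]

theorem univ3 : ∀ p q i : Fin 3, p ≠ q → p ≠ i → q ≠ i → (univ : Finset (Fin 3)) = {p, q, i} := by
  decide

theorem exists_row_eq : ∀ u v : Fin 3 → Bool,
    ∑ r, (u r).toNat = ∑ r, (v r).toNat → ∃ i, u i = v i := by decide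

/-! ### Swapping two columns -/

variable {κ S : Type*} [DecidableEq κ] [DecidableEq S]

/-- the slot permutation exchanging the columns `j` and `k` -/
def perm (sl : Fin 3 → κ → S) (j k : κ) : Equiv.Perm S :=
  (Equiv.swap (sl 0 j) (sl 0 k)) * (Equiv.swap (sl 1 j) (sl 1 k)) * (Equiv.swap (sl 2 j) (sl 2 k))

/-- swap the columns `j`, `k` -/
def swp (sl : Fin 3 → κ → S) (j k : κ) : Equiv.Perm (S → Bool) where
  toFun x := fun e => x (perm sl j k e)
  invFun x := fun e => x ((perm sl j k).symm e)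
  left_inv x := by funext e; simp
  right_inv x := by funext e; simp

def Inj (sl : Fin 3 → κ → S) (U : Finset κ) : Prop :=
  ∀ i j, ∀ z ∈ U, ∀ w ∈ U, sl i z = sl j w → i = j ∧ z = w

omit [DecidableEq κ] [DecidableEq S] in
theorem Inj.ne {sl : Fin 3 → κ → S} {U : Finset κ} (h : Inj sl U) {i j : Fin 3} {z w : κ}
    (hz : z ∈ U) (hw : w ∈ U) (hne : i ≠ j ∨ z ≠ w) : sl i z ≠ sl j w := by
  intro he
  obtain ⟨h1, h2⟩ := h i j z hz w hw he
  rcases hne with h3 | h3
  · exact h3 h1
  · exact h3 h2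

theorem swap_mem {U : Finset κ} {j k z : κ} (hj : j ∈ U) (hk : k ∈ U) (hz : z ∈ U) :
    Equiv.swap j k z ∈ U := by
  by_cases h1 : z = j
  · subst h1; simpa using hk
  · by_cases h2 : z = k
    · subst h2; simpa using hj
    · rw [Equiv.swap_apply_of_ne_of_ne h1 h2]; exact hz

theorem fin3_cases (r : Fin 3) : r = 0 ∨ r = 1 ∨ r = 2 := by revert r; decide

theorem perm_slot {sl : Fin 3 → κ → S} {U : Finset κ} (h : Inj sl U) {j k : κ} (hj : j ∈ U)
    (hk : k ∈ U) (r : Fin 3) {z : κ} (hz : z ∈ U) :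
    perm sl j k (sl r z) = sl r (Equiv.swap j k z) := by
  have key_eq : ∀ r : Fin 3, Equiv.swap (sl r j) (sl r k) (sl r z) = sl r (Equiv.swap j k z) := by
    intro r
    by_cases h1 : z = j
    · subst h1; simp
    · by_cases h2 : z = k
      · subst h2; simp
      · rw [Equiv.swap_apply_of_ne_of_ne h1 h2]
        exact Equiv.swap_apply_of_ne_of_ne (h.ne hz hj (Or.inr h1)) (h.ne hz hk (Or.inr h2))
  have key_ne : ∀ (s r : Fin 3) (z : κ), z ∈ U → s ≠ r →
      Equiv.swap (sl s j) (sl s k) (sl r z) = sl r z := by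
    intro s r z hz hs
    exact Equiv.swap_apply_of_ne_of_ne (h.ne hz hj (Or.inl (Ne.symm hs)))
      (h.ne hz hk (Or.inl (Ne.symm hs)))
  have hz' := swap_mem hj hk hz
  unfold perm
  simp only [Equiv.Perm.mul_apply]
  rcases fin3_cases r with rfl | rfl | rfl
  · rw [key_ne 2 0 z hz (by decide), key_ne 1 0 z hz (by decide), key_eq]
  · rw [key_ne 2 1 z hz (by decide), key_eq, key_ne 0 1 _ hz' (by decide)]
  · rw [key_eq, key_ne 1 2 _ hz' (by decide), key_ne 0 2 _ hz' (by decide)]

theorem perm_off {sl : Fin 3 → κ → S} {j k : κ} {e : S}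
    (he : ∀ r, e ≠ sl r j ∧ e ≠ sl r k) : perm sl j k e = e := by
  unfold perm
  simp only [Equiv.Perm.mul_apply]
  rw [Equiv.swap_apply_of_ne_of_ne (he 2).1 (he 2).2, Equiv.swap_apply_of_ne_of_ne (he 1).1 (he 1).2,
    Equiv.swap_apply_of_ne_of_ne (he 0).1 (he 0).2]

theorem swp_slot {sl : Fin 3 → κ → S} {U : Finset κ} (h : Inj sl U) {j k : κ} (hj : j ∈ U)
    (hk : k ∈ U) (r : Fin 3) {z : κ} (hz : z ∈ U) (x : S → Bool) :
    swp sl j k x (sl r z) = x (sl r (Equiv.swap j k z)) := by
  show x (perm sl j k (sl r z)) = _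
  rw [perm_slot h hj hk r hz]

theorem swp_off {sl : Fin 3 → κ → S} {j k : κ} {e : S}
    (he : ∀ r, e ≠ sl r j ∧ e ≠ sl r k) (x : S → Bool) : swp sl j k x e = x e := by
  show x (perm sl j k e) = _
  rw [perm_off he]

omit [DecidableEq κ] [DecidableEq S] in
theorem state_ext {sl : Fin 3 → κ → S} {U : Finset κ} {x y : S → Bool}
    (h1 : ∀ e, (∀ r, ∀ z ∈ U, e ≠ sl r z) → x e = y e)
    (h2 : ∀ r, ∀ z ∈ U, x (sl r z) = y (sl r z)) : x = y := by
  funext e
  by_cases he : ∃ r, ∃ z ∈ U, e = sl r z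
  · obtain ⟨r, z, hz, rfl⟩ := he
    exact h2 r z hz
  · push Not at he
    exact h1 e he

/-- the relation of two rows in column form -/
theorem rel_rows {sl : Fin 3 → κ → S} {U : Finset κ} (h : Inj sl U) {p q i : Fin 3}
    (hpq : p ≠ q) (hpi : p ≠ i) (hqi : q ≠ i) {x y : S → Bool} :
    rel (sl p) (sl q) U x y ↔ (∀ e, (∀ r, ∀ z ∈ U, e ≠ sl r z) → x e = y e) ∧
      (∀ z ∈ U, x (sl i z) = y (sl i z)) ∧
      (∀ z ∈ U, (x (sl p z)).toNat + (x (sl q z)).toNat =
        (y (sl p z)).toNat + (y (sl q z)).toNat) ∧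
      ∑ z ∈ U, (x (sl p z)).toNat = ∑ z ∈ U, (y (sl p z)).toNat := by
  rw [rel_iff]
  constructor
  · rintro ⟨h1, h2, h3⟩
    refine ⟨fun e he => h1 e fun z hz => ⟨he p z hz, he q z hz⟩, fun z hz => ?_, h2, h3⟩
    exact h1 _ fun w hw => ⟨h.ne hz hw (Or.inl (Ne.symm hpi)), h.ne hz hw (Or.inl (Ne.symm hqi))⟩
  · rintro ⟨h1, h1', h2, h3⟩
    refine ⟨fun e he => ?_, h2, h3⟩
    by_cases hr : ∃ r, ∃ z ∈ U, e = sl r z
    · obtain ⟨r, z, hz, rfl⟩ := hr
      have hr' : r = i := by
        have e1 : r ≠ p := fun hh => (he z hz).1 (by rw [hh])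
        have e2 : r ≠ q := fun hh => (he z hz).2 (by rw [hh])
        omega
      rw [hr']
      exact h1' z hz
    · push Not at hr
      exact h1 e hr

theorem rel_swap_rows (p q : κ → S) (U : Finset κ) : rel p q U = rel q p U := by
  have key : ∀ (p q : κ → S) (x y : S → Bool), rel p q U x y → rel q p U x y := by
    intro p q x y h
    rw [rel_iff] at h ⊢
    obtain ⟨h1, h2, h3⟩ := h
    refine ⟨fun e he => h1 e fun z hz => ⟨(he z hz).2, (he z hz).1⟩, fun z hz => ?_, ?_⟩
    · have := h2 z hz; omega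
    · have h4 := sum_congr rfl h2
      rw [sum_add_distrib, sum_add_distrib] at h4
      omega
  ext x y
  exact ⟨key p q x y, key q p x y⟩

/-- Swapping two columns preserves the relation. -/
theorem swp_rel {sl : Fin 3 → κ → S} {U : Finset κ} (h : Inj sl U) {p q i : Fin 3}
    (hpq : p ≠ q) (hpi : p ≠ i) (hqi : q ≠ i) {j k : κ} (hj : j ∈ U) (hk : k ∈ U)
    {x y : S → Bool} (hxy : rel (sl p) (sl q) U x y) :
    rel (sl p) (sl q) U (swp sl j k x) (swp sl j k y) := by
  rw [rel_rows h hpq hpi hqi] at hxy ⊢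
  obtain ⟨h1, h2, h3, h4⟩ := hxy
  refine ⟨fun e he => ?_, fun z hz => ?_, fun z hz => ?_, ?_⟩
  · have he' : ∀ r, e ≠ sl r j ∧ e ≠ sl r k := fun r => ⟨he r j hj, he r k hk⟩
    rw [swp_off he', swp_off he']
    exact h1 e he
  · rw [swp_slot h hj hk i hz, swp_slot h hj hk i hz]
    exact h2 _ (swap_mem hj hk hz)
  · rw [swp_slot h hj hk _ hz, swp_slot h hj hk _ hz, swp_slot h hj hk _ hz, swp_slot h hj hk _ hz]
    exact h3 _ (swap_mem hj hk hz)
  · have key : ∀ x : S → Bool, ∑ z ∈ U, (swp sl j k x (sl p z)).toNat =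
        ∑ z ∈ U, (x (sl p z)).toNat := by
      intro x
      refine sum_bij (fun z _ => Equiv.swap j k z) (fun z hz => swap_mem hj hk hz)
        (fun a _ b _ hab => (Equiv.swap j k).injective hab)
        (fun b hb => ⟨Equiv.swap j k b, swap_mem hj hk hb, by simp⟩) ?_
      intro z hz
      rw [swp_slot h hj hk p hz]
    rw [key, key, h4]

theorem swp_swp {sl : Fin 3 → κ → S} {U : Finset κ} (h : Inj sl U) {j k : κ} (hj : j ∈ U)
    (hk : k ∈ U) (x : S → Bool) : swp sl j k (swp sl j k x) = x := by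
  refine state_ext (sl := sl) (U := U) ?_ ?_
  · intro e he
    have he' : ∀ r, e ≠ sl r j ∧ e ≠ sl r k := fun r => ⟨he r j hj, he r k hk⟩
    rw [swp_off he', swp_off he']
  · intro r z hz
    rw [swp_slot h hj hk r hz, swp_slot h hj hk r (swap_mem hj hk hz)]
    simp

theorem swp_rel_iff {sl : Fin 3 → κ → S} {U : Finset κ} (h : Inj sl U) {p q i : Fin 3}
    (hpq : p ≠ q) (hpi : p ≠ i) (hqi : q ≠ i) {j k : κ} (hj : j ∈ U) (hk : k ∈ U)
    (x y : S → Bool) : rel (sl p) (sl q) U x y ↔
      rel (sl p) (sl q) U (swp sl j k x) (swp sl j k y) := by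
  constructor
  · exact swp_rel h hpq hpi hqi hj hk
  · intro hh
    have := swp_rel h hpq hpi hqi hj hk hh
    rwa [swp_swp h hj hk, swp_swp h hj hk] at this

/-- column sum -/
def cs (sl : Fin 3 → κ → S) (x : S → Bool) (z : κ) : ℕ := ∑ r, (x (sl r z)).toNat

theorem cs_rel {sl : Fin 3 → κ → S} {U : Finset κ} (h : Inj sl U) {p q i : Fin 3}
    (hpq : p ≠ q) (hpi : p ≠ i) (hqi : q ≠ i) {x y : S → Bool}
    (hxy : rel (sl p) (sl q) U x y) {z : κ} (hz : z ∈ U) : cs sl x z = cs sl y z := by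
  rw [rel_rows h hpq hpi hqi] at hxy
  obtain ⟨_, h2, h3, _⟩ := hxy
  have key : ∀ x : S → Bool, cs sl x z = (x (sl p z)).toNat + (x (sl q z)).toNat +
      (x (sl i z)).toNat := by
    intro x
    unfold cs
    have hu := univ3 p q i hpq hpi hqi
    rw [hu, sum_insert (by simp [hpq, hpi]), sum_insert (by simp [hqi]), sum_singleton]
    ring
  rw [key, key, h3 z hz, h2 z hz]

/-- If the row `i` agrees on the columns `j`, `k` of equal sum, swapping them stays in the class. -/
theorem swp_in_class {sl : Fin 3 → κ → S} {U : Finset κ} (h : Inj sl U) {p q i : Fin 3}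
    (hpq : p ≠ q) (hpi : p ≠ i) (hqi : q ≠ i) {j k : κ} (hj : j ∈ U) (hk : k ∈ U)
    {x : S → Bool} (hs : cs sl x j = cs sl x k) (hi : x (sl i j) = x (sl i k)) :
    rel (sl p) (sl q) U x (swp sl j k x) := by
  have key : ∀ z, cs sl x z = (x (sl p z)).toNat + (x (sl q z)).toNat +
      (x (sl i z)).toNat := by
    intro z
    unfold cs
    have hu := univ3 p q i hpq hpi hqi
    rw [hu, sum_insert (by simp [hpq, hpi]), sum_insert (by simp [hqi]), sum_singleton]
    ring
  rw [key, key, hi] at hs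
  rw [rel_rows h hpq hpi hqi]
  refine ⟨fun e he => ?_, fun z hz => ?_, fun z hz => ?_, ?_⟩
  · have he' : ∀ r, e ≠ sl r j ∧ e ≠ sl r k := fun r => ⟨he r j hj, he r k hk⟩
    rw [swp_off he']
  · rw [swp_slot h hj hk i hz]
    by_cases h1 : z = j
    · subst h1; simpa using hi
    · by_cases h2 : z = k
      · subst h2; simpa using hi.symm
      · rw [Equiv.swap_apply_of_ne_of_ne h1 h2]
  · rw [swp_slot h hj hk _ hz, swp_slot h hj hk _ hz]
    by_cases h1 : z = j
    · subst h1; simp only [Equiv.swap_apply_left]; omega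
    · by_cases h2 : z = k
      · subst h2; simp only [Equiv.swap_apply_right]; omega
      · rw [Equiv.swap_apply_of_ne_of_ne h1 h2]
  · symm
    refine sum_bij (fun z _ => Equiv.swap j k z) (fun z hz => swap_mem hj hk hz)
      (fun a _ b _ hab => (Equiv.swap j k).injective hab)
      (fun b hb => ⟨Equiv.swap j k b, swap_mem hj hk hb, by simp⟩) ?_
    intro z hz
    rw [swp_slot h hj hk p hz]

theorem cs_eq {sl : Fin 3 → κ → S} {p q i : Fin 3}
    (hpq : p ≠ q) (hpi : p ≠ i) (hqi : q ≠ i) (x : S → Bool) (z : κ) :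
    cs sl x z = (x (sl p z)).toNat + (x (sl q z)).toNat + (x (sl i z)).toNat := by
  unfold cs
  rw [univ3 p q i hpq hpi hqi, sum_insert (by simp [hpq, hpi]), sum_insert (by simp [hqi]),
    sum_singleton]
  ring

/-! ### Step 1 -/

/-- the three expectations -/
noncomputable def EE [Fintype S] (sl : Fin 3 → κ → S) (U : Finset κ) (i : Fin 3)
    (f : (S → Bool) → ℝ) : (S → Bool) → ℝ := cE (rel (sl (i + 1)) (sl (i + 2)) U) f

theorem fin3_ne (i : Fin 3) : i + 1 ≠ i + 2 ∧ i + 1 ≠ i ∧ i + 2 ≠ i := by revert i; decide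

theorem EE_eq [Fintype S] (sl : Fin 3 → κ → S) (U : Finset κ) {p q i : Fin 3}
    (hpq : p ≠ q) (hpi : p ≠ i) (hqi : q ≠ i) (f : (S → Bool) → ℝ) :
    EE sl U i f = cE (rel (sl p) (sl q) U) f := by
  have : (p = i + 1 ∧ q = i + 2) ∨ (p = i + 2 ∧ q = i + 1) := by
    revert p q i; decide
  rcases this with ⟨rfl, rfl⟩ | ⟨rfl, rfl⟩
  · rfl
  · unfold EE
    rw [rel_swap_rows]

theorem step1 [Fintype S] {sl : Fin 3 → κ → S} {U : Finset κ} (h : Inj sl U)
    (f : (S → Bool) → ℝ) (lam : ℝ) (hlam : 2 < lam)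
    (hf : ∀ x, EE sl U 0 f x + EE sl U 1 f x + EE sl U 2 f x = lam * f x)
    {j k : κ} (hj : j ∈ U) (hk : k ∈ U) (x : S → Bool) (hx : cs sl x j = cs sl x k) :
    f x = f (swp sl j k x) := by
  refine max_principle (fun x y => ∃ j ∈ U, ∃ k ∈ U, cs sl x j = cs sl x k ∧ y = swp sl j k x)
    f lam hlam ?_ x (swp sl j k x) ⟨j, hj, k, hk, hx, rfl⟩
  rintro b hb x y ⟨j, hj, k, hk, hs, rfl⟩
  -- each expectation moves by at most `b`, one of them not at all
  have hb0 : 0 ≤ b := le_trans (abs_nonneg _) (hb x _ ⟨j, hj, k, hk, hs, rfl⟩)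
  have hd : ∀ i, |EE sl U i f x - EE sl U i f (swp sl j k x)| ≤ b := by
    intro i
    obtain ⟨n1, n2, n3⟩ := fin3_ne i
    have e1 : EE sl U i f (swp sl j k x) = EE sl U i (fun y => f (swp sl j k y)) x :=
      (cE_comp_of_preserve (swp sl j k) (fun x y => swp_rel_iff h n1 n2 n3 hj hk x y) f x).symm
    rw [e1]
    unfold EE
    rw [← cE_sub]
    refine cE_abs_le _ _ _ _ fun y hy => ?_
    refine hb y _ ⟨j, hj, k, hk, ?_, rfl⟩
    rw [← cs_rel h n1 n2 n3 hy hj, ← cs_rel h n1 n2 n3 hy hk, hs]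
  obtain ⟨i, hi⟩ := exists_row_eq (fun r => x (sl r j)) (fun r => x (sl r k)) hs
  have h0 : EE sl U i f x - EE sl U i f (swp sl j k x) = 0 := by
    obtain ⟨n1, n2, n3⟩ := fin3_ne i
    have := cE_congr (f := f) (swp_in_class h n1 n2 n3 hj hk hs hi)
    unfold EE
    rw [this, sub_self]
  have hsum : lam * (f x - f (swp sl j k x)) =
      (EE sl U 0 f x - EE sl U 0 f (swp sl j k x)) + (EE sl U 1 f x - EE sl U 1 f (swp sl j k x)) +
      (EE sl U 2 f x - EE sl U 2 f (swp sl j k x)) := by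
    have := hf x
    have := hf (swp sl j k x)
    linarith
  have habs : lam * |f x - f (swp sl j k x)| = |lam * (f x - f (swp sl j k x))| := by
    rw [abs_mul, abs_of_pos (show (0 : ℝ) < lam by linarith)]
  rw [habs, hsum]
  have d0 := abs_le.1 (hd 0)
  have d1 := abs_le.1 (hd 1)
  have d2 := abs_le.1 (hd 2)
  rcases fin3_cases i with rfl | rfl | rfl
  · rw [abs_le]; constructor <;> linarith [d1.1, d1.2, d2.1, d2.2]
  · rw [abs_le]; constructor <;> linarith [d0.1, d0.2, d2.1, d2.2]
  · rw [abs_le]; constructor <;> linarith [d1.1, d1.2, d0.1, d0.2]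

/-! ### Step 2 -/

/-- mixed pair of states -/
def Mixed (sl : Fin 3 → κ → S) (U : Finset κ) (p q : Fin 3) (j k : κ) (x y : S → Bool) : Prop :=
  p ≠ q ∧ j ≠ k ∧ j ∈ U ∧ k ∈ U ∧
  (∀ r, x (sl r j) = decide (r = p)) ∧ (∀ r, x (sl r k) = decide (r ≠ p)) ∧
  (∀ r, y (sl r j) = decide (r = q)) ∧ (∀ r, y (sl r k) = decide (r ≠ q)) ∧
  (∀ z ∈ U, z ≠ j → z ≠ k → ∀ r, x (sl r z) = y (sl r z)) ∧
  (∀ e, (∀ r, ∀ z ∈ U, e ≠ sl r z) → x e = y e)

theorem Mixed.symm {sl : Fin 3 → κ → S} {U : Finset κ} {p q : Fin 3} {j k : κ} {x y : S → Bool}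
    (h : Mixed sl U p q j k x y) : Mixed sl U q p j k y x := by
  obtain ⟨h1, h2, h3, h4, h5, h6, h7, h8, h9, h10⟩ := h
  exact ⟨h1.symm, h2, h3, h4, h7, h8, h5, h6, fun z hz ha hb r => (h9 z hz ha hb r).symm,
    fun e he => (h10 e he).symm⟩

/-- a mixed pair is in one class of the third expectation -/
theorem Mixed.rel3 {sl : Fin 3 → κ → S} {U : Finset κ} (h : Inj sl U) {p q i : Fin 3}
    (hpq : p ≠ q) (hpi : p ≠ i) (hqi : q ≠ i) {j k : κ} {x y : S → Bool}
    (hm : Mixed sl U p q j k x y) : rel (sl p) (sl q) U x y := by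
  obtain ⟨h1, h2, h3, h4, h5, h6, h7, h8, h9, h10⟩ := hm
  rw [rel_rows h hpq hpi hqi]
  refine ⟨h10, fun z hz => ?_, fun z hz => ?_, ?_⟩
  · by_cases a1 : z = j
    · subst a1; rw [h5, h7]; simp [hpi.symm, hqi.symm]
    · by_cases a2 : z = k
      · subst a2; rw [h6, h8]; simp [hpi.symm, hqi.symm]
      · exact h9 z hz a1 a2 i
  · by_cases a1 : z = j
    · subst a1; rw [h5, h7, h5, h7]; simp [hpq, hpq.symm]
    · by_cases a2 : z = k
      · subst a2; rw [h6, h8, h6, h8]; simp [hpq, hpq.symm]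
      · rw [h9 z hz a1 a2, h9 z hz a1 a2]
  · have hjU : U = insert j (insert k ((U.erase j).erase k)) := by
      ext z
      simp only [mem_insert, mem_erase]
      constructor
      · intro hz
        by_cases a1 : z = j
        · exact Or.inl a1
        · by_cases a2 : z = k
          · exact Or.inr (Or.inl a2)
          · exact Or.inr (Or.inr ⟨a2, a1, hz⟩)
      · rintro (rfl | rfl | ⟨_, _, hz⟩)
        · exact h3
        · exact h4
        · exact hz
    rw [hjU, sum_insert (by simp [h2]), sum_insert (by simp), sum_insert (by simp [h2]),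
      sum_insert (by simp), h5, h6, h7, h8]
    have : ∑ z ∈ (U.erase j).erase k, (x (sl p z)).toNat =
        ∑ z ∈ (U.erase j).erase k, (y (sl p z)).toNat := by
      refine sum_congr rfl fun z hz => ?_
      rw [mem_erase, mem_erase] at hz
      rw [h9 z hz.2.2 hz.2.1 hz.1]
    rw [this]
    simp [hpq, hpq.symm]

/-! #### values of `setC` -/

section setCvals

variable {sl : Fin 3 → κ → S} {U M A : Finset κ} {q i : Fin 3}

theorem setC_q (h : Inj sl U) (hM : M ⊆ U) (x : S → Bool) {z : κ} (hz : z ∈ M) :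
    setC (sl q) (sl i) M A x (sl q z) = decide (z ∈ A) := by
  unfold setC
  rw [if_pos ⟨z, hz, rfl⟩]
  congr 1
  apply propext
  constructor
  · rintro ⟨w, hw, hwA, he⟩
    obtain ⟨_, h2⟩ := h q q z (hM hz) w (hM hw) he
    rw [h2]; exact hwA
  · intro hA
    exact ⟨z, hz, hA, rfl⟩

theorem setC_i (h : Inj sl U) (hqi : q ≠ i) (hM : M ⊆ U) (x : S → Bool) {z : κ} (hz : z ∈ M) :
    setC (sl q) (sl i) M A x (sl i z) = decide (z ∉ A) := by
  unfold setC
  rw [if_neg, if_pos ⟨z, hz, rfl⟩]
  · congr 1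
    apply propext
    constructor
    · rintro ⟨w, hw, hwA, he⟩
      obtain ⟨_, h2⟩ := h i i z (hM hz) w (hM hw) he
      rw [h2]; exact hwA
    · intro hA
      exact ⟨z, hz, hA, rfl⟩
  · rintro ⟨w, hw, he⟩
    exact h.ne (hM hz) (hM hw) (Or.inl hqi.symm) he

theorem setC_notM (h : Inj sl U) (hM : M ⊆ U) (x : S → Bool) {z : κ} (hz : z ∈ U)
    (hzM : z ∉ M) (r : Fin 3) : setC (sl q) (sl i) M A x (sl r z) = x (sl r z) := by
  unfold setC
  rw [if_neg, if_neg]
  · rintro ⟨w, hw, he⟩
    exact h.ne hz (hM hw) (Or.inr (by rintro rfl; exact hzM hw)) he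
  · rintro ⟨w, hw, he⟩
    exact h.ne hz (hM hw) (Or.inr (by rintro rfl; exact hzM hw)) he

theorem setC_p (h : Inj sl U) {p : Fin 3} (hpq : p ≠ q) (hpi : p ≠ i) (hM : M ⊆ U)
    (x : S → Bool) {z : κ} (hz : z ∈ U) :
    setC (sl q) (sl i) M A x (sl p z) = x (sl p z) := by
  unfold setC
  rw [if_neg, if_neg]
  · rintro ⟨w, hw, he⟩
    exact h.ne hz (hM hw) (Or.inl hpi) he
  · rintro ⟨w, hw, he⟩
    exact h.ne hz (hM hw) (Or.inl hpq) he

theorem setC_off (hM : M ⊆ U) (x : S → Bool) {e : S} (he : ∀ r, ∀ z ∈ U, e ≠ sl r z) :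
    setC (sl q) (sl i) M A x e = x e := by
  unfold setC
  rw [if_neg, if_neg]
  · rintro ⟨w, hw, h⟩
    exact he _ w (hM hw) h
  · rintro ⟨w, hw, h⟩
    exact he _ w (hM hw) h

end setCvals

theorem rows3 {p q i : Fin 3} (hpq : p ≠ q) (hpi : p ≠ i) (hqi : q ≠ i) (r : Fin 3) :
    r = p ∨ r = q ∨ r = i := by omega

/-- The key estimate: one expectation with the first row of the mixed pair fixed. -/
theorem key_bound [Fintype S] {sl : Fin 3 → κ → S} {U : Finset κ} (h : Inj sl U)
    (f : (S → Bool) → ℝ)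
    (ha : ∀ j ∈ U, ∀ k ∈ U, ∀ x, cs sl x j = cs sl x k → f x = f (swp sl j k x)) (b : ℝ)
    (hb : ∀ p q j k x y, Mixed sl U p q j k x y → |f x - f y| ≤ b)
    {p q i : Fin 3} (hpq : p ≠ q) (hpi : p ≠ i) (hqi : q ≠ i) {j k : κ} {x y : S → Bool}
    (hm : Mixed sl U p q j k x y) :
    |cE (rel (sl q) (sl i) U) f y - cE (rel (sl q) (sl i) U) f x| ≤ b := by
  have hm' := hm
  obtain ⟨-, hjk, hj, hk, xj, xk, yj, yk, hoth, hoff⟩ := hm
  have hinjq : Set.InjOn (sl q) U := fun a ha b hb hab => (h q q a ha b hb hab).2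
  have hinji : Set.InjOn (sl i) U := fun a ha b hb hab => (h i i a ha b hb hab).2
  have hneqi : ∀ z ∈ U, ∀ w ∈ U, sl q z ≠ sl i w := fun z hz w hw => h.ne hz hw (Or.inl hqi)
  set M := freeC (sl q) (sl i) U x with hMdef
  have hMU : M ⊆ U := filter_subset _ _
  have hjM : j ∉ M := by
    rw [hMdef, freeC, mem_filter]
    rintro ⟨_, h1⟩
    rw [xj, xj] at h1
    simp [hpq.symm, hpi.symm] at h1
  have hkM : k ∉ M := by
    rw [hMdef, freeC, mem_filter]
    rintro ⟨_, h1⟩
    rw [xk, xk] at h1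
    simp [hpq.symm, hpi.symm] at h1
  have hM' : freeC (sl q) (sl i) U y = insert j (insert k M) := by
    ext z
    rw [mem_insert, mem_insert, hMdef, freeC, freeC, mem_filter, mem_filter]
    by_cases z1 : z = j
    · subst z1
      simp only [true_or, iff_true]
      exact ⟨hj, by rw [yj, yj]; simp [hqi.symm]⟩
    · by_cases z2 : z = k
      · subst z2
        simp only [true_or, or_true, iff_true]
        exact ⟨hk, by rw [yk, yk]; simp [hqi.symm]⟩
      · simp only [z1, z2, false_or]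
        constructor
        · rintro ⟨hz, h1⟩
          exact ⟨hz, by rw [hoth z hz z1 z2, hoth z hz z1 z2]; exact h1⟩
        · rintro ⟨hz, h1⟩
          exact ⟨hz, by rw [← hoth z hz z1 z2, ← hoth z hz z1 z2]; exact h1⟩
  have hjP : j ∉ posC (sl q) (sl i) U x := by
    rw [posC, mem_filter]
    rintro ⟨_, h1, _⟩
    rw [xj] at h1
    simp [hpq.symm] at h1
  have hP' : posC (sl q) (sl i) U y = insert j (posC (sl q) (sl i) U x) := by
    ext z
    rw [mem_insert, posC, posC, mem_filter, mem_filter]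
    by_cases z1 : z = j
    · subst z1
      simp only [true_or, iff_true]
      exact ⟨hj, by rw [yj]; simp, by rw [yj]; simp [hqi.symm]⟩
    · by_cases z2 : z = k
      · subst z2
        simp only [z1, false_or]
        constructor
        · rintro ⟨_, h1, _⟩
          rw [yk] at h1; simp at h1
        · rintro ⟨_, _, h1⟩
          rw [xk] at h1; simp [hpi.symm] at h1
      · simp only [z1, false_or]
        constructor
        · rintro ⟨hz, h1, h2⟩
          exact ⟨hz, by rw [hoth z hz z1 z2]; exact h1, by rw [hoth z hz z1 z2]; exact h2⟩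
        · rintro ⟨hz, h1, h2⟩
          exact ⟨hz, by rw [← hoth z hz z1 z2]; exact h1, by rw [← hoth z hz z1 z2]; exact h2⟩
  have hPM : posC (sl q) (sl i) U x ⊆ M := by
    intro z hz
    rw [posC, mem_filter] at hz
    rw [hMdef, freeC, mem_filter]
    exact ⟨hz.1, by rw [hz.2.1, hz.2.2]; simp⟩
  rw [cE_rel_eq (sl q) (sl i) U hinjq hinji hneqi f y, cE_rel_eq (sl q) (sl i) U hinjq hinji hneqi f x,
    hM', hP', ← hMdef, card_insert_of_notMem hjP]
  have hcard : (insert j (insert k M)).card = M.card + 2 := by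
    rw [card_insert_of_notMem (by simp [hjk, hjM]), card_insert_of_notMem hkM]
  rw [hcard]
  have hM'U : insert j (insert k M) ⊆ U := by
    intro z hz
    rw [mem_insert, mem_insert] at hz
    rcases hz with rfl | rfl | hz
    · exact hj
    · exact hk
    · exact hMU hz
  have hjM' : j ∈ insert j (insert k M) := mem_insert_self _ _
  have hkM' : k ∈ insert j (insert k M) := mem_insert_of_mem (mem_insert_self _ _)
  set M' := insert j (insert k M) with hM'def
  -- rows
  have hr3 := rows3 hpq hpi hqi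
  -- column values of the two states
  have XA_M : ∀ A, ∀ z ∈ M, ∀ r, setC (sl q) (sl i) M A x (sl r z) =
      if r = p then x (sl p z) else if r = q then decide (z ∈ A) else decide (z ∉ A) := by
    intro A z hz r
    rcases hr3 r with rfl | rfl | rfl
    · rw [if_pos rfl]; exact setC_p h hpq hpi hMU x (hMU hz)
    · rw [if_neg hpq.symm, if_pos rfl]; exact setC_q h hMU x hz
    · rw [if_neg hpi.symm, if_neg hqi.symm]; exact setC_i h hqi hMU x hz
  have XA_nM : ∀ A, ∀ z ∈ U, z ∉ M → ∀ r, setC (sl q) (sl i) M A x (sl r z) = x (sl r z) :=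
    fun A z hz hzM r => setC_notM h hMU x hz hzM r
  have YB_M : ∀ B, ∀ z ∈ M', ∀ r, setC (sl q) (sl i) M' B y (sl r z) =
      if r = p then y (sl p z) else if r = q then decide (z ∈ B) else decide (z ∉ B) := by
    intro B z hz r
    rcases hr3 r with rfl | rfl | rfl
    · rw [if_pos rfl]; exact setC_p h hpq hpi hM'U y (hM'U hz)
    · rw [if_neg hpq.symm, if_pos rfl]; exact setC_q h hM'U y hz
    · rw [if_neg hpi.symm, if_neg hqi.symm]; exact setC_i h hqi hM'U y hz
  have YB_nM : ∀ B, ∀ z ∈ U, z ∉ M' → ∀ r, setC (sl q) (sl i) M' B y (sl r z) = y (sl r z) :=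
    fun B z hz hzM r => setC_notM h hM'U y hz hzM r
  have Aoff : ∀ A e, (∀ r, ∀ z ∈ U, e ≠ sl r z) → setC (sl q) (sl i) M A x e = x e :=
    fun A e he => setC_off hMU x he
  have Boff : ∀ A e, (∀ r, ∀ z ∈ U, e ≠ sl r z) → setC (sl q) (sl i) M' A y e = y e :=
    fun A e he => setC_off hM'U y he
  have memM' : ∀ z, z ∈ M' ↔ z = j ∨ z = k ∨ z ∈ M := by
    intro z; rw [hM'def, mem_insert, mem_insert]
  refine avg_coupling M j k hjM hkM hjk _ (card_le_card hPM)
    (fun B => f (setC (sl q) (sl i) M' B y)) (fun A => f (setC (sl q) (sl i) M A x)) b ?_ ?_ ?_ ?_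
  · intro A hA
    have hAM := (mem_powersetCard.1 hA).1
    rw [abs_sub_comm]
    refine hb p q j k _ _ ⟨hpq, hjk, hj, hk, ?_, ?_, ?_, ?_, ?_, ?_⟩
    · intro r; rw [XA_nM A j hj hjM, xj]
    · intro r; rw [XA_nM A k hk hkM, xk]
    · intro r
      rw [YB_M _ j hjM', yj]
      rcases hr3 r with rfl | rfl | rfl <;> simp [hpq, hpi, hqi, hpq.symm, hpi.symm, hqi.symm]
    · intro r
      have : k ∉ insert j A := by
        rw [mem_insert]; rintro (h1 | h1)
        · exact hjk h1.symm
        · exact hkM (hAM h1)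
      rw [YB_M _ k hkM', yk]
      rcases hr3 r with rfl | rfl | rfl <;> simp [hpq, hpi, hqi, hpq.symm, hpi.symm, hqi.symm, this]
    · intro z hz z1 z2 r
      by_cases hzM : z ∈ M
      · rw [XA_M A z hzM, YB_M _ z ((memM' z).2 (Or.inr (Or.inr hzM))), hoth z hz z1 z2]
        simp [z1]
      · rw [XA_nM A z hz hzM, YB_nM _ z hz (by rw [memM']; simp [z1, z2, hzM]), hoth z hz z1 z2]
    · intro e he
      rw [Aoff A e he, Boff _ e he, hoff e he]
  · intro A hA
    have hAM := (mem_powersetCard.1 hA).1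
    rw [abs_sub_comm]
    refine hb p i j k _ _ ⟨hpi, hjk, hj, hk, ?_, ?_, ?_, ?_, ?_, ?_⟩
    · intro r; rw [XA_nM A j hj hjM, xj]
    · intro r; rw [XA_nM A k hk hkM, xk]
    · intro r
      have : j ∉ insert k A := by
        rw [mem_insert]; rintro (h1 | h1)
        · exact hjk h1
        · exact hjM (hAM h1)
      rw [YB_M _ j hjM', yj]
      rcases hr3 r with rfl | rfl | rfl <;> simp [hpq, hpi, hqi, hpq.symm, hpi.symm, hqi.symm, this]
    · intro r
      rw [YB_M _ k hkM', yk]
      rcases hr3 r with rfl | rfl | rfl <;> simp [hpq, hpi, hqi, hpq.symm, hpi.symm, hqi.symm]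
    · intro z hz z1 z2 r
      by_cases hzM : z ∈ M
      · rw [XA_M A z hzM, YB_M _ z ((memM' z).2 (Or.inr (Or.inr hzM))), hoth z hz z1 z2]
        simp [z2]
      · rw [XA_nM A z hz hzM, YB_nM _ z hz (by rw [memM']; simp [z1, z2, hzM]), hoth z hz z1 z2]
    · intro e he
      rw [Aoff A e he, Boff _ e he, hoff e he]
  · intro A hA e heA
    have hAM := (mem_powersetCard.1 hA).1
    have heM : e ∈ M := hAM heA
    have heU : e ∈ U := hMU heM
    have hej : e ≠ j := by rintro rfl; exact hjM heM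
    have hek : e ≠ k := by rintro rfl; exact hkM heM
    set B := insert j (insert k (A.erase e)) with hB
    have jB : j ∈ B := by simp [hB]
    have kB : k ∈ B := by simp [hB]
    have eB : e ∉ B := by simp [hB, hej, hek]
    have zB : ∀ z, z ≠ j → z ≠ k → z ≠ e → (z ∈ B ↔ z ∈ A) := by
      intro z z1 z2 z3; simp [hB, z1, z2, z3]
    set YB := setC (sl q) (sl i) M' B y with hYB
    set XA := setC (sl q) (sl i) M A x with hXA
    have cj : ∀ r, YB (sl r j) = decide (r = q) := by
      intro r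
      rw [hYB, YB_M _ j hjM', yj]
      rcases hr3 r with rfl | rfl | rfl <;> simp [hpq, hpi, hqi, hpq.symm, hpi.symm, hqi.symm, jB]
    have ck : ∀ r, YB (sl r k) = decide (r ≠ i) := by
      intro r
      rw [hYB, YB_M _ k hkM', yk]
      rcases hr3 r with rfl | rfl | rfl <;> simp [hpq, hpi, hqi, hpq.symm, hpi.symm, hqi.symm, kB]
    have ce : ∀ r, YB (sl r e) = if r = p then x (sl p e) else decide (r = i) := by
      intro r
      rw [hYB, YB_M _ e ((memM' e).2 (Or.inr (Or.inr heM))), ← hoth e heU hej hek]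
      rcases hr3 r with rfl | rfl | rfl <;> simp [hpq, hpi, hqi, hpq.symm, hpi.symm, hqi.symm, eB]
    have de : ∀ r, XA (sl r e) = if r = p then x (sl p e) else decide (r = q) := by
      intro r
      rw [hXA, XA_M _ e heM]
      rcases hr3 r with rfl | rfl | rfl <;> simp [hpq, hpi, hqi, hpq.symm, hpi.symm, hqi.symm, heA]
    have cz : ∀ z ∈ U, z ≠ j → z ≠ k → z ≠ e → ∀ r, YB (sl r z) = XA (sl r z) := by
      intro z hz z1 z2 z3 r
      by_cases hzM : z ∈ M
      · rw [hYB, hXA, XA_M A z hzM, YB_M _ z ((memM' z).2 (Or.inr (Or.inr hzM))), hoth z hz z1 z2]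
        simp only [zB z z1 z2 z3]
      · rw [hYB, hXA, XA_nM A z hz hzM, YB_nM _ z hz (by rw [memM']; simp [z1, z2, hzM]),
          hoth z hz z1 z2]
    have dj : ∀ r, XA (sl r j) = decide (r = p) := by
      intro r; rw [hXA, XA_nM A j hj hjM, xj]
    have dk : ∀ r, XA (sl r k) = decide (r ≠ p) := by
      intro r; rw [hXA, XA_nM A k hk hkM, xk]
    have hoff' : ∀ e, (∀ r, ∀ z ∈ U, e ≠ sl r z) → XA e = YB e := by
      intro e he
      rw [hXA, hYB, Aoff A e he, Boff _ e he, hoff e he]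
    show |f YB - f XA| ≤ b
    rw [abs_sub_comm]
    cases hxe : x (sl p e) with
    | false =>
      have hcs : cs sl YB j = cs sl YB e := by
        rw [cs_eq hpq hpi hqi, cs_eq hpq hpi hqi, cj, cj, cj, ce, ce, ce, hxe]
        simp [hpq, hpi, hqi, hpq.symm, hpi.symm, hqi.symm]
      rw [ha j hj e heU YB hcs]
      refine hb p i j k _ _ ⟨hpi, hjk, hj, hk, dj, dk, ?_, ?_, ?_, ?_⟩
      · intro r
        rw [swp_slot h hj heU r hj, Equiv.swap_apply_left, ce, hxe]
        rcases hr3 r with rfl | rfl | rfl <;> simp [hpq, hpi, hqi, hpq.symm, hpi.symm, hqi.symm]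
      · intro r
        rw [swp_slot h hj heU r hk, Equiv.swap_apply_of_ne_of_ne hjk.symm hek.symm, ck]
      · intro z hz z1 z2 r
        rw [swp_slot h hj heU r hz]
        by_cases z3 : z = e
        · rw [z3, Equiv.swap_apply_right, cj, de, hxe]
          rcases hr3 r with rfl | rfl | rfl <;> simp [hpq, hpi, hqi, hpq.symm, hpi.symm, hqi.symm]
        · rw [Equiv.swap_apply_of_ne_of_ne z1 z3, cz z hz z1 z2 z3]
      · intro e' he'
        rw [swp_off (fun r => ⟨he' r j hj, he' r e heU⟩)]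
        exact hoff' e' he'
    | true =>
      have hcs : cs sl YB k = cs sl YB e := by
        rw [cs_eq hpq hpi hqi, cs_eq hpq hpi hqi, ck, ck, ck, ce, ce, ce, hxe]
        simp [hpq, hpi, hqi, hpq.symm, hpi.symm, hqi.symm]
      rw [ha k hk e heU YB hcs]
      refine hb p q j k _ _ ⟨hpq, hjk, hj, hk, dj, dk, ?_, ?_, ?_, ?_⟩
      · intro r
        rw [swp_slot h hk heU r hj, Equiv.swap_apply_of_ne_of_ne hjk hej.symm, cj]
      · intro r
        rw [swp_slot h hk heU r hk, Equiv.swap_apply_left, ce, hxe]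
        rcases hr3 r with rfl | rfl | rfl <;> simp [hpq, hpi, hqi, hpq.symm, hpi.symm, hqi.symm]
      · intro z hz z1 z2 r
        rw [swp_slot h hk heU r hz]
        by_cases z3 : z = e
        · rw [z3, Equiv.swap_apply_right, ck, de, hxe]
          rcases hr3 r with rfl | rfl | rfl <;> simp [hpq, hpi, hqi, hpq.symm, hpi.symm, hqi.symm]
        · rw [Equiv.swap_apply_of_ne_of_ne z2 z3, cz z hz z1 z2 z3]
      · intro e' he'
        rw [swp_off (fun r => ⟨he' r k hk, he' r e heU⟩)]
        exact hoff' e' he'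
  · intro A hA e heMA
    have hAM := (mem_powersetCard.1 hA).1
    obtain ⟨heM, heA⟩ := mem_sdiff.1 heMA
    have heU : e ∈ U := hMU heM
    have hej : e ≠ j := by rintro rfl; exact hjM heM
    have hek : e ≠ k := by rintro rfl; exact hkM heM
    set B := insert e A with hB
    have jB : j ∉ B := by
      rw [hB, mem_insert]; rintro (h1 | h1)
      · exact hej h1.symm
      · exact hjM (hAM h1)
    have kB : k ∉ B := by
      rw [hB, mem_insert]; rintro (h1 | h1)
      · exact hek h1.symm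
      · exact hkM (hAM h1)
    have eB : e ∈ B := by simp [hB]
    have zB : ∀ z, z ≠ j → z ≠ k → z ≠ e → (z ∈ B ↔ z ∈ A) := by
      intro z z1 z2 z3; simp [hB, z3]
    set YB := setC (sl q) (sl i) M' B y with hYB
    set XA := setC (sl q) (sl i) M A x with hXA
    have cj : ∀ r, YB (sl r j) = decide (r = i) := by
      intro r
      rw [hYB, YB_M _ j hjM', yj]
      rcases hr3 r with rfl | rfl | rfl <;> simp [hpq, hpi, hqi, hpq.symm, hpi.symm, hqi.symm, jB]
    have ck : ∀ r, YB (sl r k) = decide (r ≠ q) := by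
      intro r
      rw [hYB, YB_M _ k hkM', yk]
      rcases hr3 r with rfl | rfl | rfl <;> simp [hpq, hpi, hqi, hpq.symm, hpi.symm, hqi.symm, kB]
    have ce : ∀ r, YB (sl r e) = if r = p then x (sl p e) else decide (r = q) := by
      intro r
      rw [hYB, YB_M _ e ((memM' e).2 (Or.inr (Or.inr heM))), ← hoth e heU hej hek]
      rcases hr3 r with rfl | rfl | rfl <;> simp [hpq, hpi, hqi, hpq.symm, hpi.symm, hqi.symm, eB]
    have de : ∀ r, XA (sl r e) = if r = p then x (sl p e) else decide (r = i) := by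
      intro r
      rw [hXA, XA_M _ e heM]
      rcases hr3 r with rfl | rfl | rfl <;> simp [hpq, hpi, hqi, hpq.symm, hpi.symm, hqi.symm, heA]
    have cz : ∀ z ∈ U, z ≠ j → z ≠ k → z ≠ e → ∀ r, YB (sl r z) = XA (sl r z) := by
      intro z hz z1 z2 z3 r
      by_cases hzM : z ∈ M
      · rw [hYB, hXA, XA_M A z hzM, YB_M _ z ((memM' z).2 (Or.inr (Or.inr hzM))), hoth z hz z1 z2]
        simp only [zB z z1 z2 z3]
      · rw [hYB, hXA, XA_nM A z hz hzM, YB_nM _ z hz (by rw [memM']; simp [z1, z2, hzM]),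
          hoth z hz z1 z2]
    have dj : ∀ r, XA (sl r j) = decide (r = p) := by
      intro r; rw [hXA, XA_nM A j hj hjM, xj]
    have dk : ∀ r, XA (sl r k) = decide (r ≠ p) := by
      intro r; rw [hXA, XA_nM A k hk hkM, xk]
    have hoff' : ∀ e, (∀ r, ∀ z ∈ U, e ≠ sl r z) → XA e = YB e := by
      intro e he
      rw [hXA, hYB, Aoff A e he, Boff _ e he, hoff e he]
    show |f YB - f XA| ≤ b
    rw [abs_sub_comm]
    cases hxe : x (sl p e) with
    | false =>
      have hcs : cs sl YB j = cs sl YB e := by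
        rw [cs_eq hpq hpi hqi, cs_eq hpq hpi hqi, cj, cj, cj, ce, ce, ce, hxe]
        simp [hpq, hpi, hqi, hpq.symm, hpi.symm, hqi.symm]
      rw [ha j hj e heU YB hcs]
      refine hb p q j k _ _ ⟨hpq, hjk, hj, hk, dj, dk, ?_, ?_, ?_, ?_⟩
      · intro r
        rw [swp_slot h hj heU r hj, Equiv.swap_apply_left, ce, hxe]
        rcases hr3 r with rfl | rfl | rfl <;> simp [hpq, hpi, hqi, hpq.symm, hpi.symm, hqi.symm]
      · intro r
        rw [swp_slot h hj heU r hk, Equiv.swap_apply_of_ne_of_ne hjk.symm hek.symm, ck]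
      · intro z hz z1 z2 r
        rw [swp_slot h hj heU r hz]
        by_cases z3 : z = e
        · rw [z3, Equiv.swap_apply_right, cj, de, hxe]
          rcases hr3 r with rfl | rfl | rfl <;> simp [hpq, hpi, hqi, hpq.symm, hpi.symm, hqi.symm]
        · rw [Equiv.swap_apply_of_ne_of_ne z1 z3, cz z hz z1 z2 z3]
      · intro e' he'
        rw [swp_off (fun r => ⟨he' r j hj, he' r e heU⟩)]
        exact hoff' e' he'
    | true =>
      have hcs : cs sl YB k = cs sl YB e := by
        rw [cs_eq hpq hpi hqi, cs_eq hpq hpi hqi, ck, ck, ck, ce, ce, ce, hxe]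
        simp [hpq, hpi, hqi, hpq.symm, hpi.symm, hqi.symm]
      rw [ha k hk e heU YB hcs]
      refine hb p i j k _ _ ⟨hpi, hjk, hj, hk, dj, dk, ?_, ?_, ?_, ?_⟩
      · intro r
        rw [swp_slot h hk heU r hj, Equiv.swap_apply_of_ne_of_ne hjk hej.symm, cj]
      · intro r
        rw [swp_slot h hk heU r hk, Equiv.swap_apply_left, ce, hxe]
        rcases hr3 r with rfl | rfl | rfl <;> simp [hpq, hpi, hqi, hpq.symm, hpi.symm, hqi.symm]
      · intro z hz z1 z2 r
        rw [swp_slot h hk heU r hz]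
        by_cases z3 : z = e
        · rw [z3, Equiv.swap_apply_right, ck, de, hxe]
          rcases hr3 r with rfl | rfl | rfl <;> simp [hpq, hpi, hqi, hpq.symm, hpi.symm, hqi.symm]
        · rw [Equiv.swap_apply_of_ne_of_ne z2 z3, cz z hz z1 z2 z3]
      · intro e' he'
        rw [swp_off (fun r => ⟨he' r k hk, he' r e heU⟩)]
        exact hoff' e' he'

theorem step2 [Fintype S] {sl : Fin 3 → κ → S} {U : Finset κ} (h : Inj sl U)
    (f : (S → Bool) → ℝ) (lam : ℝ) (hlam : 2 < lam)
    (hf : ∀ x, EE sl U 0 f x + EE sl U 1 f x + EE sl U 2 f x = lam * f x)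
    (ha : ∀ j ∈ U, ∀ k ∈ U, ∀ x, cs sl x j = cs sl x k → f x = f (swp sl j k x))
    {p q : Fin 3} {j k : κ} {x y : S → Bool} (hm : Mixed sl U p q j k x y) : f x = f y := by
  refine max_principle (fun x y => ∃ p q j k, Mixed sl U p q j k x y)
    f lam hlam ?_ x y ⟨p, q, j, k, hm⟩
  rintro b hb x y ⟨p, q, j, k, hm⟩
  have hb' : ∀ p q j k x y, Mixed sl U p q j k x y → |f x - f y| ≤ b :=
    fun p q j k x y hm => hb x y ⟨p, q, j, k, hm⟩
  have hpq : p ≠ q := hm.1
  obtain ⟨i, hpi, hqi⟩ : ∃ i, p ≠ i ∧ q ≠ i := by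
    have : ∀ p q : Fin 3, ∃ i, p ≠ i ∧ q ≠ i := by decide
    exact this p q
  have hf' : ∀ x, EE sl U p f x + EE sl U q f x + EE sl U i f x = lam * f x := by
    intro x
    rw [← hf x]
    have e1 : ∑ r, EE sl U r f x = EE sl U p f x + EE sl U q f x + EE sl U i f x := by
      rw [univ3 p q i hpq hpi hqi, sum_insert (by simp [hpq, hpi]), sum_insert (by simp [hqi]),
        sum_singleton]
      ring
    have e2 : ∑ r, EE sl U r f x = EE sl U 0 f x + EE sl U 1 f x + EE sl U 2 f x := by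
      rw [Fin.sum_univ_three]
    rw [← e1, e2]
  have ei : EE sl U i f x - EE sl U i f y = 0 := by
    rw [EE_eq sl U hpq hpi hqi f, cE_congr (hm.rel3 h hpq hpi hqi), sub_self]
  have ep : |EE sl U p f x - EE sl U p f y| ≤ b := by
    rw [EE_eq sl U hqi hpq.symm hpi.symm f, abs_sub_comm]
    exact key_bound h f ha b hb' hpq hpi hqi hm
  have eq : |EE sl U q f x - EE sl U q f y| ≤ b := by
    rw [EE_eq sl U hpi hpq hqi.symm f]
    exact key_bound h f ha b hb' hpq.symm hqi hpi hm.symm
  have hsum : lam * (f x - f y) =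
      (EE sl U p f x - EE sl U p f y) + (EE sl U q f x - EE sl U q f y) +
      (EE sl U i f x - EE sl U i f y) := by
    have := hf' x
    have := hf' y
    linarith
  have habs : lam * |f x - f y| = |lam * (f x - f y)| := by
    rw [abs_mul, abs_of_pos (show (0 : ℝ) < lam by linarith)]
  rw [habs, hsum, ei]
  have d1 := abs_le.1 ep
  have d2 := abs_le.1 eq
  rw [abs_le]; constructor <;> linarith [d1.1, d1.2, d2.1, d2.2]

/-! ### Step 3 -/

theorem step3 [Fintype S] {sl : Fin 3 → κ → S} {U : Finset κ} (h : Inj sl U)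
    (f : (S → Bool) → ℝ)
    (ha : ∀ j ∈ U, ∀ k ∈ U, ∀ x, cs sl x j = cs sl x k → f x = f (swp sl j k x))
    (hb : ∀ p q j k x y, Mixed sl U p q j k x y → f x = f y) {p q i : Fin 3}
    (hpq : p ≠ q) (hpi : p ≠ i) (hqi : q ≠ i) {c d : κ} (hc : c ∈ U) (hd : d ∈ U)
    (x : S → Bool) : f x = f (sw (sl p) (sl q) c d x) := by
  by_cases hO : Osep (sl p) (sl q) c d x
  swap
  · have : sw (sl p) (sl q) c d x = x := by
      funext e; unfold sw; simp [hO]
    rw [this]
  obtain ⟨o1, o2, o3⟩ := hO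
  have hO : Osep (sl p) (sl q) c d x := ⟨o1, o2, o3⟩
  have hcd : c ≠ d := by rintro rfl; exact o3 rfl
  have hr3 := rows3 hpq hpi hqi
  set y := sw (sl p) (sl q) c d x with hy
  have y1 : y (sl p c) = !(x (sl p c)) := by
    rw [hy]; unfold sw; rw [if_pos ⟨hO, Or.inl rfl⟩]
  have y2 : y (sl p d) = !(x (sl p d)) := by
    rw [hy]; unfold sw; rw [if_pos ⟨hO, Or.inr (Or.inl rfl)⟩]
  have y3 : y (sl q c) = !(x (sl q c)) := by
    rw [hy]; unfold sw; rw [if_pos ⟨hO, Or.inr (Or.inr (Or.inl rfl))⟩]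
  have y4 : y (sl q d) = !(x (sl q d)) := by
    rw [hy]; unfold sw; rw [if_pos ⟨hO, Or.inr (Or.inr (Or.inr rfl))⟩]
  have yi : ∀ z ∈ U, y (sl i z) = x (sl i z) := by
    intro z hz
    rw [hy]; unfold sw; rw [if_neg]
    rintro ⟨_, h1 | h1 | h1 | h1⟩
    · exact h.ne hz hc (Or.inl hpi.symm) h1
    · exact h.ne hz hd (Or.inl hpi.symm) h1
    · exact h.ne hz hc (Or.inl hqi.symm) h1
    · exact h.ne hz hd (Or.inl hqi.symm) h1
  have yz : ∀ z ∈ U, z ≠ c → z ≠ d → ∀ r, x (sl r z) = y (sl r z) := by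
    intro z hz z1 z2 r
    rw [hy]; unfold sw; rw [if_neg]
    rintro ⟨_, h1 | h1 | h1 | h1⟩
    · exact h.ne hz hc (Or.inr z1) h1
    · exact h.ne hz hd (Or.inr z2) h1
    · exact h.ne hz hc (Or.inr z1) h1
    · exact h.ne hz hd (Or.inr z2) h1
  have yoff : ∀ e, (∀ r, ∀ z ∈ U, e ≠ sl r z) → x e = y e := by
    intro e he
    rw [hy]; unfold sw; rw [if_neg]
    rintro ⟨_, h1 | h1 | h1 | h1⟩
    · exact he _ _ hc h1
    · exact he _ _ hd h1
    · exact he _ _ hc h1
    · exact he _ _ hd h1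
  by_cases hi : x (sl i c) = x (sl i d)
  · have hcs : cs sl x c = cs sl x d := by
      rw [cs_eq hpq hpi hqi, cs_eq hpq hpi hqi, hi, o1, o2]; ring
    rw [ha c hc d hd x hcs]
    congr 1
    refine state_ext (sl := sl) (U := U) ?_ ?_
    · intro e he
      rw [swp_off (fun r => ⟨he r c hc, he r d hd⟩), yoff e he]
    · intro r z hz
      rw [swp_slot h hc hd r hz]
      by_cases z1 : z = c
      · subst z1
        rw [Equiv.swap_apply_left]
        rcases hr3 r with rfl | rfl | rfl
        · rw [y1]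
          revert o3; cases x (sl r z) <;> cases x (sl r d) <;> simp
        · rw [y3, ← o1, ← o2]
          revert o3; cases x (sl p z) <;> cases x (sl p d) <;> simp
        · rw [yi z hz, hi]
      · by_cases z2 : z = d
        · subst z2
          rw [Equiv.swap_apply_right]
          rcases hr3 r with rfl | rfl | rfl
          · rw [y2]
            revert o3; cases x (sl r z) <;> cases x (sl r c) <;> simp
          · rw [y4, ← o1, ← o2]
            revert o3; cases x (sl p z) <;> cases x (sl p c) <;> simp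
          · rw [yi z hz, hi]
        · rw [Equiv.swap_apply_of_ne_of_ne z1 z2, yz z hz z1 z2]
  · cases hpc : x (sl p c) with
    | true =>
      have hpd : x (sl p d) = false := by
        rw [hpc] at o3; revert o3; cases x (sl p d) <;> simp
      have hqd : x (sl q d) = true := by rw [← o1, hpc]
      have hqc : x (sl q c) = false := by rw [← o2, hpd]
      rw [hpc] at y1; rw [hpd] at y2; rw [hqc] at y3; rw [hqd] at y4
      cases hic : x (sl i c) with
      | false =>
        have hid : x (sl i d) = true := by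
          rw [hic] at hi; revert hi; cases x (sl i d) <;> simp
        refine hb p q c d x y ⟨hpq, hcd, hc, hd, ?_, ?_, ?_, ?_, yz, yoff⟩
        · intro r; rcases hr3 r with rfl | rfl | rfl
          · simp [hpc]
          · simp [hqc, hpq.symm]
          · simp [hic, hpi.symm]
        · intro r; rcases hr3 r with rfl | rfl | rfl
          · simp [hpd]
          · simp [hqd, hpq.symm]
          · simp [hid, hpi.symm]
        · intro r; rcases hr3 r with rfl | rfl | rfl
          · simp [y1, hpq]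
          · simp [y3]
          · rw [yi c hc]; simp [hic, hqi.symm]
        · intro r; rcases hr3 r with rfl | rfl | rfl
          · simp [y2, hpq]
          · simp [y4]
          · rw [yi d hd]; simp [hid, hqi.symm]
      | true =>
        have hid : x (sl i d) = false := by
          rw [hic] at hi; revert hi; cases x (sl i d) <;> simp
        refine hb q p d c x y ⟨hpq.symm, hcd.symm, hd, hc, ?_, ?_, ?_, ?_,
          fun z hz z1 z2 r => yz z hz z2 z1 r, yoff⟩
        · intro r; rcases hr3 r with rfl | rfl | rfl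
          · simp [hpd, hpq]
          · simp [hqd]
          · simp [hid, hqi.symm]
        · intro r; rcases hr3 r with rfl | rfl | rfl
          · simp [hpc, hpq]
          · simp [hqc]
          · simp [hic, hqi.symm]
        · intro r; rcases hr3 r with rfl | rfl | rfl
          · simp [y2]
          · simp [y4, hpq.symm]
          · rw [yi d hd]; simp [hid, hpi.symm]
        · intro r; rcases hr3 r with rfl | rfl | rfl
          · simp [y1]
          · simp [y3, hpq.symm]
          · rw [yi c hc]; simp [hic, hpi.symm]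
    | false =>
      have hpd : x (sl p d) = true := by
        rw [hpc] at o3; revert o3; cases x (sl p d) <;> simp
      have hqd : x (sl q d) = false := by rw [← o1, hpc]
      have hqc : x (sl q c) = true := by rw [← o2, hpd]
      rw [hpc] at y1; rw [hpd] at y2; rw [hqc] at y3; rw [hqd] at y4
      cases hic : x (sl i c) with
      | false =>
        have hid : x (sl i d) = true := by
          rw [hic] at hi; revert hi; cases x (sl i d) <;> simp
        refine hb q p c d x y ⟨hpq.symm, hcd, hc, hd, ?_, ?_, ?_, ?_, yz, yoff⟩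
        · intro r; rcases hr3 r with rfl | rfl | rfl
          · simp [hpc, hpq]
          · simp [hqc]
          · simp [hic, hqi.symm]
        · intro r; rcases hr3 r with rfl | rfl | rfl
          · simp [hpd, hpq]
          · simp [hqd]
          · simp [hid, hqi.symm]
        · intro r; rcases hr3 r with rfl | rfl | rfl
          · simp [y1]
          · simp [y3, hpq.symm]
          · rw [yi c hc]; simp [hic, hpi.symm]
        · intro r; rcases hr3 r with rfl | rfl | rfl
          · simp [y2]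
          · simp [y4, hpq.symm]
          · rw [yi d hd]; simp [hid, hpi.symm]
      | true =>
        have hid : x (sl i d) = false := by
          rw [hic] at hi; revert hi; cases x (sl i d) <;> simp
        refine hb p q d c x y ⟨hpq, hcd.symm, hd, hc, ?_, ?_, ?_, ?_,
          fun z hz z1 z2 r => yz z hz z2 z1 r, yoff⟩
        · intro r; rcases hr3 r with rfl | rfl | rfl
          · simp [hpd]
          · simp [hqd, hpq.symm]
          · simp [hid, hpi.symm]
        · intro r; rcases hr3 r with rfl | rfl | rfl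
          · simp [hpc]
          · simp [hqc, hpq.symm]
          · simp [hic, hpi.symm]
        · intro r; rcases hr3 r with rfl | rfl | rfl
          · simp [y2, hpq]
          · simp [y4]
          · rw [yi d hd]; simp [hid, hqi.symm]
        · intro r; rcases hr3 r with rfl | rfl | rfl
          · simp [y1, hpq]
          · simp [y3]
          · rw [yi c hc]; simp [hic, hqi.symm]

theorem step3' [Fintype S] {sl : Fin 3 → κ → S} {U : Finset κ} (h : Inj sl U)
    (f : (S → Bool) → ℝ)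
    (ha : ∀ j ∈ U, ∀ k ∈ U, ∀ x, cs sl x j = cs sl x k → f x = f (swp sl j k x))
    (hb : ∀ p q j k x y, Mixed sl U p q j k x y → f x = f y) (i : Fin 3) (x : S → Bool) :
    EE sl U i f x = f x := by
  obtain ⟨n1, n2, n3⟩ := fin3_ne i
  have h1 := twoRow_poincare (sl (i + 1)) (sl (i + 2)) U
    (fun a ha b hb hab => (h _ _ a ha b hb hab).2) (fun a ha b hb hab => (h _ _ a ha b hb hab).2)
    (fun z hz w hw => h.ne hz hw (Or.inl n1)) f
  have h2 : ∑ c ∈ U, ∑ d ∈ U, en (sl (i + 1)) (sl (i + 2)) c d f = 0 := by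
    refine sum_eq_zero fun c hc => sum_eq_zero fun d hd => ?_
    unfold en
    refine sum_eq_zero fun x _ => ?_
    rw [← step3 h f ha hb n1 n2 n3 hc hd x, sub_self]
    norm_num
  rw [h2, mul_zero] at h1
  have h3 : (f x - cE (rel (sl (i + 1)) (sl (i + 2)) U) f x) ^ 2 ≤ 0 :=
    le_trans (single_le_sum (f := fun x => (f x - cE (rel (sl (i + 1)) (sl (i + 2)) U) f x) ^ 2)
      (fun x _ => sq_nonneg _) (mem_univ x)) h1
  have h4 : f x - cE (rel (sl (i + 1)) (sl (i + 2)) U) f x = 0 := by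
    have := sq_nonneg (f x - cE (rel (sl (i + 1)) (sl (i + 2)) U) f x)
    exact pow_eq_zero_iff (n := 2) (by norm_num) |>.1 (le_antisymm h3 this)
  unfold EE
  linarith

/-- the operator `3 - E₀ - E₁ - E₂` -/
noncomputable def KK [Fintype S] (sl : Fin 3 → κ → S) (U : Finset κ) :
    ((S → Bool) → ℝ) →ₗ[ℝ] ((S → Bool) → ℝ) where
  toFun f := fun x => 3 * f x - (EE sl U 0 f x + EE sl U 1 f x + EE sl U 2 f x)
  map_add' f g := by
    funext x
    have h : ∀ i, EE sl U i (f + g) x = EE sl U i f x + EE sl U i g x := fun i => cE_add _ f g x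
    simp only [Pi.add_apply, h]
    ring
  map_smul' c f := by
    funext x
    have h : ∀ i, EE sl U i (c • f) x = c * EE sl U i f x := fun i => cE_mul_const _ c f x
    simp only [Pi.smul_apply, smul_eq_mul, h, RingHom.id_apply]
    ring

end TR

open TR in
theorem threeRow {κ S : Type*} [DecidableEq κ] [DecidableEq S] [Fintype S] (sl : Fin 3 → κ → S)
    (U : Finset κ)
    (hsl : ∀ i j, ∀ z ∈ U, ∀ w ∈ U, sl i z = sl j w → i = j ∧ z = w) (f : (S → Bool) → ℝ) :
    0 ≤ ∑ x, ((f x - cE (rel (sl 1) (sl 2) U) f x) * (f x - cE (rel (sl 2) (sl 0) U) f x)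
      + (f x - cE (rel (sl 2) (sl 0) U) f x) * (f x - cE (rel (sl 0) (sl 1) U) f x)
      + (f x - cE (rel (sl 0) (sl 1) U) f x) * (f x - cE (rel (sl 1) (sl 2) U) f x)) := by
  have h : Inj sl U := hsl
  have hsymm : ∀ f g : (S → Bool) → ℝ, ∑ x, g x * KK sl U f x = ∑ x, KK sl U g x * f x := by
    intro f g
    have e : ∀ i, ∑ x, g x * EE sl U i f x = ∑ x, EE sl U i g x * f x :=
      fun i => cE_symm _ f g
    have l : ∀ x, g x * KK sl U f x = 3 * (g x * f x) - (g x * EE sl U 0 f x +
      g x * EE sl U 1 f x + g x * EE sl U 2 f x) := by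
      intro x; show g x * (3 * f x - (EE sl U 0 f x + EE sl U 1 f x + EE sl U 2 f x)) = _; ring
    have r : ∀ x, KK sl U g x * f x = 3 * (g x * f x) - (EE sl U 0 g x * f x +
      EE sl U 1 g x * f x + EE sl U 2 g x * f x) := by
      intro x; show (3 * g x - (EE sl U 0 g x + EE sl U 1 g x + EE sl U 2 g x)) * f x = _; ring
    rw [sum_congr rfl fun x _ => l x, sum_congr rfl fun x _ => r x, sum_sub_distrib,
      sum_sub_distrib, sum_add_distrib, sum_add_distrib, sum_add_distrib, sum_add_distrib,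
      e 0, e 1, e 2]
  have hev : ∀ (μ : ℝ) (f : (S → Bool) → ℝ), (∀ x, KK sl U f x = μ * f x) → f ≠ 0 →
      μ = 0 ∨ 1 ≤ μ := by
    intro μ f hμ hf0
    by_contra hcon
    push Not at hcon
    obtain ⟨hμ0, hμ1⟩ := hcon
    have hf : ∀ x, EE sl U 0 f x + EE sl U 1 f x + EE sl U 2 f x = (3 - μ) * f x := by
      intro x
      have := hμ x
      change 3 * f x - (EE sl U 0 f x + EE sl U 1 f x + EE sl U 2 f x) = μ * f x at this
      linarith
    have hlam : 2 < 3 - μ := by linarith
    have ha : ∀ j ∈ U, ∀ k ∈ U, ∀ x, cs sl x j = cs sl x k → f x = f (swp sl j k x) :=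
      fun j hj k hk x hx => step1 h f (3 - μ) hlam hf hj hk x hx
    have hb : ∀ p q j k x y, Mixed sl U p q j k x y → f x = f y :=
      fun p q j k x y hm => step2 h f (3 - μ) hlam hf ha hm
    apply hf0
    funext x
    have h3 := hf x
    rw [step3' h f ha hb 0 x, step3' h f ha hb 1 x, step3' h f ha hb 2 x] at h3
    have h4 : μ * f x = 0 := by linarith
    rcases mul_eq_zero.1 h4 with h5 | h5
    · exact absurd h5 hμ0
    · exact h5
  have hmain := spectral_trick (KK sl U) hsymm hev f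
  -- expand
  set a : (S → Bool) → ℝ := fun x => f x - cE (rel (sl 1) (sl 2) U) f x with ha
  set b : (S → Bool) → ℝ := fun x => f x - cE (rel (sl 2) (sl 0) U) f x with hb
  set c : (S → Bool) → ℝ := fun x => f x - cE (rel (sl 0) (sl 1) U) f x with hc
  have hK : ∀ x, KK sl U f x = a x + b x + c x := by
    intro x
    show 3 * f x - (cE (rel (sl (0 + 1)) (sl (0 + 2)) U) f x +
      cE (rel (sl (1 + 1)) (sl (1 + 2)) U) f x + cE (rel (sl (2 + 1)) (sl (2 + 2)) U) f x) = _
    have e1 : (0 + 1 : Fin 3) = 1 := by decide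
    have e2 : (0 + 2 : Fin 3) = 2 := by decide
    have e3 : (1 + 1 : Fin 3) = 2 := by decide
    have e4 : (1 + 2 : Fin 3) = 0 := by decide
    have e5 : (2 + 1 : Fin 3) = 0 := by decide
    have e6 : (2 + 2 : Fin 3) = 1 := by decide
    rw [e1, e2, e3, e4, e5, e6, ha, hb, hc]
    ring
  have q1 : ∑ x, f x * a x = ∑ x, a x ^ 2 := sum_mul_sub_cE _ f
  have q2 : ∑ x, f x * b x = ∑ x, b x ^ 2 := sum_mul_sub_cE _ f
  have q3 : ∑ x, f x * c x = ∑ x, c x ^ 2 := sum_mul_sub_cE _ f
  have l1 : ∑ x, f x * KK sl U f x = ∑ x, a x ^ 2 + ∑ x, b x ^ 2 + ∑ x, c x ^ 2 := by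
    rw [← q1, ← q2, ← q3, ← sum_add_distrib, ← sum_add_distrib]
    refine sum_congr rfl fun x _ => ?_
    rw [hK]; ring
  have l2 : ∑ x, (KK sl U f x) ^ 2 = ∑ x, a x ^ 2 + ∑ x, b x ^ 2 + ∑ x, c x ^ 2 +
      2 * ∑ x, (a x * b x + b x * c x + c x * a x) := by
    rw [mul_sum, ← sum_add_distrib, ← sum_add_distrib, ← sum_add_distrib]
    refine sum_congr rfl fun x _ => ?_
    rw [hK]; ring
  rw [l1, l2] at hmain
  linarith

end Crest.Agent.R299
end

-- ▼ part R299/TripleGraph

/-!
Row 299: transfer of the three-row lemma to the graph triple `a, b, c`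
(extra column `none` = negated inner slots).
-/

set_option autoImplicit false
set_option linter.unusedSectionVars false
set_option linter.unusedVariables false
open Finset

namespace Crest.Agent.R299

/-- The three-row lemma as a hypothesis. -/
def ThreeRowStatement : Prop :=
  ∀ (κ S : Type) [DecidableEq κ] [DecidableEq S] [Fintype S] (sl : Fin 3 → κ → S) (U : Finset κ),
    (∀ i j, ∀ z ∈ U, ∀ w ∈ U, sl i z = sl j w → i = j ∧ z = w) → ∀ f : (S → Bool) → ℝ,
    0 ≤ ∑ x, ((f x - cE (rel (sl 1) (sl 2) U) f x) * (f x - cE (rel (sl 2) (sl 0) U) f x)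
      + (f x - cE (rel (sl 2) (sl 0) U) f x) * (f x - cE (rel (sl 0) (sl 1) U) f x)
      + (f x - cE (rel (sl 0) (sl 1) U) f x) * (f x - cE (rel (sl 1) (sl 2) U) f x))

/-- Conjugation of conditional expectations. -/
theorem cE_conj {α β : Type*} [Fintype α] [Fintype β] {r : Setoid α} {s : Setoid β} (φ : α ≃ β)
    (h : ∀ x y, r x y ↔ s (φ x) (φ y)) (f : α → ℝ) (x : α) :
    cE r f x = cE s (fun y => f (φ.symm y)) (φ x) := by
  unfold cE
  have hcard : (cls r x).card = (cls s (φ x)).card := by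
    apply card_bij (fun y _ => φ y)
    · intro y hy; exact mem_cls.mpr ((h x y).mp (mem_cls.mp hy))
    · intro a _ b _ hab; exact φ.injective hab
    · intro y hy
      refine ⟨φ.symm y, mem_cls.mpr ?_, by simp⟩
      rw [h]; simpa using mem_cls.mp hy
  rw [hcard]
  congr 1
  apply sum_bij (fun y _ => φ y)
  · intro y hy; exact mem_cls.mpr ((h x y).mp (mem_cls.mp hy))
  · intro a _ b _ hab; exact φ.injective hab
  · intro y hy
    refine ⟨φ.symm y, mem_cls.mpr ?_, by simp⟩
    rw [h]; simpa using mem_cls.mp hy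
  · intro y _; simp

namespace Triple

variable {V : Type*} [Fintype V] [DecidableEq V]

/-- flip the inner slots of `T` -/
def mask (T : Finset V) (x : Sym2 V → Bool) : Sym2 V → Bool := fun e =>
  if (∃ u ∈ T, ∃ v ∈ T, u ≠ v ∧ e = s(u, v)) then !(x e) else x e

theorem mask_mask (T : Finset V) (x : Sym2 V → Bool) : mask T (mask T x) = x := by
  funext e
  unfold mask
  split_ifs <;> simp

/-- `mask` as an equivalence -/
def maskEquiv (T : Finset V) : (Sym2 V → Bool) ≃ (Sym2 V → Bool) where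
  toFun := mask T
  invFun := mask T
  left_inv := mask_mask T
  right_inv := mask_mask T

theorem mask_eq_iff (T : Finset V) (x y : Sym2 V → Bool) (e : Sym2 V) :
    mask T x e = mask T y e ↔ x e = y e := by
  unfold mask
  split_ifs <;> simp

theorem mask_outer {T : Finset V} {p z : V} (hz : z ∉ T) (x : Sym2 V → Bool) :
    mask T x s(p, z) = x s(p, z) := by
  unfold mask
  rw [if_neg]
  rintro ⟨u, hu, v, hv, _, h⟩
  rw [Sym2.eq_iff] at h
  rcases h with ⟨_, rfl⟩ | ⟨_, rfl⟩
  · exact hz hv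
  · exact hz hu

theorem mask_inner {T : Finset V} {u v : V} (hu : u ∈ T) (hv : v ∈ T) (huv : u ≠ v)
    (x : Sym2 V → Bool) : mask T x s(u, v) = !(x s(u, v)) := by
  unfold mask
  rw [if_pos]
  exact ⟨u, hu, v, hv, huv, rfl⟩

/-- The slots of row `p` in the triple `p, q, r`. -/
def slot (p q r : V) : Option V → Sym2 V
  | none => s(q, r)
  | some z => s(p, z)

/-- The columns. -/
def UU (T : Finset V) : Finset (Option V) := insert none ((univ \ T).image some)

theorem sum_UU (T : Finset V) (g : Option V → ℕ) :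
    ∑ z ∈ UU T, g z = g none + ∑ z ∈ univ \ T, g (some z) := by
  unfold UU
  rw [sum_insert (by simp), sum_image (fun a _ b _ h => Option.some_injective _ h)]

theorem forall_UU (T : Finset V) (P : Option V → Prop) :
    (∀ z ∈ UU T, P z) ↔ P none ∧ ∀ z, z ∉ T → P (some z) := by
  unfold UU
  simp

theorem cols_eq {T : Finset V} {p q r : V} (hT : ∀ v, v ∈ T ↔ v = p ∨ v = q ∨ v = r)
    (hqr : q ≠ r) (hrp : r ≠ p) : cols p q = insert r (univ \ T) := by
  ext z
  unfold cols
  simp only [mem_erase, mem_univ, and_true, mem_insert, mem_sdiff, true_and, hT]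
  constructor
  · rintro ⟨h1, h2⟩
    by_cases h : z = r
    · exact Or.inl h
    · right; tauto
  · rintro (rfl | h)
    · exact ⟨fun h => hqr h.symm, hrp⟩
    · tauto

theorem grel_iff {T : Finset V} {p q r : V} (hT : ∀ v, v ∈ T ↔ v = p ∨ v = q ∨ v = r)
    (hpq : p ≠ q) (hqr : q ≠ r) (hrp : r ≠ p) (x y : Sym2 V → Bool) :
    grel p q x y ↔ rel (slot p q r) (slot q r p) (UU T) (mask T x) (mask T y) := by
  have hp : p ∈ T := (hT p).mpr (Or.inl rfl)
  have hq : q ∈ T := (hT q).mpr (Or.inr (Or.inl rfl))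
  have hr : r ∈ T := (hT r).mpr (Or.inr (Or.inr rfl))
  have hrT : r ∉ (univ \ T : Finset V) := by simp [hr]
  unfold grel
  rw [rel_iff, rel_iff, cols_eq hT hqr hrp]
  simp only [forall_UU, sum_UU, slot, forall_mem_insert, sum_insert hrT, mem_sdiff, mem_univ,
    true_and, mask_inner hq hr hqr, mask_inner hr hp hrp, mask_eq_iff]
  have e1 : s(p, r) = s(r, p) := Sym2.eq_swap
  rw [e1]
  -- the outer sums
  have hs : ∀ (w : V) (x : Sym2 V → Bool), ∑ z ∈ univ \ T, (mask T x s(w, z)).toNat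
      = ∑ z ∈ univ \ T, (x s(w, z)).toNat := by
    intro w x
    apply sum_congr rfl
    intro z hz
    rw [mask_outer (by simpa using hz)]
  rw [hs, hs]
  have hc : (∀ z, z ∉ T → (mask T x s(p, z)).toNat + (mask T x s(q, z)).toNat
        = (mask T y s(p, z)).toNat + (mask T y s(q, z)).toNat) ↔
      ∀ z, z ∉ T → (x s(p, z)).toNat + (x s(q, z)).toNat
        = (y s(p, z)).toNat + (y s(q, z)).toNat := by
    apply forall_congr'
    intro z
    apply forall_congr'
    intro hz
    rw [mask_outer hz, mask_outer hz, mask_outer hz, mask_outer hz]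
  rw [hc]
  have hoff : ∀ e, ((e ≠ s(r, p) ∧ e ≠ s(q, r)) ∧ ∀ z, z ∉ T → e ≠ s(p, z) ∧ e ≠ s(q, z)) ↔
      ((e ≠ s(q, r) ∧ e ≠ s(r, p)) ∧ ∀ z, z ∉ T → e ≠ s(p, z) ∧ e ≠ s(q, z)) := by
    intro e; tauto
  simp only [hoff]
  constructor
  · rintro ⟨h1, ⟨h2, h3⟩, h4⟩
    refine ⟨h1, ⟨?_, h3⟩, ?_⟩
    · revert h2
      cases x s(r, p) <;> cases x s(q, r) <;> cases y s(r, p) <;> cases y s(q, r) <;> simp
    · revert h2 h4
      cases x s(r, p) <;> cases x s(q, r) <;> cases y s(r, p) <;> cases y s(q, r) <;>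
        simp
  · rintro ⟨h1, ⟨h2, h3⟩, h4⟩
    refine ⟨h1, ⟨?_, h3⟩, ?_⟩
    · revert h2
      cases x s(r, p) <;> cases x s(q, r) <;> cases y s(r, p) <;> cases y s(q, r) <;> simp
    · revert h2 h4
      cases x s(r, p) <;> cases x s(q, r) <;> cases y s(r, p) <;> cases y s(q, r) <;>
        simp

theorem cE_grel {T : Finset V} {p q r : V} (hT : ∀ v, v ∈ T ↔ v = p ∨ v = q ∨ v = r)
    (hpq : p ≠ q) (hqr : q ≠ r) (hrp : r ≠ p) (f : (Sym2 V → Bool) → ℝ) (x : Sym2 V → Bool) :
    cE (grel p q) f (mask T x)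
      = cE (rel (slot p q r) (slot q r p) (UU T)) (fun y => f (mask T y)) x := by
  have := cE_conj (maskEquiv T) (grel_iff hT hpq hqr hrp) f (mask T x)
  rw [this]
  show cE (rel (slot p q r) (slot q r p) (UU T)) (fun y => f (mask T y)) (mask T (mask T x)) = _
  rw [mask_mask]

theorem slot_inj {T : Finset V} {a b c : V} (hT : ∀ v, v ∈ T ↔ v = a ∨ v = b ∨ v = c)
    (hab : a ≠ b) (hbc : b ≠ c) (hca : c ≠ a) (i j : Fin 3) (z : Option V) (hz : z ∈ UU T)
    (w : Option V) (hw : w ∈ UU T)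
    (h : (![slot a b c, slot b c a, slot c a b] : Fin 3 → Option V → Sym2 V) i z
      = (![slot a b c, slot b c a, slot c a b] : Fin 3 → Option V → Sym2 V) j w) :
    i = j ∧ z = w := by
  have hz' : ∀ z', z = some z' → z' ≠ a ∧ z' ≠ b ∧ z' ≠ c := by
    intro z' h'
    subst h'
    unfold UU at hz
    simp only [mem_insert, reduceCtorEq, mem_image, mem_sdiff, mem_univ, true_and,
      Option.some.injEq, exists_eq_right, false_or, hT, not_or] at hz
    exact hz
  have hw' : ∀ w', w = some w' → w' ≠ a ∧ w' ≠ b ∧ w' ≠ c := by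
    intro w' h'
    subst h'
    unfold UU at hw
    simp only [mem_insert, reduceCtorEq, mem_image, mem_sdiff, mem_univ, true_and,
      Option.some.injEq, exists_eq_right, false_or, hT, not_or] at hw
    exact hw
  clear hz hw hT
  rcases z with _ | z <;> rcases w with _ | w
  · fin_cases i <;> fin_cases j <;>
      simp [slot] at h ⊢ <;> tauto
  · obtain ⟨h1, h2, h3⟩ := hw' w rfl
    fin_cases i <;> fin_cases j <;>
      simp [slot] at h ⊢ <;> aesop
  · obtain ⟨h1, h2, h3⟩ := hz' z rfl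
    fin_cases i <;> fin_cases j <;>
      simp [slot] at h ⊢ <;> aesop
  · obtain ⟨h1, h2, h3⟩ := hz' z rfl
    obtain ⟨h4, h5, h6⟩ := hw' w rfl
    fin_cases i <;> fin_cases j <;>
      simp [slot] at h ⊢ <;> aesop

end Triple

/-- **Triple inequality for graphs** from the three-row lemma. -/
theorem triple_graph {V : Type} [Fintype V] [DecidableEq V] (h3 : ThreeRowStatement)
    (a b c : V) (hab : a ≠ b) (hbc : b ≠ c) (hca : c ≠ a) (f : (Sym2 V → Bool) → ℝ) :
    0 ≤ ∑ x, (hh a b f x * hh b c f x + hh b c f x * hh c a f x + hh c a f x * hh a b f x) := by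
  set T : Finset V := {a, b, c} with hTdef
  have hT1 : ∀ v, v ∈ T ↔ v = a ∨ v = b ∨ v = c := by intro v; simp [hTdef]
  have hT2 : ∀ v, v ∈ T ↔ v = b ∨ v = c ∨ v = a := by intro v; rw [hT1]; tauto
  have hT3 : ∀ v, v ∈ T ↔ v = c ∨ v = a ∨ v = b := by intro v; rw [hT1]; tauto
  have key := h3 (Option V) (Sym2 V)
    (![Triple.slot a b c, Triple.slot b c a, Triple.slot c a b] : Fin 3 → Option V → Sym2 V)
    (Triple.UU T) (fun i j z hz w hw h => Triple.slot_inj hT1 hab hbc hca i j z hz w hw h)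
    (fun y => f (Triple.mask T y))
  have e0 : (![Triple.slot a b c, Triple.slot b c a, Triple.slot c a b] :
    Fin 3 → Option V → Sym2 V) 0 = Triple.slot a b c := rfl
  have e1 : (![Triple.slot a b c, Triple.slot b c a, Triple.slot c a b] :
    Fin 3 → Option V → Sym2 V) 1 = Triple.slot b c a := rfl
  have e2 : (![Triple.slot a b c, Triple.slot b c a, Triple.slot c a b] :
    Fin 3 → Option V → Sym2 V) 2 = Triple.slot c a b := rfl
  rw [e0, e1, e2] at key
  have hsum : ∑ x, (hh a b f x * hh b c f x + hh b c f x * hh c a f x + hh c a f x * hh a b f x)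
      = ∑ x, (hh a b f (Triple.maskEquiv T x) * hh b c f (Triple.maskEquiv T x)
        + hh b c f (Triple.maskEquiv T x) * hh c a f (Triple.maskEquiv T x)
        + hh c a f (Triple.maskEquiv T x) * hh a b f (Triple.maskEquiv T x)) :=
    (Equiv.sum_comp (Triple.maskEquiv T) _).symm
  rw [hsum]
  refine key.trans (le_of_eq ?_)
  apply sum_congr rfl
  intro x _
  have m : Triple.maskEquiv T x = Triple.mask T x := rfl
  rw [m]
  unfold hh
  rw [Triple.cE_grel hT1 hab hbc hca, Triple.cE_grel hT2 hbc hca hab,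
    Triple.cE_grel hT3 hca hab hbc]
  ring

end Crest.Agent.R299
private theorem rz_64fe97c4b5 : type_of% @_root_.Crest.Agent.R299.Triple.slot.eq_1 := @_root_.Crest.Agent.R299.Triple.slot.eq_1 -- L88
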